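import Mathlib

/-!
Marks on a cloud and the nesting invariant of displacement vectors.

A cloud has marks `U k i < D k i` (`k ≤ t`, `i < d`), ordered lexicographically by `(k, i)`.
-/

namespace Vale.Agent.P125

open Finset

noncomputable section

/-- The `l`-th mark of the child `(i, b)`. -/
def mkIdx (d i : ℕ) (b : Bool) (l : ℕ) : ℕ :=
  2 * ((l + b.toNat) / 2 * d + i) + (l + b.toNat) % 2

theorem pos_lt {d k k' i i' : ℕ} (hi : i < d) (h : k < k' ∨ k = k' ∧ i < i') :
    k * d + i < k' * d + i' := by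
  rcases h with h | ⟨h, h'⟩
  · have := Nat.mul_le_mul_right d (show k + 1 ≤ k' from h)
    linarith
  · subst h; omega

theorem mkIdx_lt {d i : ℕ} {b : Bool} {l t : ℕ} (hi : i < d) (hl : l < 2 * t) :
    mkIdx d i b l < 2 * d * (t + 1) := by
  have hb : b.toNat ≤ 1 := by cases b <;> simp
  have h1 : (l + b.toNat) / 2 < t + 1 := by omega
  have h2 := pos_lt (i' := 0) hi (Or.inl h1)
  have h3 : (l + b.toNat) % 2 < 2 := Nat.mod_lt _ (by norm_num)
  unfold mkIdx
  rw [mul_assoc, mul_comm d (t + 1)]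
  omega

theorem mkIdx_strictMono {d i : ℕ} {b : Bool} (hi : i < d) : StrictMono (mkIdx d i b) := by
  apply strictMono_nat_of_lt_succ
  intro l
  have hb : b.toNat ≤ 1 := by cases b <;> simp
  unfold mkIdx
  rcases Nat.mod_two_eq_zero_or_one (l + b.toNat) with h | h
  · have h1 : (l + 1 + b.toNat) / 2 = (l + b.toNat) / 2 := by omega
    have h2 : (l + 1 + b.toNat) % 2 = 1 := by omega
    rw [h1, h2, h]; omega
  · have h1 : (l + 1 + b.toNat) / 2 = (l + b.toNat) / 2 + 1 := by omega
    have h2 : (l + 1 + b.toNat) % 2 = 0 := by omega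
    have h3 := pos_lt (i' := i) hi (k := (l + b.toNat) / 2) (k' := (l + b.toNat) / 2 + 1)
      (Or.inl (by omega))
    rw [h1, h2, h]; omega

/-- The marks of the child `(i, b)` as elements of `Fin (2 * d * (t + 1))`. -/
def mark (t d : ℕ) (i : Fin d) (b : Bool) (l : Fin (2 * t)) : Fin (2 * d * (t + 1)) :=
  ⟨mkIdx d i b l, mkIdx_lt i.isLt l.isLt⟩

theorem mark_strictMono (t d : ℕ) (i : Fin d) (b : Bool) : StrictMono (mark t d i b) :=
  fun _ _ h => mkIdx_strictMono i.isLt h

/-- The sign vector of a child. -/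
def label {n r : ℕ} (τ : Fin r → Fin n) (b : Bool) : Fin n → ℤ :=
  ∑ l, Pi.single (τ l) ((if b then -1 else 1) * (-1) ^ (l : ℕ))

/-- Partial sums. -/
def psum {n : ℕ} (z : Fin n → ℤ) (p : ℕ) : ℤ := ∑ j : Fin n, if (j : ℕ) ≤ p then z j else 0

theorem psum_add {n : ℕ} (z w : Fin n → ℤ) (p : ℕ) : psum (z + w) p = psum z p + psum w p := by
  unfold psum
  rw [← Finset.sum_add_distrib]
  refine Finset.sum_congr rfl fun j _ => ?_
  split_ifs <;> simp

theorem alt_sum_filter {r c : ℕ} (hc : c ≤ r) :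
    ∑ l : Fin r, (if (l : ℕ) < c then (-1 : ℤ) ^ (l : ℕ) else 0) = (c % 2 : ℕ) := by
  rw [Fin.sum_univ_eq_sum_range (fun l => if l < c then (-1 : ℤ) ^ l else 0) r,
    ← Finset.sum_filter]
  have : (Finset.range r).filter (fun l => l < c) = Finset.range c := by
    ext l; simp; omega
  rw [this, neg_one_geom_sum]
  rcases Nat.mod_two_eq_zero_or_one c with h | h
  · simp [Nat.even_iff, h]
  · simp [Nat.even_iff, h]

theorem psum_label {n r c p : ℕ} (τ : Fin r → Fin n) (b : Bool) (hc : c ≤ r)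
    (hp : ∀ l, (τ l : ℕ) ≤ p ↔ (l : ℕ) < c) :
    psum (label τ b) p + b.toNat = ((c + b.toNat) % 2 : ℕ) := by
  have : psum (label τ b) p = (if b then -1 else 1) * ((c % 2 : ℕ) : ℤ) := by
    rw [← alt_sum_filter hc, Finset.mul_sum]
    unfold psum label
    simp only [Finset.sum_apply, ← Finset.sum_filter]
    rw [Finset.sum_comm]
    refine Finset.sum_congr rfl fun l _ => ?_
    rw [Finset.sum_pi_single']
    simp only [Finset.mem_filter, Finset.mem_univ, true_and, hp l, mul_ite, mul_zero]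
  rw [this]
  cases b
  · simp
  · rcases Nat.mod_two_eq_zero_or_one c with h | h <;>
      simp [h, show (c + 1) % 2 = 1 - c % 2 by omega]

theorem sum_label {n t : ℕ} (τ : Fin (2 * t) → Fin n) (b : Bool) : ∑ j, label τ b j = 0 := by
  unfold label
  simp only [Finset.sum_apply]
  rw [Finset.sum_comm]
  simp only [Finset.sum_pi_single', Finset.mem_univ, if_true, ← Finset.mul_sum]
  rw [Fin.sum_univ_eq_sum_range (fun l => (-1 : ℤ) ^ l), neg_one_geom_sum]
  simp

/-- Extension of a cloud to a function on `ℕ`. -/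
def pos {N n : ℕ} (ω : Fin N → Fin n) (m : ℕ) : ℕ := if h : m < N then (ω ⟨m, h⟩ : ℕ) else 0

theorem pos_lt_pos {N n : ℕ} {ω : Fin N → Fin n} (hω : StrictMono ω) {a b : ℕ} (hab : a < b)
    (hb : b < N) : pos ω a < pos ω b := by
  unfold pos
  rw [dif_pos hb, dif_pos (hab.trans hb)]
  exact hω hab

theorem pos_mono {N n : ℕ} {ω : Fin N → Fin n} (hω : StrictMono ω) {a b : ℕ} (hab : a ≤ b)
    (hb : b < N) : pos ω a ≤ pos ω b := by
  rcases hab.lt_or_eq with h | h
  · exact (pos_lt_pos hω h hb).le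
  · rw [h]

/-- The nesting invariant after `s` steps: the arcs `[D k i, U (k+1) i)` for `k ∈ [A, A + L)` are
high (partial sum plus `β` equals `s`) and between two of them there is a point where the partial
sum plus `β` is zero. -/
def NestInv (t d : ℕ) {n : ℕ} (s : ℕ) (z : Fin n → ℤ) (ω : Fin (2 * d * (t + 1)) → Fin n)
    (i : ℕ) : Prop :=
  ∑ j, z j = 0 ∧ ∃ (β : ℕ) (A L : ℕ), β ≤ s ∧ A + L + 1 ≤ t ∧ t ≤ L + 2 * s + 1 ∧
    (∀ k, A ≤ k → k < A + L → ∀ p, pos ω (2 * (k * d + i) + 1) ≤ p →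
      p < pos ω (2 * ((k + 1) * d + i)) → psum z p + β = s) ∧
    (∀ k, A ≤ k → k + 1 < A + L → ∃ p, pos ω (2 * ((k + 1) * d + i)) ≤ p ∧
      p < pos ω (2 * ((k + 1) * d + i) + 1) ∧ psum z p + β = 0)

theorem nestInv_zero {t d n : ℕ} (ω : Fin (2 * d * (t + 1)) → Fin n) (hω : StrictMono ω)
    {i : ℕ} (hi : i < d) (ht : 1 ≤ t) : NestInv t d 0 (0 : Fin n → ℤ) ω i := by
  refine ⟨by simp, 0, 0, t - 1, le_rfl, by omega, by omega, fun k _ _ p _ _ => by simp [psum],
    fun k _ hk => ⟨pos ω (2 * ((k + 1) * d + i)), le_rfl, ?_, by simp [psum]⟩⟩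
  refine pos_lt_pos hω (Nat.lt_succ_self _) ?_
  have := pos_lt (i' := 0) hi (Or.inl (show k + 1 < t + 1 by omega))
  rw [mul_assoc, mul_comm d (t + 1)]; omega

theorem nestInv_step {t d n : ℕ} {s : ℕ} {z : Fin n → ℤ}
    {ω ω' : Fin (2 * d * (t + 1)) → Fin n} (hω : StrictMono ω)
    {i : ℕ} (hi : i < d) {i₁ i' : Fin d} (hne : (i₁ : ℕ) ≠ i) (b : Bool)
    (heq : ω ∘ mark t d i₁ b = ω' ∘ mark t d i' (!b)) (hs : 2 * s + 3 ≤ t)
    (h : NestInv t d s z ω i) :
    NestInv t d (s + 1) (z + label (ω ∘ mark t d i₁ b) b) ω' i' := by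
  obtain ⟨hz, β, A, L, hβ, hAL, hL, hH, hLw⟩ := h
  obtain ⟨e, he1, he⟩ : ∃ e : ℕ, e ≤ 1 ∧
      ((e = 0 ∧ i < i₁) ∨ (e = 1 ∧ (i₁ : ℕ) < i)) := by
    rcases Nat.lt_or_gt_of_ne hne with h' | h'
    · exact ⟨1, le_rfl, Or.inr ⟨rfl, h'⟩⟩
    · exact ⟨0, by omega, Or.inl ⟨rfl, h'⟩⟩
  set τ := ω ∘ mark t d i₁ b with hτdef
  have hb : b.toNat ≤ 1 := by cases b <;> simp
  have hnb : (!b).toNat = 1 - b.toNat := by cases b <;> simp
  have hτ : StrictMono τ := hω.comp (mark_strictMono t d i₁ b)
  have hpos : ∀ l : Fin (2 * t), (τ l : ℕ) = pos ω (mkIdx d i₁ b l) := by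
    intro l; unfold pos; rw [dif_pos (mkIdx_lt i₁.isLt l.isLt)]; rfl
  have hpos' : ∀ l : Fin (2 * t), (τ l : ℕ) = pos ω' (mkIdx d i' (!b) l) := by
    intro l; rw [heq]; unfold pos; rw [dif_pos (mkIdx_lt i'.isLt l.isLt)]; rfl
  have hN : ∀ {k j x : ℕ}, k ≤ t → j < d → x ≤ 1 → 2 * (k * d + j) + x < 2 * d * (t + 1) := by
    intro k j x hk hj hx
    have := pos_lt (i' := 0) hj (Or.inl (show k < t + 1 by omega))
    rw [mul_assoc, mul_comm d (t + 1)]; omega
  -- the two ends of the arc `j`, seen in the old and in the new cloud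
  have hends : ∀ j, 1 ≤ j → j + 1 ≤ t →
      pos ω (2 * (j * d + i₁)) = pos ω' (2 * ((j - b.toNat) * d + i') + 1) ∧
      pos ω (2 * (j * d + i₁) + 1) = pos ω' (2 * ((j - b.toNat + 1) * d + i')) := by
    intro j hj hjt
    constructor
    · have := (hpos ⟨2 * j - b.toNat, by omega⟩).symm.trans (hpos' ⟨2 * j - b.toNat, by omega⟩)
      unfold mkIdx at this
      simp only [hnb] at this
      rw [show (2 * j - b.toNat + b.toNat) / 2 = j by omega,
        show (2 * j - b.toNat + b.toNat) % 2 = 0 by omega,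
        show (2 * j - b.toNat + (1 - b.toNat)) / 2 = j - b.toNat by omega,
        show (2 * j - b.toNat + (1 - b.toNat)) % 2 = 1 by omega] at this
      simpa using this
    · have := (hpos ⟨2 * j - b.toNat + 1, by omega⟩).symm.trans
        (hpos' ⟨2 * j - b.toNat + 1, by omega⟩)
      unfold mkIdx at this
      simp only [hnb] at this
      rw [show (2 * j - b.toNat + 1 + b.toNat) / 2 = j by omega,
        show (2 * j - b.toNat + 1 + b.toNat) % 2 = 1 by omega,
        show (2 * j - b.toNat + 1 + (1 - b.toNat)) / 2 = j - b.toNat + 1 by omega,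
        show (2 * j - b.toNat + 1 + (1 - b.toNat)) % 2 = 0 by omega] at this
      simpa using this
  refine ⟨?_, β + b.toNat, A + 1 + e - b.toNat, L - 2, by omega, by omega, by omega, ?_, ?_⟩
  · rw [show ∑ j, (z + label τ b) j = ∑ j, z j + ∑ j, label τ b j from Finset.sum_add_distrib,
      hz, sum_label, add_zero]
  · intro k' hk1 hk2 p hp1 hp2
    obtain ⟨k, hk, hk'⟩ : ∃ k, k' + b.toNat = k + e ∧ k' = k + e - b.toNat :=
      ⟨k' + b.toNat - e, by omega, by omega⟩
    rw [hk'] at hp1 hp2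
    have hj : 1 ≤ k + e ∧ k + e + 1 ≤ t := by omega
    obtain ⟨he2, he3⟩ := hends (k + e) hj.1 hj.2
    rw [← he2] at hp1
    rw [← he3] at hp2
    have hold : psum z p + β = s := by
      refine hH k (by omega) (by omega) p ?_ ?_
      · refine le_trans ?_ hp1
        refine pos_mono hω ?_ (hN (x := 0) (by omega) i₁.isLt (by omega))
        rcases he with ⟨h0, h1⟩ | ⟨h0, h1⟩
        · have := pos_lt hi (k := k) (k' := k + e) (i' := i₁) (Or.inr ⟨by omega, h1⟩); omega
        · have := pos_lt hi (k := k) (k' := k + e) (i' := i₁) (Or.inl (by omega)); omega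
      · refine lt_of_lt_of_le hp2 ?_
        refine pos_mono hω ?_ (hN (x := 0) (by omega) hi (by omega))
        rcases he with ⟨h0, h1⟩ | ⟨h0, h1⟩
        · have := pos_lt i₁.isLt (k := k + e) (k' := k + 1) (i' := i) (Or.inl (by omega)); omega
        · have := pos_lt i₁.isLt (k := k + e) (k' := k + 1) (i' := i) (Or.inr ⟨by omega, h1⟩)
          omega
    have hnew : psum (label τ b) p + b.toNat = 1 := by
      rw [psum_label (c := 2 * (k + e) - b.toNat + 1) τ b (by omega)]
      · norm_cast; omega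
      · intro l
        rw [hpos]
        constructor
        · intro hl
          by_contra hc
          have h1 : mkIdx d i₁ b (2 * (k + e) - b.toNat + 1) ≤ mkIdx d i₁ b l :=
            (mkIdx_strictMono i₁.isLt).monotone (by omega)
          have h2 := pos_mono hω h1 (mkIdx_lt i₁.isLt l.isLt)
          have h3 : mkIdx d i₁ b (2 * (k + e) - b.toNat + 1) = 2 * ((k + e) * d + i₁) + 1 := by
            unfold mkIdx
            rw [show (2 * (k + e) - b.toNat + 1 + b.toNat) / 2 = k + e by omega,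
              show (2 * (k + e) - b.toNat + 1 + b.toNat) % 2 = 1 by omega]
          rw [h3] at h2
          omega
        · intro hl
          have h1 : mkIdx d i₁ b l ≤ mkIdx d i₁ b (2 * (k + e) - b.toNat) :=
            (mkIdx_strictMono i₁.isLt).monotone (by omega)
          have h3 : mkIdx d i₁ b (2 * (k + e) - b.toNat) = 2 * ((k + e) * d + i₁) := by
            unfold mkIdx
            rw [show (2 * (k + e) - b.toNat + b.toNat) / 2 = k + e by omega,
              show (2 * (k + e) - b.toNat + b.toNat) % 2 = 0 by omega, add_zero]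
          rw [h3] at h1
          exact le_trans (pos_mono hω h1 (hN (x := 0) (by omega) i₁.isLt (by omega))) hp1
    rw [psum_add]
    push_cast
    linarith
  · intro k' hk1 hk2
    obtain ⟨k, hk, hk'⟩ : ∃ k, k' + b.toNat = k + e ∧ k' = k + e - b.toNat :=
      ⟨k' + b.toNat - e, by omega, by omega⟩
    obtain ⟨p, hp1, hp2, hp3⟩ := hLw k (by omega) (by omega)
    have hj : 1 ≤ k + e ∧ k + e + 2 ≤ t := by omega
    have e1 := (hends (k + e) hj.1 (by omega)).2
    have e2 := (hends (k + e + 1) (by omega) (by omega)).1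
    have a1 : pos ω (2 * ((k + e) * d + i₁) + 1) ≤ p := by
      refine le_trans (pos_mono hω ?_ (hN (x := 0) (by omega) hi (by omega))) hp1
      rcases he with ⟨h0, h1⟩ | ⟨h0, h1⟩
      · have := pos_lt i₁.isLt (k := k + e) (k' := k + 1) (i' := i) (Or.inl (by omega)); omega
      · have := pos_lt i₁.isLt (k := k + e) (k' := k + 1) (i' := i) (Or.inr ⟨by omega, h1⟩)
        omega
    have a2 : p < pos ω (2 * ((k + e + 1) * d + i₁)) := by
      refine lt_of_lt_of_le hp2 (pos_mono hω ?_ (hN (x := 0) (by omega) i₁.isLt (by omega)))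
      rcases he with ⟨h0, h1⟩ | ⟨h0, h1⟩
      · have := pos_lt hi (k := k + 1) (k' := k + e + 1) (i' := i₁) (Or.inr ⟨by omega, h1⟩)
        omega
      · have := pos_lt hi (k := k + 1) (k' := k + e + 1) (i' := i₁) (Or.inl (by omega)); omega
    refine ⟨p, ?_, ?_, ?_⟩
    · rw [hk', ← e1]; exact a1
    · rw [hk', show k + e - b.toNat + 1 = k + e + 1 - b.toNat by omega, ← e2]
      exact a2
    · have hnew : psum (label τ b) p + b.toNat = 0 := by
        rw [psum_label (c := 2 * (k + e) - b.toNat + 2) τ b (by omega)]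
        · norm_cast; omega
        · intro l
          rw [hpos]
          constructor
          · intro hl
            by_contra hc
            have h1 : mkIdx d i₁ b (2 * (k + e) - b.toNat + 2) ≤ mkIdx d i₁ b l :=
              (mkIdx_strictMono i₁.isLt).monotone (by omega)
            have h2 := pos_mono hω h1 (mkIdx_lt i₁.isLt l.isLt)
            have h3 : mkIdx d i₁ b (2 * (k + e) - b.toNat + 2)
                = 2 * ((k + e + 1) * d + i₁) := by
              unfold mkIdx
              rw [show (2 * (k + e) - b.toNat + 2 + b.toNat) / 2 = k + e + 1 by omega,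
                show (2 * (k + e) - b.toNat + 2 + b.toNat) % 2 = 0 by omega, add_zero]
            rw [h3] at h2
            omega
          · intro hl
            have h1 : mkIdx d i₁ b l ≤ mkIdx d i₁ b (2 * (k + e) - b.toNat + 1) :=
              (mkIdx_strictMono i₁.isLt).monotone (by omega)
            have h3 : mkIdx d i₁ b (2 * (k + e) - b.toNat + 1)
                = 2 * ((k + e) * d + i₁) + 1 := by
              unfold mkIdx
              rw [show (2 * (k + e) - b.toNat + 1 + b.toNat) / 2 = k + e by omega,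
                show (2 * (k + e) - b.toNat + 1 + b.toNat) % 2 = 1 by omega]
            rw [h3] at h1
            exact le_trans (pos_mono hω h1 (hN (x := 1) (by omega) i₁.isLt le_rfl)) a1
      rw [psum_add]
      push_cast
      linarith

/-- After `T` steps there are many alternations of size `T`. -/
theorem nestInv_final {t' d n T : ℕ} {z : Fin n → ℤ}
    {ω : Fin (2 * d * (2 * t' + 1)) → Fin n} (hω : StrictMono ω) {i : ℕ} (hi : i < d)
    (ht : 2 * T + 2 ≤ t') (h : NestInv (2 * t') d T z ω i) :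
    ∑ j, z j = 0 ∧ ∃ (β : ℕ) (c : Fin (2 * t' + 1) → ℕ), StrictMono c ∧
      ∀ r, psum z (c r) + β = if (r : ℕ) % 2 = 0 then (T : ℤ) else 0 := by
  obtain ⟨hz, β, A, L, hβ, hAL, hL, hH, hLw⟩ := h
  refine ⟨hz, β, ?_⟩
  choose v hv1 hv2 hv3 using hLw
  have hN : ∀ {k x : ℕ}, k ≤ 2 * t' → x ≤ 1 →
      2 * (k * d + i) + x < 2 * d * (2 * t' + 1) := by
    intro k x hk hx
    have := pos_lt (i' := 0) hi (Or.inl (show k < 2 * t' + 1 by omega))
    rw [mul_assoc, mul_comm d (2 * t' + 1)]; omega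
  let c : Fin (2 * t' + 1) → ℕ := fun r =>
    if h : (r : ℕ) % 2 = 0 then pos ω (2 * ((A + (r : ℕ) / 2) * d + i) + 1)
    else v (A + (r : ℕ) / 2) (by omega) (by have := r.isLt; omega)
  refine ⟨c, ?_, ?_⟩
  · rw [Fin.strictMono_iff_lt_succ]
    intro r
    have hr := r.isLt
    have e1 : ((r.castSucc : Fin (2 * t' + 1)) : ℕ) = r := rfl
    have e2 : ((r.succ : Fin (2 * t' + 1)) : ℕ) = r + 1 := by simp
    rcases Nat.mod_two_eq_zero_or_one (r : ℕ) with h | h
    · have hh : ((r : ℕ) + 1) % 2 ≠ 0 := by omega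
      simp only [c, e1, e2, dif_pos h, dif_neg hh]
      have he : ((r : ℕ) + 1) / 2 = (r : ℕ) / 2 := by omega
      simp only [he]
      refine lt_of_lt_of_le (pos_lt_pos hω ?_ (hN (x := 0) (k := A + (r : ℕ) / 2 + 1) (by omega)
        (by omega))) (hv1 _ (by omega) (by omega))
      have := pos_lt hi (k := A + (r : ℕ) / 2) (k' := A + (r : ℕ) / 2 + 1) (i' := i)
        (Or.inl (by omega))
      omega
    · have hh : ((r : ℕ) + 1) % 2 = 0 := by omega
      have hh' : (r : ℕ) % 2 ≠ 0 := by omega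
      simp only [c, e1, e2, dif_pos hh, dif_neg hh']
      rw [show A + ((r : ℕ) + 1) / 2 = A + (r : ℕ) / 2 + 1 by omega]
      exact hv2 _ (by omega) (by omega)
  · intro r
    have hr := r.isLt
    rcases Nat.mod_two_eq_zero_or_one (r : ℕ) with h | h
    · simp only [c, dif_pos h, if_pos h]
      refine hH _ (by omega) (by omega) _ le_rfl (pos_lt_pos hω ?_ (hN (x := 0) (by omega)
        (by omega)))
      have := pos_lt hi (k := A + (r : ℕ) / 2) (k' := A + (r : ℕ) / 2 + 1) (i' := i)
        (Or.inl (by omega))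
      omega
    · have hh' : (r : ℕ) % 2 ≠ 0 := by omega
      simp only [c, dif_neg hh', if_neg hh']
      exact hv3 _ (by omega) (by omega)

end

end Vale.Agent.P125
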