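import Vale.Agent.P125.Model
import Vale.Agent.P125.Nested

/-!
Norm bounds in a spreading model for one step and for nested displacements.
-/

namespace Vale.Agent.P125

open Finset

noncomputable section

universe u

variable {X : Type u} [NormedAddCommGroup X] [NormedSpace ℝ X] {θ : ℝ} (S : SpreadModel X θ)

/-- The alternating vector. -/
def alt (r : ℕ) : Fin r → ℝ := fun j => (-1) ^ (j : ℕ)

/-- Real coefficients of an integer vector. -/
def toR {n : ℕ} (z : Fin n → ℤ) : Fin n → ℝ := fun j => (z j : ℝ)

theorem SpreadModel.cut_bound {n : ℕ} (z : Fin n → ℤ) (hz : ∑ j, z j = 0) (p : ℕ) :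
    θ * |(psum z p : ℝ)| ≤ S.N n (toR z) := by
  let e : Fin n → Fin 2 := fun j => if (j : ℕ) ≤ p then 0 else 1
  have he : Monotone e := by
    intro a b hab
    have : (a : ℕ) ≤ b := hab
    simp only [e]
    split_ifs <;> first | omega | decide
  have hw : push e (toR z) = (psum z p : ℝ) • ![1, -1] := by
    have h0 : push e (toR z) 0 = (psum z p : ℝ) := by
      rw [push_apply]
      unfold psum toR
      push_cast
      refine Finset.sum_congr rfl fun j _ => ?_
      by_cases h : (j : ℕ) ≤ p <;> simp [e, h]
    have h01 : push e (toR z) 0 + push e (toR z) 1 = 0 := by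
      have h := sum_push_smul (V := ℝ) e (toR z) (fun _ => 1)
      simp only [smul_eq_mul, mul_one, Fin.sum_univ_two] at h
      rw [h]
      unfold toR
      exact_mod_cast hz
    funext r
    fin_cases r
    · simpa using h0
    · simp only [Pi.smul_apply, smul_eq_mul]
      simp
      linarith
  have h := S.push_le n 2 e (toR z) he
  rw [hw, map_smul_eq_mul, Real.norm_eq_abs] at h
  refine le_trans ?_ h
  rw [mul_comm θ]
  exact mul_le_mul_of_nonneg_left S.sep (abs_nonneg _)

theorem alt_sum (t : ℕ) : ∑ j, alt (2 * t) j = 0 := by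
  unfold alt
  rw [Fin.sum_univ_eq_sum_range (fun l => (-1 : ℝ) ^ l), neg_one_geom_sum]
  simp

theorem SpreadModel.theta_le_alt (t : ℕ) (ht : 1 ≤ t) : θ ≤ S.N (2 * t) (alt (2 * t)) := by
  let z : Fin (2 * t) → ℤ := fun j => (-1) ^ (j : ℕ)
  have hz : toR z = alt (2 * t) := by funext j; simp [toR, z, alt]
  have hsum : ∑ j, z j = 0 := by
    simp only [z]
    rw [Fin.sum_univ_eq_sum_range (fun l => (-1 : ℤ) ^ l), neg_one_geom_sum]
    simp
  have h0 : psum z 0 = 1 := by
    unfold psum
    rw [Finset.sum_eq_single (⟨0, by omega⟩ : Fin (2 * t))]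
    · simp [z]
    · intro j _ hj
      have : ¬ (j : ℕ) ≤ 0 := fun h => hj (Fin.ext (by simpa using h))
      rw [if_neg this]
    · simp
  have := S.cut_bound z hsum 0
  rw [h0, hz] at this
  simpa using this

theorem SpreadModel.alt_congr {a b : ℕ} (h : a = b) : S.N a (alt a) = S.N b (alt b) := by
  subst h; rfl

theorem SpreadModel.alt_double (t : ℕ) :
    S.N (2 * (2 * t)) (alt (2 * (2 * t))) ≤ 2 * S.N (2 * t) (alt (2 * t)) := by
  rw [S.alt_congr (two_mul (2 * t))]
  have hc : StrictMono (Fin.castAdd (n := 2 * t) (2 * t)) := fun _ _ h => h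
  have hn : StrictMono (Fin.natAdd (m := 2 * t) (2 * t)) := fun a b h => by
    change (_ : ℕ) < _
    simpa using h
  have : alt (2 * t + 2 * t) = push (Fin.castAdd (2 * t)) (alt (2 * t))
      + push (Fin.natAdd (2 * t)) (alt (2 * t)) := by
    funext r
    rw [Pi.add_apply, push_apply, push_apply]
    rcases lt_or_ge (r : ℕ) (2 * t) with h | h
    · obtain ⟨a, rfl⟩ : ∃ a : Fin (2 * t), Fin.castAdd (2 * t) a = r := ⟨⟨r, h⟩, rfl⟩
      have h2 : ∀ j : Fin (2 * t), Fin.natAdd (2 * t) j ≠ Fin.castAdd (2 * t) a := by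
        intro j hj; have := congrArg Fin.val hj; simp at this; have := a.isLt; omega
      rw [Finset.sum_eq_zero (s := univ) (f := fun j => if Fin.natAdd (2 * t) j = Fin.castAdd (2 * t) a
        then alt (2 * t) j else 0) (fun j _ => if_neg (h2 j)), add_zero]
      simp [hc.injective.eq_iff, alt]
    · obtain ⟨a, rfl⟩ : ∃ a : Fin (2 * t), Fin.natAdd (2 * t) a = r :=
        ⟨⟨r - 2 * t, by omega⟩, Fin.ext (by simp; omega)⟩
      have h2 : ∀ j : Fin (2 * t), Fin.castAdd (2 * t) j ≠ Fin.natAdd (2 * t) a := by
        intro j hj; have := congrArg Fin.val hj; simp at this; have := j.isLt; omega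
      rw [Finset.sum_eq_zero (s := univ) (f := fun j => if Fin.castAdd (2 * t) j = Fin.natAdd (2 * t) a
        then alt (2 * t) j else 0) (fun j _ => if_neg (h2 j)), zero_add]
      simp only [hn.injective.eq_iff, Finset.sum_ite_eq', Finset.mem_univ, if_true]
      simp [alt, pow_add, pow_mul]
  rw [this]
  refine le_trans (map_add_le_add _ _ _) ?_
  rw [S.push_eq _ hc, S.push_eq _ hn]
  linarith

theorem SpreadModel.N_label {n r : ℕ} (τ : Fin r → Fin n) (hτ : StrictMono τ) (b : Bool) :
    S.N n (toR (label τ b)) = S.N r (alt r) := by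
  have : toR (label τ b) = (if b then (-1 : ℝ) else 1) • push τ (alt r) := by
    rw [← push_smul]
    funext j
    rw [push_apply]
    unfold toR label
    rw [Finset.sum_apply, Int.cast_sum]
    refine Finset.sum_congr rfl fun l _ => ?_
    rcases eq_or_ne (τ l) j with h | h
    · subst h; cases b <;> simp [alt]
    · simp [h, h.symm]
  rw [this, map_smul_eq_mul, S.push_eq τ hτ]
  cases b <;> simp

theorem SpreadModel.disp_bound (hθ : 0 < θ) (hθ2 : θ ≤ 2) {n t' T β : ℕ} (ht : 1 ≤ t')
    (z : Fin n → ℤ) (hz : ∑ j, z j = 0) (c : Fin (2 * t' + 1) → ℕ) (hc : StrictMono c)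
    (h : ∀ r, psum z (c r) + β = if (r : ℕ) % 2 = 0 then (T : ℤ) else 0) :
    θ / 4 * T * S.N (2 * t') (alt (2 * t')) ≤ S.N n (toR z) := by
  set φ := S.N (2 * t') (alt (2 * t')) with hφ
  set A : ℝ := (T : ℝ) - β with hA
  have hP : ∀ r : Fin (2 * t' + 1),
      (psum z (c r) : ℝ) = if (r : ℕ) % 2 = 0 then A else A - T := by
    intro r
    have h1 : ((psum z (c r) : ℤ) : ℝ) + β = ((if (r : ℕ) % 2 = 0 then (T : ℤ) else 0 : ℤ) : ℝ) := by
      exact_mod_cast h r
    by_cases hr : (r : ℕ) % 2 = 0
    · simp only [hr, if_true] at h1 ⊢; push_cast at h1; linarith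
    · simp only [hr, if_false] at h1 ⊢; push_cast at h1; linarith
  let e : Fin n → Fin (2 * t' + 2) := fun j =>
    ⟨(univ.filter fun r => c r < (j : ℕ)).card, by
      have := Finset.card_filter_le (univ : Finset (Fin (2 * t' + 1))) (fun r => c r < (j : ℕ))
      simp at this; omega⟩
  have he : Monotone e := by
    intro a b hab
    change (_ : ℕ) ≤ _
    simp only [e]
    refine Finset.card_le_card fun r hr => ?_
    simp only [Finset.mem_filter, Finset.mem_univ, true_and] at hr ⊢
    exact lt_of_lt_of_le hr hab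
  have hcut : ∀ (j : Fin n) (r : Fin (2 * t' + 1)), (e j : ℕ) ≤ r ↔ (j : ℕ) ≤ c r := by
    intro j r
    constructor
    · intro h1
      by_contra h2
      have : Finset.Iic r ⊆ univ.filter fun r => c r < (j : ℕ) := by
        intro r' hr'
        simp only [Finset.mem_filter, Finset.mem_univ, true_and]
        have := hc.monotone (Finset.mem_Iic.mp hr')
        omega
      have := Finset.card_le_card this
      rw [Fin.card_Iic] at this
      simp only [e] at h1
      omega
    · intro h1
      have : (univ.filter fun r => c r < (j : ℕ)) ⊆ Finset.Iio r := by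
        intro r' hr'
        simp only [Finset.mem_filter, Finset.mem_univ, true_and] at hr'
        refine Finset.mem_Iio.mpr (hc.lt_iff_lt.mp ?_)
        omega
      have := Finset.card_le_card this
      rw [Fin.card_Iio] at this
      simpa [e] using this
  have hw : push e (toR z) = A • (Pi.single 0 (1 : ℝ) - Pi.single (Fin.last (2 * t' + 1)) (1 : ℝ))
      + (-(T : ℝ)) • push (fun l : Fin (2 * t') => (l.castSucc.succ : Fin (2 * t' + 2)))
          (alt (2 * t')) := by
    funext r
    have hr := r.isLt
    rcases (show (r : ℕ) = 0 ∨ (r : ℕ) = 2 * t' + 1 ∨ (1 ≤ (r : ℕ) ∧ (r : ℕ) ≤ 2 * t') by omega)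
      with h0 | h0 | h0
    · have : r = 0 := Fin.ext h0
      subst this
      have h1 : push e (toR z) 0 = (psum z (c 0) : ℝ) := by
        rw [push_apply]
        unfold psum toR
        push_cast
        refine Finset.sum_congr rfl fun j _ => ?_
        refine if_congr ?_ rfl rfl
        rw [← hcut j 0, Fin.ext_iff]
        simp
      rw [h1, hP 0, Pi.add_apply, Pi.smul_apply, Pi.smul_apply, push_apply]
      simp [Fin.succ_ne_zero, Pi.single_apply, Fin.ext_iff]
    · have : r = Fin.last (2 * t' + 1) := Fin.ext h0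
      subst this
      have h1 : push e (toR z) (Fin.last (2 * t' + 1))
          = -(psum z (c (Fin.last (2 * t'))) : ℝ) := by
        rw [push_apply, eq_neg_iff_add_eq_zero]
        unfold psum toR
        push_cast
        rw [← Finset.sum_add_distrib]
        have h2 : ∑ j, (z j : ℝ) = 0 := by exact_mod_cast hz
        refine Eq.trans ?_ h2
        refine Finset.sum_congr rfl fun j _ => ?_
        have := hcut j (Fin.last (2 * t'))
        simp only [Fin.val_last] at this
        have hlt := (e j).isLt
        by_cases hj : (j : ℕ) ≤ c (Fin.last (2 * t'))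
        · have h3 : e j ≠ Fin.last (2 * t' + 1) := by
            intro h4; have := congrArg Fin.val h4; simp at this; omega
          simp [hj, h3]
        · have h3 : e j = Fin.last (2 * t' + 1) := by
            apply Fin.ext; simp; omega
          simp [hj, h3]
      rw [h1, hP, Pi.add_apply, Pi.smul_apply, Pi.smul_apply, push_apply]
      have h2 : ∀ l : Fin (2 * t'), (l.castSucc.succ : Fin (2 * t' + 2)) ≠ Fin.last (2 * t' + 1) := by
        intro l h4; have := congrArg Fin.val h4; simp at this; omega
      simp [h2, Pi.single_apply, Fin.ext_iff]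
    · let r1 : Fin (2 * t' + 1) := ⟨r, by omega⟩
      let r0 : Fin (2 * t' + 1) := ⟨(r : ℕ) - 1, by omega⟩
      let l0 : Fin (2 * t') := ⟨(r : ℕ) - 1, by omega⟩
      have h1 : push e (toR z) r = (psum z (c r1) : ℝ) - psum z (c r0) := by
        rw [push_apply, eq_sub_iff_add_eq]
        unfold psum toR
        push_cast
        rw [← Finset.sum_add_distrib]
        refine Finset.sum_congr rfl fun j _ => ?_
        have a1 := hcut j r1
        have a0 := hcut j r0
        simp only [r1, r0] at a1 a0 ⊢
        by_cases hj : (e j : ℕ) ≤ (r : ℕ) - 1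
        · have : e j ≠ r := by intro h4; rw [h4] at hj; omega
          rw [if_neg this, if_pos (a0.mp hj), if_pos (a1.mp (by omega))]; ring
        · by_cases hj1 : e j = r
          · rw [if_pos hj1, if_neg (fun h => hj (a0.mpr h)), if_pos (a1.mp (by rw [hj1]))]; ring
          · have : ¬ (e j : ℕ) ≤ r := fun h4 => hj1 (Fin.ext (by omega))
            rw [if_neg hj1, if_neg (fun h => hj (a0.mpr h)), if_neg (fun h => this (a1.mpr h))]
            ring
      have h2 : push (fun l : Fin (2 * t') => (l.castSucc.succ : Fin (2 * t' + 2)))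
          (alt (2 * t')) r = (-1) ^ ((r : ℕ) - 1) := by
        rw [push_apply, Finset.sum_eq_single l0]
        · rw [if_pos (Fin.ext (by simp [l0]; omega))]; rfl
        · intro l _ hl
          rw [if_neg]
          intro h4
          exact hl (Fin.ext (by have := congrArg Fin.val h4; simp [l0] at this ⊢; omega))
        · simp
      have h3 : r ≠ 0 := fun h4 => by rw [h4] at h0; simp at h0
      have h4 : r ≠ Fin.last (2 * t' + 1) := fun h4 => by rw [h4] at h0; simp at h0
      rw [h1, hP, hP, Pi.add_apply, Pi.smul_apply, Pi.smul_apply, h2, Pi.sub_apply]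
      simp only [r1, r0, Pi.single_apply, h3, h4, if_false, smul_eq_mul]
      rcases Nat.mod_two_eq_zero_or_one (r : ℕ) with h5 | h5
      · have h6 : ((r : ℕ) - 1) % 2 ≠ 0 := by omega
        have h7 : Odd ((r : ℕ) - 1) := Nat.odd_iff.mpr (by omega)
        simp only [h5, h6, if_true, if_false, h7.neg_one_pow]
        ring
      · have h5' : (r : ℕ) % 2 ≠ 0 := by omega
        have h6 : ((r : ℕ) - 1) % 2 = 0 := by omega
        have h7 : Even ((r : ℕ) - 1) := Nat.even_iff.mpr h6
        simp only [h5', h6, if_true, if_false, h7.neg_one_pow]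
        ring
  have hsm : StrictMono (fun l : Fin (2 * t') => (l.castSucc.succ : Fin (2 * t' + 2))) :=
    fun a b hab => by change (_ : ℕ) < _; simpa using hab
  have hsingle : ∀ a : Fin (2 * t' + 2), S.N _ (Pi.single a (1 : ℝ)) ≤ 1 := by
    intro a
    refine le_trans (S.le_l1 _ _) (le_of_eq ?_)
    rw [Finset.sum_eq_single a] <;> simp +contextual
  have hmain : (T : ℝ) * φ ≤ S.N n (toR z) + 2 * |A| := by
    have h1 : S.N _ ((-(T : ℝ)) •
        push (fun l : Fin (2 * t') => (l.castSucc.succ : Fin (2 * t' + 2))) (alt (2 * t')))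
        = (T : ℝ) * φ := by
      rw [map_smul_eq_mul, S.push_eq _ hsm, norm_neg, Real.norm_natCast]
    rw [← h1, show (-(T : ℝ)) • push (fun l : Fin (2 * t') => (l.castSucc.succ : Fin (2 * t' + 2)))
      (alt (2 * t')) = push e (toR z)
        - A • (Pi.single 0 (1 : ℝ) - Pi.single (Fin.last (2 * t' + 1)) (1 : ℝ)) from by
          rw [hw]; abel]
    refine le_trans (map_sub_le_add _ _ _) (add_le_add (S.push_le _ _ e _ he) ?_)
    rw [map_smul_eq_mul, Real.norm_eq_abs, mul_comm 2 |A|]
    refine mul_le_mul_of_nonneg_left ?_ (abs_nonneg _)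
    exact le_trans (map_sub_le_add _ _ _) (by linarith [hsingle 0, hsingle (Fin.last (2 * t' + 1))])
  have hA1 : θ * |A| ≤ S.N n (toR z) := by
    have := S.cut_bound z hz (c 0)
    rw [hP 0] at this
    simpa using this
  have h0 : 0 ≤ S.N n (toR z) := apply_nonneg _ _
  have h2 : θ * ((T : ℝ) * φ) ≤ 4 * S.N n (toR z) := by
    have := mul_le_mul_of_nonneg_left hmain hθ.le
    nlinarith
  linarith

end

end Vale.Agent.P125
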