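import Vale.Agent.P125.Limits

/-!
Existence of an almost exchangeable law on increasing tuples: with iterated ultrafilter limits
and separation of convex sets.
-/

namespace Vale.Agent.P125

open Finset Filter Topology

noncomputable section

variable {N0 r : ℕ} {ι : Type} [Fintype ι] (e : ι → Bool → Fin r → Fin N0) (w : ℝ)

/-- The law of the children under `ν`. -/
def childLaw {n : ℕ} (ν : (Fin N0 → Fin n) → ℝ) (τ : Fin r → Fin n) (b : Bool) : ℝ :=
  ∑ ω, ∑ i, if ω ∘ e i b = τ then ν ω * w else 0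

theorem exists_law (he : ∀ i b, StrictMono (e i b)) {η : ℝ} (hη : 0 < η) :
    ∃ (n : ℕ) (ν : (Fin N0 → Fin n) → ℝ), (∀ ω, 0 ≤ ν ω) ∧ ∑ ω, ν ω = 1 ∧
      (∀ ω, ν ω ≠ 0 → StrictMono ω) ∧
      ∑ τ, ∑ b, |childLaw e w ν τ b - childLaw e w ν τ (!b)| ≤ η := by
  classical
  by_contra hcon
  push Not at hcon
  have key : ∀ n : ℕ, ∃ Φ : (Fin r → Fin n) → Bool → ℝ, (∀ τ b, |Φ τ b| ≤ 1) ∧
      ∀ ω : Fin N0 → Fin n, StrictMono ω →
        η ≤ ∑ i, w * ∑ b, (Φ (ω ∘ e i b) b - Φ (ω ∘ e i b) (!b)) := by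
    intro n
    by_cases hne : ∃ ω : Fin N0 → Fin n, StrictMono ω
    swap
    · exact ⟨0, fun τ b => by simp, fun ω hω => absurd ⟨ω, hω⟩ hne⟩
    let Ω := {ω : Fin N0 → Fin n // StrictMono ω}
    have : Nonempty Ω := ⟨⟨hne.choose, hne.choose_spec⟩⟩
    let P := (Fin r → Fin n) × Bool
    let v : Ω → P → ℝ := fun ω p =>
      ∑ i, ((if ω.1 ∘ e i p.2 = p.1 then w else 0) - (if ω.1 ∘ e i (!p.2) = p.1 then w else 0))
    let Λ : (Ω → ℝ) →ₗ[ℝ] (P → ℝ) := Fintype.linearCombination ℝ v
    let C : Set (P → ℝ) := Λ '' stdSimplex ℝ Ω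
    let B : Set (P → ℝ) := {z | ∑ p, |z p| ≤ η}
    have hC1 : Convex ℝ C := (convex_stdSimplex ℝ Ω).linear_image Λ
    have hC2 : IsCompact C := (isCompact_stdSimplex ℝ Ω).image Λ.continuous_on_pi
    have hB1 : Convex ℝ B := by
      intro x hx y hy a b ha hb hab
      calc ∑ p, |(a • x + b • y) p| ≤ ∑ p, (a * |x p| + b * |y p|) := by
            refine Finset.sum_le_sum fun p _ => ?_
            refine le_trans (abs_add_le _ _) (le_of_eq ?_)
            simp [abs_mul, abs_of_nonneg ha, abs_of_nonneg hb]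
        _ = a * ∑ p, |x p| + b * ∑ p, |y p| := by
            rw [Finset.sum_add_distrib, Finset.mul_sum, Finset.mul_sum]
        _ ≤ a * η + b * η := add_le_add (mul_le_mul_of_nonneg_left hx ha)
            (mul_le_mul_of_nonneg_left hy hb)
        _ = η := by rw [← add_mul, hab, one_mul]
    have hB2 : IsClosed B := isClosed_le (by fun_prop) continuous_const
    have hdisj : Disjoint C B := by
      rw [Set.disjoint_left]
      rintro z ⟨μ, hμ, rfl⟩ hz
      let ν : (Fin N0 → Fin n) → ℝ := fun ω => if h : StrictMono ω then μ ⟨ω, h⟩ else 0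
      have hν : ∀ F : (Fin N0 → Fin n) → ℝ, ∑ ω, ν ω * F ω = ∑ ω : Ω, μ ω * F ω.1 := by
        intro F
        rw [← Finset.sum_filter_of_ne (p := StrictMono) (fun ω _ h => by
          by_contra h'; simp [ν, h'] at h)]
        rw [← Finset.sum_subtype (p := StrictMono) _ (by simp)
          (fun ω => ν ω * F ω) |>.symm]
        refine Finset.sum_congr rfl fun ω _ => ?_
        simp [ν, ω.2]
      have h1 : ∑ ω, ν ω = 1 := by
        have := hν (fun _ => 1)
        simp only [mul_one] at this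
        rw [this, hμ.2]
      have h0 : ∀ ω, 0 ≤ ν ω := by
        intro ω
        by_cases h : StrictMono ω
        · simp [ν, h, hμ.1]
        · simp [ν, h]
      have h2 := hcon n ν h0 h1 (fun ω h => by by_contra h'; simp [ν, h'] at h)
      refine absurd hz (not_le.mpr (lt_of_lt_of_le h2 (le_of_eq ?_)))
      rw [Fintype.sum_prod_type]
      refine Finset.sum_congr rfl fun τ _ => Finset.sum_congr rfl fun b _ => ?_
      congr 1
      have hL : ∀ b, childLaw e w ν τ b
          = ∑ ω : Ω, μ ω * ∑ i, (if ω.1 ∘ e i b = τ then w else 0) := by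
        intro b
        rw [← hν fun ω => ∑ i, (if ω ∘ e i b = τ then w else 0)]
        simp [childLaw, Finset.mul_sum]
      rw [hL, hL, ← Finset.sum_sub_distrib]
      simp [Λ, v, Fintype.linearCombination_apply, mul_sub, Finset.sum_sub_distrib]
    obtain ⟨f, u, u', hf1, huu, hf2⟩ := geometric_hahn_banach_compact_closed hC1 hC2 hB1 hB2 hdisj
    let c : P → ℝ := fun p => f (Pi.single p 1)
    have hfc : ∀ z, f z = ∑ p, z p * c p := by
      intro z
      conv_lhs => rw [pi_eq_sum_univ' z]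
      simp [c]
    have hCne : ∀ ω : Ω, v ω ∈ C := fun ω =>
      ⟨Pi.single ω 1, single_mem_stdSimplex ℝ ω,
        by simp [Λ, Fintype.linearCombination_apply_single]⟩
    have h0B : (0 : P → ℝ) ∈ B := by simp [B, hη.le]
    by_cases hP : IsEmpty P
    · have : v (Classical.arbitrary Ω) = 0 := Subsingleton.elim _ _
      exact absurd h0B (Set.disjoint_left.mp hdisj (this ▸ hCne _))
    rw [not_isEmpty_iff] at hP
    obtain ⟨p0, -, hmax⟩ := Finset.exists_max_image (univ : Finset P) (fun p => |c p|) univ_nonempty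
    have hball : ∀ a : ℝ, |a| ≤ η → u' < a * c p0 := by
      intro a ha
      have hmem : (Pi.single p0 a : P → ℝ) ∈ B := by
        simp only [B, Set.mem_ofPred_eq]
        rw [Finset.sum_eq_single p0]
        · simpa using ha
        · intro p _ hp; simp [hp]
        · simp
      have := hf2 _ hmem
      rw [hfc, Finset.sum_eq_single p0] at this
      · simpa using this
      · intro p _ hp; simp [hp]
      · simp
    have hMeta : u' < -(η * |c p0|) := by
      rcases le_or_gt 0 (c p0) with h | h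
      · have := hball (-η) (by rw [abs_neg, abs_of_pos hη])
        rw [abs_of_nonneg h]; linarith
      · have := hball η (by rw [abs_of_pos hη])
        rw [abs_of_neg h]; linarith
    have hM : 0 < |c p0| := by
      rcases (abs_nonneg (c p0)).lt_or_eq with h | h
      · exact h
      · exfalso
        have hz : ∀ z, f z = 0 := by
          intro z
          rw [hfc]
          refine Finset.sum_eq_zero fun p hp => ?_
          have := hmax p hp
          rw [← h] at this
          rw [abs_nonpos_iff.mp this, mul_zero]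
        have h3 := hf2 0 h0B
        have h4 := hf1 _ (hCne (Classical.arbitrary Ω))
        rw [hz] at h3 h4
        linarith
    refine ⟨fun τ b => -c (τ, b) / |c p0|, fun τ b => ?_, fun ω hω => ?_⟩
    · rw [abs_div, abs_neg, abs_abs, div_le_one hM]
      exact hmax _ (mem_univ _)
    · have h5 : f (v ⟨ω, hω⟩) < -(η * |c p0|) := by linarith [hf1 _ (hCne ⟨ω, hω⟩)]
      have h6 : f (v ⟨ω, hω⟩) = ∑ i, w * ∑ b, (c (ω ∘ e i b, b) - c (ω ∘ e i b, !b)) := by
        rw [hfc]
        simp only [v, Finset.sum_mul, sub_mul]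
        rw [Finset.sum_comm]
        refine Finset.sum_congr rfl fun i _ => ?_
        rw [Fintype.sum_prod_type, Finset.sum_comm, Finset.mul_sum]
        simp only [Fintype.sum_bool, Bool.not_true, Bool.not_false, Finset.sum_sub_distrib,
          ite_mul, zero_mul, Finset.sum_ite_eq, mem_univ, if_true]
        ring
      have h7 : ∑ i, w * ∑ b, (-c (ω ∘ e i b, b) / |c p0| - -c (ω ∘ e i b, !b) / |c p0|)
          = -f (v ⟨ω, hω⟩) / |c p0| := by
        rw [h6, neg_div, Finset.sum_div, ← Finset.sum_neg_distrib]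
        refine Finset.sum_congr rfl fun i _ => ?_
        rw [Finset.mul_sum, Finset.mul_sum, Finset.sum_div, ← Finset.sum_neg_distrib]
        exact Finset.sum_congr rfl fun b _ => by ring
      rw [h7, le_div_iff₀ hM]
      linarith
  choose Φ hΦ1 hΦ2 using key
  let Ψ : ℕ → (Fin r → ℕ) → Bool → ℝ := fun n τ b =>
    if h : ∀ l, τ l < n then Φ n (fun l => ⟨τ l, h l⟩) b else 0
  have hΨ : ∀ n τ b, |Ψ n τ b| ≤ 1 := by
    intro n τ b
    by_cases h : ∀ l, τ l < n
    · simp only [Ψ, dif_pos h]; exact hΦ1 _ _ _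
    · simp [Ψ, h]
  let Φi : (Fin r → ℕ) → Bool → ℝ := fun τ b => ulim U fun n => Ψ n τ b
  have hΦi : ∀ τ b, |Φi τ b| ≤ 1 := fun τ b => abs_ulim_le U fun n => hΨ n τ b
  have hlim : ∀ b, Tendsto (fun τ => Φi τ b) (Utup r) (𝓝 (L r fun τ => Φi τ b)) :=
    fun b => tendsto_ulim _ ⟨1, fun τ => hΦi τ b⟩
  have hpull : ∀ i b b', Tendsto (fun s : Fin N0 → ℕ => Φi (s ∘ e i b) b') (Utup N0)
      (𝓝 (L r fun τ => Φi τ b')) := by
    intro i b b'
    refine (hlim b').comp ?_
    rw [← Utup_subtuple (e i b) (he i b)]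
    exact tendsto_map
  have htot : Tendsto (fun s => ∑ i, w * ∑ b, (Φi (s ∘ e i b) b - Φi (s ∘ e i b) (!b))) (Utup N0)
      (𝓝 (∑ _i : ι, w * ∑ b, ((L r fun τ => Φi τ b) - L r fun τ => Φi τ (!b)))) :=
    tendsto_finsetSum _ fun i _ => (tendsto_finsetSum _ fun b _ =>
      (hpull i b b).sub (hpull i b (!b))).const_mul _
  have hzero : (∑ _i : ι, w * ∑ b, ((L r fun τ => Φi τ b) - L r fun τ => Φi τ (!b))) = 0 := by
    refine Finset.sum_eq_zero fun i _ => ?_
    simp only [Fintype.sum_bool, Bool.not_true, Bool.not_false]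
    ring
  rw [hzero] at htot
  have hge : ∀ᶠ s in (Utup N0 : Filter (Fin N0 → ℕ)),
      η ≤ ∑ i, w * ∑ b, (Φi (s ∘ e i b) b - Φi (s ∘ e i b) (!b)) := by
    filter_upwards [Utup_ge_strictMono N0 0] with s hs
    have hT : Tendsto (fun n => ∑ i, w * ∑ b, (Ψ n (s ∘ e i b) b - Ψ n (s ∘ e i b) (!b))) U
        (𝓝 (∑ i, w * ∑ b, (Φi (s ∘ e i b) b - Φi (s ∘ e i b) (!b)))) :=
      tendsto_finsetSum _ fun i _ => (tendsto_finsetSum _ fun b _ =>
        ((tendsto_ulim U ⟨1, fun n => hΨ n _ _⟩).sub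
          (tendsto_ulim U ⟨1, fun n => hΨ n _ _⟩))).const_mul _
    refine ge_of_tendsto hT ?_
    have hn : ∀ᶠ n in (U : Filter ℕ), ∀ p, s p < n := by
      rw [eventually_all]; exact fun p => eventually_U_ge (s p + 1)
    filter_upwards [hn] with n hn
    let ω : Fin N0 → Fin n := fun p => ⟨s p, hn p⟩
    have hω : StrictMono ω := fun a b hab => hs.1 hab
    refine le_trans (hΦ2 n ω hω) (le_of_eq ?_)
    refine Finset.sum_congr rfl fun i _ => ?_
    congr 1
    refine Finset.sum_congr rfl fun b _ => ?_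
    have hd : ∀ b', Ψ n (s ∘ e i b) b' = Φ n (ω ∘ e i b) b' := by
      intro b'
      change (if h : _ then _ else _) = _
      rw [dif_pos (show ∀ l, (s ∘ e i b) l < n from fun l => hn (e i b l))]
      rfl
    rw [hd, hd]
  exact absurd (ge_of_tendsto htot hge) (not_le.mpr hη)

end

end Vale.Agent.P125
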