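import Vale.Agent.P125.Bounds
import Vale.Agent.P125.Law

/-!
The Markov chain on clouds with a displacement label.
-/

namespace Vale.Agent.P125

open Finset

noncomputable section

universe u

/-- The states: a cloud and a point of a box. -/
abbrev St (t d n Q : ℕ) : Type := (Fin (2 * d * (t + 1)) → Fin n) × (Fin n → Fin Q)

/-- The integer coordinates of a point of the box. -/
def gi {n Q : ℕ} (g : Fin n → Fin Q) : Fin n → ℤ := fun j => ((g j : ℕ) : ℤ)

theorem gi_injective {n Q : ℕ} : Function.Injective (gi : (Fin n → Fin Q) → Fin n → ℤ) := by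
  intro g g' h
  funext j
  have := congrFun h j
  simp only [gi] at this
  exact Fin.ext (by exact_mod_cast this)

theorem sum_box_eq_le {n Q : ℕ} (j : Fin n) (v : ℤ) :
    (Q : ℝ) * ∑ g : Fin n → Fin Q, (if gi g j = v then (1 : ℝ) else 0) ≤ (Q : ℝ) ^ n := by
  let h : Fin n → Fin Q → ℝ := fun k a => if k = j then (if ((a : ℕ) : ℤ) = v then 1 else 0) else 1
  have h1 : ∀ g : Fin n → Fin Q, (if gi g j = v then (1 : ℝ) else 0) = ∏ k, h k (g k) := by
    intro g
    rw [Finset.prod_eq_single j]
    · by_cases hv : ((g j : ℕ) : ℤ) = v <;> simp [h, gi, hv]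
    · intro k _ hk; simp [h, hk]
    · simp
  simp only [h1]
  rw [← Fintype.prod_sum]
  have h2 : ∀ k, k ≠ j → ∑ a, h k a = (Q : ℝ) := by intro k hk; simp [h, hk]
  have h3 : ∑ a, h j a ≤ 1 := by
    simp only [h, if_true]
    rw [Finset.sum_boole]
    have : (univ.filter fun a : Fin Q => ((a : ℕ) : ℤ) = v).card ≤ 1 :=
      Finset.card_le_one.mpr fun a ha b hb => by
        simp only [Finset.mem_filter] at ha hb
        exact Fin.ext (by exact_mod_cast ha.2.trans hb.2.symm)
    exact_mod_cast this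
  rw [← Finset.mul_prod_erase univ (fun k => ∑ a, h k a) (mem_univ j),
    Finset.prod_congr rfl (fun k hk => h2 k (Finset.ne_of_mem_erase hk)), Finset.prod_const,
    Finset.card_erase_of_mem (mem_univ j), Finset.card_univ, Fintype.card_fin]
  have hn : n = (n - 1) + 1 := by have := j.isLt; omega
  calc (Q : ℝ) * ((∑ a, h j a) * (Q : ℝ) ^ (n - 1)) ≤ (Q : ℝ) * (1 * (Q : ℝ) ^ (n - 1)) :=
        mul_le_mul_of_nonneg_left (mul_le_mul_of_nonneg_right h3 (by positivity)) (by positivity)
    _ = (Q : ℝ) ^ n := by conv_rhs => rw [hn, pow_succ]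
                          ring

/-- The Markov type inequality for chains on an arbitrary finite type. -/
theorem markov_ineq_fintype {X : Type u} [NormedAddCommGroup X] {p K : ℝ}
    (hK : ∀ (m : ℕ) (π : Fin m → ℝ) (P : Matrix (Fin m) (Fin m) ℝ),
      (∀ i, 0 ≤ π i) → ∑ i, π i = 1 → (∀ i j, 0 ≤ P i j) → (∀ i, ∑ j, P i j = 1) →
      (∀ i j, π i * P i j = π j * P j i) →
      ∀ (f : Fin m → X) (t : ℕ), 1 ≤ t →
        ∑ i, ∑ j, π i * (P ^ t) i j * ‖f i - f j‖ ^ p ≤
          K ^ p * t * ∑ i, ∑ j, π i * P i j * ‖f i - f j‖ ^ p)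
    {σ : Type} [Fintype σ] [DecidableEq σ] (π : σ → ℝ) (P : Matrix σ σ ℝ) (h0 : ∀ i, 0 ≤ π i)
    (h1 : ∑ i, π i = 1) (h2 : ∀ i j, 0 ≤ P i j) (h3 : ∀ i, ∑ j, P i j = 1)
    (h4 : ∀ i j, π i * P i j = π j * P j i) (f : σ → X) (t : ℕ) (ht : 1 ≤ t) :
    ∑ i, ∑ j, π i * (P ^ t) i j * ‖f i - f j‖ ^ p ≤
      K ^ p * t * ∑ i, ∑ j, π i * P i j * ‖f i - f j‖ ^ p := by
  let e := (Fintype.equivFin σ).symm
  have hpow : ∀ t : ℕ, (P.submatrix e e) ^ t = (P ^ t).submatrix e e := by
    intro t
    induction t with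
    | zero => simp [Matrix.submatrix_one_equiv]
    | succ t ih => rw [pow_succ, pow_succ, ih, Matrix.submatrix_mul_equiv]
  have := hK _ (π ∘ e) (P.submatrix e e) (fun i => h0 _)
    (by rw [← h1]; exact e.sum_comp π) (fun i j => h2 _ _)
    (fun i => by rw [← h3 (e i)]; exact e.sum_comp (fun j => P (e i) j))
    (fun i j => h4 _ _) (f ∘ e) t ht
  rw [hpow] at this
  simp only [Function.comp_apply, Matrix.submatrix_apply] at this
  have hre : ∀ F : σ → σ → ℝ, ∑ i, ∑ j, F i j = ∑ a, ∑ b, F (e a) (e b) := fun F =>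
    (e.sum_comp fun i => ∑ j, F i j).symm.trans
      (Finset.sum_congr rfl fun a _ => (e.sum_comp _).symm)
  rw [hre, hre]
  exact this

variable {t d n Q : ℕ} (ν : (Fin (2 * d * (t + 1)) → Fin n) → ℝ)

/-- The weight of one of the `2 d` children. -/
def cw (d : ℕ) : ℝ := (2 * (d : ℝ))⁻¹

/-- The law of children. -/
def law (τ : Fin (2 * t) → Fin n) (b : Bool) : ℝ := childLaw (mark t d) (cw d) ν τ b

/-- Conductance between the dart `(ω, i, b)` and the dart `(ω', i', !b)`. -/
def cnd (ω : Fin (2 * d * (t + 1)) → Fin n) (i : Fin d) (b : Bool)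
    (ω' : Fin (2 * d * (t + 1)) → Fin n) (i' : Fin d) : ℝ :=
  if ω' ∘ mark t d i' (!b) = ω ∘ mark t d i b then
    ν ω * cw d * (ν ω' * cw d) /
      max (law ν (ω ∘ mark t d i b) b) (law ν (ω ∘ mark t d i b) (!b))
  else 0

/-- Weight of the move from `x` to `x'` through `(i, b)`, arriving with index `i'`. -/
def mv (x : St t d n Q) (i : Fin d) (b : Bool) (x' : St t d n Q) (i' : Fin d) : ℝ :=
  if gi x'.2 = gi x.2 + label (x.1 ∘ mark t d i b) b then cnd ν x.1 i b x'.1 i' else 0

/-- Symmetric weights between states. -/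
def wgt (x x' : St t d n Q) : ℝ := ∑ i : Fin d, ∑ b : Bool, ∑ i' : Fin d, mv ν x i b x' i'

/-- The stationary law. -/
def stat (x : St t d n Q) : ℝ := ν x.1 / (Q : ℝ) ^ n

/-- The transition matrix. -/
def trans : Matrix (St t d n Q) (St t d n Q) ℝ := Matrix.of fun x x' =>
  wgt ν x x' / ν x.1 + if x = x' then 1 - (∑ y, wgt ν x y) / ν x.1 else 0

section Facts
variable (hν : ∀ ω, 0 ≤ ν ω)

theorem cw_nonneg (d : ℕ) : 0 ≤ cw d := by unfold cw; positivity

include hν

theorem law_nonneg (τ : Fin (2 * t) → Fin n) (b : Bool) : 0 ≤ law ν τ b := by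
  refine Finset.sum_nonneg fun ω _ => Finset.sum_nonneg fun i _ => ?_
  split_ifs
  · exact mul_nonneg (hν ω) (cw_nonneg d)
  · exact le_rfl

theorem cnd_nonneg (ω : Fin (2 * d * (t + 1)) → Fin n) (i : Fin d) (b : Bool)
    (ω' : Fin (2 * d * (t + 1)) → Fin n) (i' : Fin d) : 0 ≤ cnd ν ω i b ω' i' := by
  unfold cnd
  split_ifs
  · exact div_nonneg (mul_nonneg (mul_nonneg (hν _) (cw_nonneg d))
      (mul_nonneg (hν _) (cw_nonneg d))) (le_max_of_le_left (law_nonneg ν hν _ _))
  · exact le_rfl

theorem mv_nonneg (x : St t d n Q) (i : Fin d) (b : Bool) (x' : St t d n Q) (i' : Fin d) :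
    0 ≤ mv ν x i b x' i' := by
  unfold mv
  split_ifs
  · exact cnd_nonneg ν hν _ _ _ _ _
  · exact le_rfl

omit hν in
theorem cnd_swap (ω : Fin (2 * d * (t + 1)) → Fin n) (i : Fin d) (b : Bool)
    (ω' : Fin (2 * d * (t + 1)) → Fin n) (i' : Fin d) :
    cnd ν ω i b ω' i' = cnd ν ω' i' (!b) ω i := by
  unfold cnd
  simp only [Bool.not_not]
  by_cases h : ω' ∘ mark t d i' (!b) = ω ∘ mark t d i b
  · rw [if_pos h, if_pos h.symm, h, mul_comm, max_comm]
  · rw [if_neg h, if_neg (fun h' => h h'.symm)]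

omit hν in
theorem sum_cnd (ω : Fin (2 * d * (t + 1)) → Fin n) (i : Fin d) (b : Bool) :
    ∑ ω', ∑ i', cnd ν ω i b ω' i' = ν ω * cw d * law ν (ω ∘ mark t d i b) (!b) /
      max (law ν (ω ∘ mark t d i b) b) (law ν (ω ∘ mark t d i b) (!b)) := by
  unfold cnd law childLaw
  rw [Finset.mul_sum, Finset.sum_div]
  refine Finset.sum_congr rfl fun ω' _ => ?_
  rw [Finset.mul_sum, Finset.sum_div]
  refine Finset.sum_congr rfl fun i' _ => ?_
  split_ifs <;> ring

theorem sum_cnd_le (ω : Fin (2 * d * (t + 1)) → Fin n) (i : Fin d) (b : Bool) :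
    ∑ ω', ∑ i', cnd ν ω i b ω' i' ≤ ν ω * cw d := by
  rw [sum_cnd]
  set a := law ν (ω ∘ mark t d i b) b
  set a' := law ν (ω ∘ mark t d i b) (!b)
  have h : 0 ≤ ν ω * cw d := mul_nonneg (hν ω) (cw_nonneg d)
  have ha : 0 ≤ max a a' := le_max_of_le_left (law_nonneg ν hν _ _)
  rcases ha.lt_or_eq with h' | h'
  · rw [div_le_iff₀ h']
    exact mul_le_mul_of_nonneg_left (le_max_right _ _) h
  · rw [← h', div_zero]; exact h

/-- The total weight of the move through `(i, b)` from `x`. -/
theorem sum_mv_le (x : St t d n Q) (i : Fin d) (b : Bool) :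
    ∑ x', ∑ i', mv ν x i b x' i' ≤ ν x.1 * cw d := by
  refine le_trans ?_ (sum_cnd_le ν hν x.1 i b)
  rw [Fintype.sum_prod_type]
  refine Finset.sum_le_sum fun ω' _ => ?_
  rw [Finset.sum_comm]
  refine Finset.sum_le_sum fun i' _ => ?_
  unfold mv
  by_cases h : ∃ g' : Fin n → Fin Q, gi g' = gi x.2 + label (x.1 ∘ mark t d i b) b
  · obtain ⟨g', hg'⟩ := h
    rw [Finset.sum_eq_single g']
    · rw [if_pos hg']
    · intro g'' _ hne
      rw [if_neg]
      exact fun h' => hne (gi_injective (h'.trans hg'.symm))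
    · simp
  · rw [Finset.sum_eq_zero]
    · exact cnd_nonneg ν hν _ _ _ _ _
    · intro g'' _; rw [if_neg]; exact fun h' => h ⟨g'', h'⟩

theorem wgt_nonneg (x x' : St t d n Q) : 0 ≤ wgt ν x x' :=
  Finset.sum_nonneg fun i _ => Finset.sum_nonneg fun b _ => Finset.sum_nonneg fun i' _ =>
    mv_nonneg ν hν _ _ _ _ _

theorem sum_wgt_le (hd : 0 < d) (x : St t d n Q) : ∑ y, wgt ν x y ≤ ν x.1 := by
  unfold wgt
  rw [Finset.sum_comm]
  calc ∑ i : Fin d, ∑ y, ∑ b : Bool, ∑ i' : Fin d, mv ν x i b y i'
      ≤ ∑ _i : Fin d, ∑ _b : Bool, ν x.1 * cw d := by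
        refine Finset.sum_le_sum fun i _ => ?_
        rw [Finset.sum_comm]
        exact Finset.sum_le_sum fun b _ => sum_mv_le ν hν x i b
    _ = ν x.1 := by
        simp [cw]
        field_simp

omit hν in
theorem mv_swap (x x' : St t d n Q) (i : Fin d) (b : Bool) (i' : Fin d) :
    mv ν x i b x' i' = mv ν x' i' (!b) x i := by
  unfold mv
  by_cases hc : cnd ν x.1 i b x'.1 i' = 0
  · have hc' := hc
    rw [cnd_swap] at hc'
    simp [hc, hc']
  · have heq : x'.1 ∘ mark t d i' (!b) = x.1 ∘ mark t d i b := by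
      by_contra h; exact hc (if_neg h)
    have hl : label (x'.1 ∘ mark t d i' (!b)) (!b) = -label (x.1 ∘ mark t d i b) b := by
      rw [heq]; unfold label
      rw [← Finset.sum_neg_distrib]
      refine Finset.sum_congr rfl fun l _ => ?_
      rw [← Pi.single_neg]
      cases b <;> simp
    refine if_congr ?_ (cnd_swap ν _ _ _ _ _) rfl
    rw [hl]
    constructor <;> intro h <;> rw [h] <;> abel

omit hν in
theorem wgt_symm (x x' : St t d n Q) : wgt ν x x' = wgt ν x' x := by
  have e : ∀ y y' : St t d n Q, wgt ν y y' = ∑ b : Bool, ∑ i : Fin d, ∑ i', mv ν y i b y' i' :=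
    fun y y' => Finset.sum_comm
  rw [e, e, Fintype.sum_bool, Fintype.sum_bool, add_comm]
  congr 1 <;>
  · rw [Finset.sum_comm]
    exact Finset.sum_congr rfl fun i _ => Finset.sum_congr rfl fun i' _ => mv_swap ν _ _ _ _ _

theorem wgt_eq_zero {x : St t d n Q} (hd : 0 < d) (h : ν x.1 = 0) (x' : St t d n Q) :
    wgt ν x x' = 0 := by
  refine le_antisymm ?_ (wgt_nonneg ν hν x x')
  refine le_trans ?_ (le_trans (sum_wgt_le ν hν hd x) h.le)
  exact Finset.single_le_sum (fun y _ => wgt_nonneg ν hν x y) (mem_univ x')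

theorem trans_nonneg (hd : 0 < d) (x x' : St t d n Q) : 0 ≤ trans ν x x' := by
  unfold trans
  rw [Matrix.of_apply]
  refine add_nonneg (div_nonneg (wgt_nonneg ν hν _ _) (hν _)) ?_
  split_ifs
  · rcases (hν x.1).lt_or_eq with h | h
    · rw [sub_nonneg, div_le_one h]; exact sum_wgt_le ν hν hd x
    · rw [← h, div_zero]; norm_num
  · exact le_rfl

omit hν in
theorem trans_row (x : St t d n Q) : ∑ x', trans ν x x' = 1 := by
  unfold trans
  simp only [Matrix.of_apply]
  rw [Finset.sum_add_distrib, Finset.sum_ite_eq, if_pos (mem_univ _), ← Finset.sum_div]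
  ring

theorem trans_rev (hd : 0 < d) (x x' : St t d n Q) :
    stat ν x * trans ν x x' = stat ν x' * trans ν x' x := by
  have key : ∀ x x' : St t d n Q, stat ν x * (wgt ν x x' / ν x.1) = wgt ν x x' / (Q : ℝ) ^ n := by
    intro x x'
    rcases (hν x.1).lt_or_eq with h | h
    · unfold stat; field_simp
    · rw [wgt_eq_zero ν hν hd h.symm]; simp
  unfold trans
  simp only [Matrix.of_apply]
  by_cases h : x = x'
  · subst h; rfl
  · rw [if_neg h, if_neg (Ne.symm h), add_zero, add_zero, key, key, wgt_symm]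

theorem stat_nonneg (x : St t d n Q) : 0 ≤ stat ν x := div_nonneg (hν _) (by positivity)

theorem stat_pow (hd : 0 < d) (s : ℕ) (x : St t d n Q) :
    ∑ x0, stat ν x0 * (trans ν ^ s) x0 x = stat ν x := by
  induction s generalizing x with
  | zero => simp [Matrix.one_apply]
  | succ s ih =>
    simp only [pow_succ, Matrix.mul_apply, Finset.mul_sum]
    rw [Finset.sum_comm]
    simp only [← mul_assoc, ← Finset.sum_mul, ih]
    simp only [trans_rev ν hν hd _ x, ← Finset.mul_sum, trans_row, mul_one]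

omit hν in
theorem sum_stat (hQ : 0 < Q) (hν1 : ∑ ω, ν ω = 1) : ∑ x : St t d n Q, stat ν x = 1 := by
  rw [Fintype.sum_prod_type]
  simp only [stat, Finset.sum_const, Finset.card_univ, Fintype.card_pi, Fintype.card_fin,
    Finset.prod_const, nsmul_eq_mul, Nat.cast_pow]
  rw [← hν1]
  refine Finset.sum_congr rfl fun ω _ => ?_
  field_simp

end Facts

/-- The mass of good paths. -/
def good (i0 : Fin d) : ℕ → St t d n Q → St t d n Q → Fin d → ℝ
  | 0, x0, x, i => if x = x0 ∧ i = i0 then stat ν x0 else 0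
  | s + 1, x0, x', i' => ∑ x, ∑ i, good i0 s x0 x i / ν x.1 *
      ∑ i1 ∈ Finset.univ.erase i, ∑ b : Bool, mv ν x i1 b x' i'

/-- The defect of the darts at a state. -/
def defect (x : St t d n Q) : ℝ :=
  ∑ i : Fin d, ∑ b : Bool, (ν x.1 * cw d - ∑ x', ∑ i', mv ν x i b x' i')

section Good
variable (hν : ∀ ω, 0 ≤ ν ω) (hd : 0 < d) (i0 : Fin d)
include hν

theorem good_nonneg (s : ℕ) (x0 x : St t d n Q) (i : Fin d) : 0 ≤ good ν i0 s x0 x i := by
  induction s generalizing x i with
  | zero =>
    unfold good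
    split_ifs
    · exact stat_nonneg ν hν _
    · exact le_rfl
  | succ s ih =>
    unfold good
    exact Finset.sum_nonneg fun y _ => Finset.sum_nonneg fun j _ => mul_nonneg
      (div_nonneg (ih y j) (hν _))
      (Finset.sum_nonneg fun i1 _ => Finset.sum_nonneg fun b _ => mv_nonneg ν hν _ _ _ _ _)

include hd

theorem good_le_pow (s : ℕ) (x0 x : St t d n Q) :
    ∑ i, good ν i0 s x0 x i ≤ stat ν x0 * (trans ν ^ s) x0 x := by
  induction s generalizing x with
  | zero =>
    simp only [good, pow_zero, Matrix.one_apply]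
    by_cases h : x = x0
    · subst h; simp
    · simp [h, Ne.symm h]
  | succ s ih =>
    rw [pow_succ, Matrix.mul_apply, Finset.mul_sum]
    simp only [good]
    rw [Finset.sum_comm]
    refine Finset.sum_le_sum fun y _ => ?_
    rw [Finset.sum_comm, ← mul_assoc]
    refine le_trans ?_ (mul_le_mul_of_nonneg_right (ih y) (trans_nonneg ν hν hd y x))
    rw [Finset.sum_mul]
    refine Finset.sum_le_sum fun i _ => ?_
    rw [← Finset.mul_sum, div_mul_eq_mul_div, mul_div_assoc]
    refine mul_le_mul_of_nonneg_left ?_ (good_nonneg ν hν i0 s x0 y i)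
    have h1 : wgt ν y x / ν y.1 ≤ trans ν y x := by
      unfold trans
      rw [Matrix.of_apply, le_add_iff_nonneg_right]
      split_ifs
      · rcases (hν y.1).lt_or_eq with h | h
        · rw [sub_nonneg, div_le_one h]; exact sum_wgt_le ν hν hd y
        · rw [← h, div_zero]; norm_num
      · exact le_rfl
    refine le_trans ?_ h1
    refine div_le_div_of_nonneg_right ?_ (hν _)
    unfold wgt
    rw [Finset.sum_comm]
    refine le_trans ?_ (le_of_eq (Finset.sum_congr rfl fun i1 _ => Finset.sum_comm))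
    exact Finset.sum_le_sum_of_subset_of_nonneg (Finset.erase_subset _ _) fun i1 _ _ =>
      Finset.sum_nonneg fun i' _ => Finset.sum_nonneg fun b _ => mv_nonneg ν hν _ _ _ _ _

theorem good_inv (hsupp : ∀ ω, ν ω ≠ 0 → StrictMono ω) (ht : 1 ≤ t) (s : ℕ) (hs : 2 * s + 1 ≤ t)
    (x0 x : St t d n Q) (i : Fin d) (h : good ν i0 s x0 x i ≠ 0) :
    ν x.1 ≠ 0 ∧ NestInv t d s (gi x.2 - gi x0.2) x.1 i := by
  induction s generalizing x i with
  | zero =>
    unfold good at h
    split_ifs at h with hc
    · obtain ⟨rfl, rfl⟩ := hc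
      have hne : ν x.1 ≠ 0 := fun h0 => h (by simp [stat, h0])
      refine ⟨hne, ?_⟩
      rw [sub_self]
      exact nestInv_zero _ (hsupp _ hne) i.isLt ht
    · exact absurd rfl h
  | succ s ih =>
    unfold good at h
    obtain ⟨y, -, hy⟩ := Finset.exists_ne_zero_of_sum_ne_zero h
    obtain ⟨j, -, hj⟩ := Finset.exists_ne_zero_of_sum_ne_zero hy
    obtain ⟨hj1, hj2⟩ := mul_ne_zero_iff.mp hj
    obtain ⟨i1, hi1, hj3⟩ := Finset.exists_ne_zero_of_sum_ne_zero hj2
    obtain ⟨b, -, hj4⟩ := Finset.exists_ne_zero_of_sum_ne_zero hj3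
    obtain ⟨hy0, hinv⟩ := ih (by omega) y j (fun h0 => hj1 (by simp [h0]))
    unfold mv at hj4
    split_ifs at hj4 with hm
    swap
    · exact absurd rfl hj4
    unfold cnd at hj4
    split_ifs at hj4 with heq
    swap
    · exact absurd rfl hj4
    have hx0 : ν x.1 ≠ 0 := fun h0 => hj4 (by simp [h0])
    refine ⟨hx0, ?_⟩
    have := nestInv_step (hsupp _ hy0) j.isLt (i₁ := i1) (i' := i)
      (fun h' => (Finset.ne_of_mem_erase hi1) (Fin.ext h')) b heq.symm (by omega) hinv
    rwa [show gi x.2 - gi x0.2 = gi y.2 - gi x0.2 + label (y.1 ∘ mark t d i1 b) b by rw [hm]; abel]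

omit hd in
theorem defect_nonneg (x : St t d n Q) : 0 ≤ defect ν x :=
  Finset.sum_nonneg fun i _ => Finset.sum_nonneg fun b _ =>
    sub_nonneg.mpr (sum_mv_le ν hν x i b)

theorem sum_defect_le (hQ : 0 < Q) (hν1 : ∑ ω, ν ω = 1)
    (hsupp : ∀ ω, ν ω ≠ 0 → StrictMono ω) {η : ℝ}
    (hlaw : ∑ τ, ∑ b, |law ν τ b - law ν τ (!b)| ≤ η) :
    ∑ x : St t d n Q, defect ν x ≤ (Q : ℝ) ^ n * (η + 2 * t / Q) := by
  set Qn : ℝ := (Q : ℝ) ^ n with hQn
  have hQn0 : 0 < Qn := by positivity
  let F : (Fin (2 * t) → Fin n) → Bool → ℝ := fun τ b =>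
    1 - law ν τ (!b) / max (law ν τ b) (law ν τ (!b))
  have hbound : ∀ ω i b, ∑ g : Fin n → Fin Q,
      (ν ω * cw d - ∑ x', ∑ i', mv ν ((ω, g) : St t d n Q) i b x' i') ≤
      Qn * (ν ω * cw d * F (ω ∘ mark t d i b) b) + ν ω * cw d * ((2 * t : ℕ) : ℝ) * (Qn / Q) := by
    intro ω i b
    by_cases hω0 : ν ω = 0
    · refine le_of_le_of_eq (Finset.sum_nonpos fun g _ => ?_) (by rw [hω0]; ring)
      rw [hω0, zero_mul, zero_sub, neg_nonpos]
      exact Finset.sum_nonneg fun x' _ => Finset.sum_nonneg fun i' _ => mv_nonneg ν hν _ _ _ _ _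
    have hinjτ : Function.Injective (ω ∘ mark t d i b) :=
      (hsupp ω hω0).injective.comp (mark_strictMono t d i b).injective
    set τ := ω ∘ mark t d i b with hτ
    set a := label τ b with ha
    set out := ν ω * cw d * law ν τ (!b) / max (law ν τ b) (law ν τ (!b)) with hout
    have hout' : ∑ ω', ∑ i', cnd ν ω i b ω' i' = out := sum_cnd ν ω i b
    have ha0 : 0 ≤ ν ω * cw d := mul_nonneg (hν _) (cw_nonneg d)
    have hout1 : out ≤ ν ω * cw d := hout' ▸ sum_cnd_le ν hν ω i b
    have hout0 : 0 ≤ out := hout' ▸ Finset.sum_nonneg fun ω' _ =>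
      Finset.sum_nonneg fun i' _ => cnd_nonneg ν hν _ _ _ _ _
    let bad : (Fin n → Fin Q) → ℝ := fun g => ∑ l : Fin (2 * t),
      (if gi g (τ l) = (if a (τ l) < 0 then 0 else (Q : ℤ) - 1) then 1 else 0)
    have hbad : ∀ g, ν ω * cw d - ∑ x', ∑ i', mv ν ((ω, g) : St t d n Q) i b x' i' ≤
        (ν ω * cw d - out) + ν ω * cw d * bad g := by
      intro g
      by_cases hg : ∃ g' : Fin n → Fin Q, gi g' = gi g + a
      · obtain ⟨g', hg'⟩ := hg
        have : ∑ x', ∑ i', mv ν ((ω, g) : St t d n Q) i b x' i' = out := by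
          rw [← hout', Fintype.sum_prod_type]
          refine Finset.sum_congr rfl fun ω' _ => ?_
          rw [Finset.sum_eq_single g']
          · refine Finset.sum_congr rfl fun i' _ => ?_
            unfold mv; rw [if_pos hg']
          · intro g'' _ hne
            refine Finset.sum_eq_zero fun i' _ => ?_
            unfold mv; rw [if_neg]
            exact fun h' => hne (gi_injective (h'.trans hg'.symm))
          · simp
        rw [this, le_add_iff_nonneg_right]
        exact mul_nonneg ha0 (Finset.sum_nonneg fun l _ => by split_ifs <;> norm_num)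
      · have hb1 : 1 ≤ bad g := by
          by_contra hlt
          push Not at hlt
          apply hg
          have hnone : ∀ l, gi g (τ l) ≠ (if a (τ l) < 0 then 0 else (Q : ℤ) - 1) := by
            intro l hl
            refine absurd hlt (not_lt.mpr ?_)
            have h9 := Finset.single_le_sum (f := fun l =>
              if gi g (τ l) = (if a (τ l) < 0 then 0 else (Q : ℤ) - 1) then (1 : ℝ) else 0)
              (fun l _ => by split_ifs <;> norm_num) (mem_univ l)
            simp only [if_pos hl] at h9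
            exact h9
          have hrange : ∀ j, 0 ≤ gi g j + a j ∧ gi g j + a j < Q := by
            intro j
            have hgj : 0 ≤ gi g j ∧ gi g j < Q := ⟨by simp [gi], by simp [gi]⟩
            by_cases haj : a j = 0
            · omega
            have h0 : a j ≠ 0 := haj
            rw [ha] at h0
            unfold label at h0
            rw [Finset.sum_apply] at h0
            obtain ⟨l, -, hl⟩ := Finset.exists_ne_zero_of_sum_ne_zero h0
            have hlj : j = τ l := by
              by_contra hne; exact hl (by simp [Pi.single_apply, hne])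
            subst hlj
            have h1 := hnone l
            have hval : a (τ l) = (if b then -1 else 1) * (-1) ^ (l : ℕ) := by
              rw [ha]; unfold label
              rw [Finset.sum_apply, Finset.sum_eq_single l]
              · simp
              · intro l' _ hne; simp [Pi.single_apply, (hinjτ.ne hne).symm]
              · simp
            have habs : a (τ l) = 1 ∨ a (τ l) = -1 := by
              rw [hval]
              rcases neg_one_pow_eq_or ℤ (l : ℕ) with h | h <;> rw [h] <;> cases b <;> simp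
            rcases habs with h | h <;> rw [h] at h1 ⊢ <;> simp at h1 <;> omega
          exact ⟨fun j => ⟨(gi g j + a j).toNat, by have := hrange j; omega⟩, by
            funext j
            have := hrange j
            simp only [gi, Pi.add_apply] at this ⊢
            omega⟩
        have hnn : 0 ≤ ∑ x', ∑ i', mv ν ((ω, g) : St t d n Q) i b x' i' :=
          Finset.sum_nonneg fun x' _ => Finset.sum_nonneg fun i' _ => mv_nonneg ν hν _ _ _ _ _
        nlinarith [mul_nonneg ha0 (show (0 : ℝ) ≤ bad g - 1 by linarith)]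
    refine le_trans (Finset.sum_le_sum fun g _ => hbad g) ?_
    rw [Finset.sum_add_distrib, ← Finset.mul_sum, Finset.sum_const, Finset.card_univ,
      Fintype.card_pi, Finset.prod_const, Finset.card_univ, Fintype.card_fin, Fintype.card_fin,
      nsmul_eq_mul, Nat.cast_pow]
    refine add_le_add (le_of_eq ?_) ?_
    · simp only [F, out, hQn]; ring
    · rw [mul_assoc (ν ω * cw d)]
      refine mul_le_mul_of_nonneg_left ?_ ha0
      rw [Finset.sum_comm]
      refine le_trans (Finset.sum_le_sum (g := fun _ => Qn / Q) fun l _ => ?_) (by simp)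
      rw [le_div_iff₀ (by exact_mod_cast hQ), mul_comm]
      exact sum_box_eq_le _ _
  calc ∑ x : St t d n Q, defect ν x
      = ∑ ω, ∑ i : Fin d, ∑ b : Bool, ∑ g : Fin n → Fin Q,
          (ν ω * cw d - ∑ x', ∑ i', mv ν ((ω, g) : St t d n Q) i b x' i') := by
        rw [Fintype.sum_prod_type]
        refine Finset.sum_congr rfl fun ω _ => ?_
        unfold defect
        rw [Finset.sum_comm]
        exact Finset.sum_congr rfl fun i _ => Finset.sum_comm
    _ ≤ ∑ ω, ∑ i : Fin d, ∑ b : Bool, (Qn * (ν ω * cw d * F (ω ∘ mark t d i b) b)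
          + ν ω * cw d * ((2 * t : ℕ) : ℝ) * (Qn / Q)) :=
        Finset.sum_le_sum fun ω _ => Finset.sum_le_sum fun i _ => Finset.sum_le_sum fun b _ =>
          hbound ω i b
    _ ≤ Qn * (η + 2 * t / Q) := by
        have hA : ∑ ω, ∑ i : Fin d, ∑ b : Bool, ν ω * cw d * F (ω ∘ mark t d i b) b ≤ η := by
          refine le_trans ?_ hlaw
          have hb : ∀ b : Bool, ∑ τ, law ν τ b * F τ b
              = ∑ ω, ∑ i : Fin d, ν ω * cw d * F (ω ∘ mark t d i b) b := by
            intro b
            simp only [law, childLaw, Finset.sum_mul]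
            rw [Finset.sum_comm]
            refine Finset.sum_congr rfl fun ω _ => ?_
            rw [Finset.sum_comm]
            refine Finset.sum_congr rfl fun i _ => ?_
            rw [Finset.sum_eq_single (ω ∘ mark t d i b)]
            · rw [if_pos rfl]
            · intro τ _ hne; rw [if_neg (fun h => hne h.symm), zero_mul]
            · simp
          calc ∑ ω, ∑ i : Fin d, ∑ b : Bool, ν ω * cw d * F (ω ∘ mark t d i b) b
              = ∑ τ, ∑ b, law ν τ b * F τ b := by
                rw [Finset.sum_congr rfl fun ω _ => Finset.sum_comm, Finset.sum_comm]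
                simp only [← hb]
                rw [Finset.sum_comm]
            _ ≤ _ := by
                refine Finset.sum_le_sum fun τ _ => Finset.sum_le_sum fun b _ => ?_
                have h1 := law_nonneg ν hν τ b
                have h2 := law_nonneg ν hν τ (!b)
                simp only [F]
                rcases le_total (law ν τ b) (law ν τ (!b)) with h | h
                · rw [max_eq_right h]
                  rcases h2.lt_or_eq with h' | h'
                  · rw [div_self h'.ne', sub_self, mul_zero]; exact abs_nonneg _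
                  · rw [show law ν τ b = 0 by linarith, zero_mul]; exact abs_nonneg _
                · rw [max_eq_left h]
                  rcases h1.lt_or_eq with h' | h'
                  · rw [mul_sub, mul_one, mul_div_cancel₀ _ h'.ne']; exact le_abs_self _
                  · rw [← h', zero_mul]; exact abs_nonneg _
        have hB : ∑ ω, ∑ _i : Fin d, ∑ _b : Bool, ν ω * cw d = 1 := by
          rw [← hν1]
          refine Finset.sum_congr rfl fun ω _ => ?_
          simp [cw]
          field_simp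
        have e1 : ∑ ω, ∑ i : Fin d, ∑ b : Bool, Qn * (ν ω * cw d * F (ω ∘ mark t d i b) b)
            = Qn * ∑ ω, ∑ i : Fin d, ∑ b : Bool, ν ω * cw d * F (ω ∘ mark t d i b) b := by
          simp only [Finset.mul_sum]
        have e2 : ∑ ω, ∑ _i : Fin d, ∑ _b : Bool, ν ω * cw d * ((2 * t : ℕ) : ℝ) * (Qn / Q)
            = (∑ ω, ∑ _i : Fin d, ∑ _b : Bool, ν ω * cw d) * (((2 * t : ℕ) : ℝ) * (Qn / Q)) := by
          simp only [Finset.sum_mul, mul_assoc]
        simp only [Finset.sum_add_distrib]
        rw [e1, e2, hB, one_mul]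
        refine le_trans (add_le_add (mul_le_mul_of_nonneg_left hA hQn0.le) le_rfl) (le_of_eq ?_)
        push_cast
        ring

theorem good_total (hQ : 0 < Q) (hν1 : ∑ ω, ν ω = 1) (hsupp : ∀ ω, ν ω ≠ 0 → StrictMono ω)
    (ht : 1 ≤ t) {η : ℝ} (hlaw : ∑ τ, ∑ b, |law ν τ b - law ν τ (!b)| ≤ η)
    (s : ℕ) (hs : 2 * s + 1 ≤ t) :
    1 - s * (η + 1 / d + 2 * t / Q) ≤
      ∑ x0, ∑ x : St t d n Q, ∑ i, good ν i0 s x0 x i := by
  induction s with
  | zero =>
    have h1 : ∑ x0, ∑ x : St t d n Q, ∑ i, good ν i0 0 x0 x i = 1 := by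
      rw [← sum_stat ν hQ hν1]
      refine Finset.sum_congr rfl fun x0 _ => ?_
      simp [good, ite_and]
    rw [h1]; simp
  | succ s ih =>
    have ih := ih (by omega)
    set tot := ∑ x0, ∑ x : St t d n Q, ∑ i, good ν i0 s x0 x i with htot
    have hm : ∀ x : St t d n Q, ∑ x0, ∑ i, good ν i0 s x0 x i ≤ stat ν x := by
      intro x
      rw [← stat_pow ν hν hd s x]
      exact Finset.sum_le_sum fun x0 _ => good_le_pow ν hν hd i0 s x0 x
    have htot1 : tot ≤ 1 := by
      rw [← sum_stat ν hQ hν1, htot, Finset.sum_comm]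
      exact Finset.sum_le_sum fun x _ => hm x
    have hterm : ∀ (x0 x : St t d n Q) (i : Fin d), good ν i0 s x0 x i * (1 - 1 / d - defect ν x / ν x.1) ≤
        ∑ x', ∑ i', good ν i0 s x0 x i / ν x.1 *
          ∑ i1 ∈ Finset.univ.erase i, ∑ b : Bool, mv ν x i1 b x' i' := by
      intro x0 x i
      rcases (good_nonneg ν hν i0 s x0 x i).lt_or_eq with hg | hg
      swap
      · rw [← hg]; simp
      have hx := (good_inv ν hν hd i0 hsupp ht s (by omega) x0 x i hg.ne').1
      have hx0 : 0 < ν x.1 := lt_of_le_of_ne (hν _) (Ne.symm hx)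
      simp only [← Finset.mul_sum]
      rw [div_mul_eq_mul_div, mul_div_assoc]
      refine mul_le_mul_of_nonneg_left ?_ hg.le
      rw [le_div_iff₀ hx0]
      have h1 : ∑ x', ∑ i', ∑ i1 ∈ Finset.univ.erase i, ∑ b : Bool, mv ν x i1 b x' i'
          = ∑ i1 ∈ Finset.univ.erase i, ∑ b : Bool, ∑ x', ∑ i', mv ν x i1 b x' i' := by
        rw [Finset.sum_congr rfl fun x' _ => Finset.sum_comm]
        rw [Finset.sum_comm]
        refine Finset.sum_congr rfl fun i1 _ => ?_
        rw [Finset.sum_congr rfl fun x' _ => Finset.sum_comm]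
        rw [Finset.sum_comm]
      rw [h1]
      set R : Fin d → ℝ := fun i1 => ∑ b : Bool, ∑ x', ∑ i', mv ν x i1 b x' i' with hR
      change _ ≤ ∑ i1 ∈ Finset.univ.erase i, R i1
      rw [Finset.sum_erase_eq_sub (mem_univ i)]
      have h2 : R i ≤ 2 * (ν x.1 * cw d) := by
        refine le_trans (Finset.sum_le_sum fun b _ => sum_mv_le ν hν x i b) ?_
        simp
      have h3 : ∑ i1, R i1 = ν x.1 - defect ν x := by
        unfold defect
        simp only [Finset.sum_sub_distrib, hR]
        simp [cw]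
        field_simp
        ring
      have h4 : 2 * (ν x.1 * cw d) = ν x.1 * (1 / d) := by simp [cw]; ring
      rw [h3]
      have h5 : (1 - 1 / (d : ℝ) - defect ν x / ν x.1) * ν x.1
          = ν x.1 - ν x.1 * (1 / d) - defect ν x := by field_simp
      rw [h5]; linarith
    have hnext : ∑ x0, ∑ x : St t d n Q, ∑ i, good ν i0 s x0 x i * (1 - 1 / d - defect ν x / ν x.1) ≤
        ∑ x0, ∑ x : St t d n Q, ∑ i, good ν i0 (s + 1) x0 x i := by
      refine Finset.sum_le_sum fun x0 _ => ?_
      refine le_trans (Finset.sum_le_sum fun x _ => Finset.sum_le_sum fun i _ => hterm x0 x i)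
        (le_of_eq ?_)
      simp only [good]
      rw [Finset.sum_congr rfl fun x _ => Finset.sum_comm, Finset.sum_comm]
      refine Finset.sum_congr rfl fun x' _ => ?_
      rw [Finset.sum_congr rfl fun x _ => Finset.sum_comm, Finset.sum_comm]
    refine le_trans ?_ hnext
    have hsplit : ∑ x0, ∑ x : St t d n Q, ∑ i, good ν i0 s x0 x i * (1 - 1 / d - defect ν x / ν x.1)
        = tot * (1 - 1 / d) - ∑ x : St t d n Q, (∑ x0, ∑ i, good ν i0 s x0 x i) * (defect ν x / ν x.1) := by
      simp only [mul_sub, Finset.sum_sub_distrib, ← Finset.sum_mul, mul_one, htot]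
      rw [Finset.sum_comm (f := fun x0 x => (∑ i, good ν i0 s x0 x i) * (defect ν x / ν x.1))]
      simp only [← Finset.sum_mul]
    have hdef : ∑ x : St t d n Q, (∑ x0, ∑ i, good ν i0 s x0 x i) * (defect ν x / ν x.1) ≤ η + 2 * t / Q := by
      refine le_trans (Finset.sum_le_sum fun x _ => mul_le_mul_of_nonneg_right (hm x)
        (div_nonneg (defect_nonneg ν hν x) (hν _))) ?_
      refine le_trans (Finset.sum_le_sum (g := fun x => defect ν x / (Q : ℝ) ^ n) fun x _ => ?_) ?_
      · rcases (hν x.1).lt_or_eq with h | h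
        · unfold stat; rw [div_mul_div_comm, mul_comm ((Q : ℝ) ^ n), mul_div_mul_left _ _ h.ne']
        · rw [← h, div_zero, mul_zero]; exact div_nonneg (defect_nonneg ν hν x) (by positivity)
      · rw [← Finset.sum_div, div_le_iff₀ (by positivity), mul_comm (η + 2 * (t : ℝ) / Q)]
        exact sum_defect_le ν hν hd hQ hν1 hsupp hlaw
    have hd1 : tot * (1 / (d : ℝ)) ≤ 1 / d := mul_le_of_le_one_left (by positivity) htot1
    rw [hsplit, mul_sub, mul_one]
    push_cast
    linarith

end Good

end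

end Vale.Agent.P125
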