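import Mathlib

/-!
Definitions for P125 (Markov type and superreflexivity).

Interfaces between the modules:

* `PartA.lean`     : `Summing X → 1 < p → ¬ MarkovType X p`
* `Helly.lean`     : `Summing (X →L[ℝ] ℝ) → Summing X`
* `Growth.lean`    : `¬ Summing (X →L[ℝ] ℝ) → HasMartGrowth X`
* `Renorm.lean`    : `HasMartGrowth X → HasSmoothNorm X`
* `Duality.lean`   : `HasSmoothNorm (X →L[ℝ] ℝ) → HasConvexNorm X`
-/

namespace Vale.Agent.P125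

open Finset

universe u

/-- Markov type `p` in the sense of Ball: for every finite stationary reversible chain
(`π` the initial distribution, `P` the transition matrix), every map `f` and every `t ≥ 1`,
`E ‖f(Z_t) - f(Z_0)‖^p ≤ K^p * t * E ‖f(Z_1) - f(Z_0)‖^p`. -/
def MarkovType (X : Type u) [NormedAddCommGroup X] (p : ℝ) : Prop :=
  ∃ K : ℝ, 0 ≤ K ∧ ∀ (m : ℕ) (π : Fin m → ℝ) (P : Matrix (Fin m) (Fin m) ℝ),
    (∀ i, 0 ≤ π i) → ∑ i, π i = 1 → (∀ i j, 0 ≤ P i j) → (∀ i, ∑ j, P i j = 1) →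
    (∀ i j, π i * P i j = π j * P j i) →
    ∀ (f : Fin m → X) (t : ℕ), 1 ≤ t →
      ∑ i, ∑ j, π i * (P ^ t) i j * ‖f i - f j‖ ^ p ≤
        K ^ p * t * ∑ i, ∑ j, π i * P i j * ‖f i - f j‖ ^ p

section
variable {X : Type u} [NormedAddCommGroup X] [NormedSpace ℝ X]

/-- A seminorm that is equivalent to the given norm (hence is a norm). -/
def IsEquivNorm (N : Seminorm ℝ X) : Prop :=
  ∃ a b : ℝ, 0 < a ∧ 0 < b ∧ ∀ x : X, a * ‖x‖ ≤ N x ∧ N x ≤ b * ‖x‖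

/-- Uniform smoothness: the modulus of smoothness is `o(τ)` as `τ → 0+`. -/
def IsUniformlySmooth (N : Seminorm ℝ X) : Prop :=
  ∀ ε : ℝ, 0 < ε → ∃ τ₀ : ℝ, 0 < τ₀ ∧ ∀ τ : ℝ, 0 < τ → τ < τ₀ →
    ∀ x y : X, N x = 1 → N y = 1 → (N (x + τ • y) + N (x - τ • y)) / 2 - 1 ≤ ε * τ

/-- Uniform convexity. -/
def IsUniformlyConvex (N : Seminorm ℝ X) : Prop :=
  ∀ ε : ℝ, 0 < ε → ε ≤ 2 → ∃ δ : ℝ, 0 < δ ∧
    ∀ x y : X, N x ≤ 1 → N y ≤ 1 → ε ≤ N (x - y) → N ((1 / 2 : ℝ) • (x + y)) ≤ 1 - δ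

end

/-- `X` has an equivalent uniformly smooth norm. -/
def HasSmoothNorm (X : Type u) [NormedAddCommGroup X] [NormedSpace ℝ X] : Prop :=
  ∃ N : Seminorm ℝ X, IsEquivNorm N ∧ IsUniformlySmooth N

/-- `X` has an equivalent uniformly convex norm. -/
def HasConvexNorm (X : Type u) [NormedAddCommGroup X] [NormedSpace ℝ X] : Prop :=
  ∃ N : Seminorm ℝ X, IsEquivNorm N ∧ IsUniformlyConvex N

/-- Uniform summing property: there are arbitrarily long finite sequences in the unit ball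
all of whose initial segments are `θ`-separated from the tails by norm one functionals. -/
def Summing (X : Type u) [NormedAddCommGroup X] [NormedSpace ℝ X] : Prop :=
  ∃ θ : ℝ, 0 < θ ∧ ∀ n : ℕ, ∃ x : Fin n → X, (∀ i, ‖x i‖ ≤ 1) ∧
    ∀ k : Fin n, ∃ f : X →L[ℝ] ℝ, ‖f‖ ≤ 1 ∧ ∀ i j, i ≤ k → k < j → θ ≤ f (x i) - f (x j)

/-- A probability vector on a finite type. -/
def IsProb {Ω : Type} [Fintype Ω] (w : Ω → ℝ) : Prop :=
  (∀ ω, 0 ≤ w ω) ∧ ∑ ω, w ω = 1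

/-- `M 0, …, M n` is a martingale on the finite probability space `(Ω, w)` for its natural
filtration. -/
def IsMart {Ω : Type} [Fintype Ω] {X : Type u} [NormedAddCommGroup X] [NormedSpace ℝ X]
    (w : Ω → ℝ) (M : ℕ → Ω → X) (n : ℕ) : Prop :=
  ∀ k < n, ∀ h : Ω → ℝ, (∀ ω ω', (∀ i ≤ k, M i ω = M i ω') → h ω = h ω') →
    ∑ ω, (w ω * h ω) • (M (k + 1) ω - M k ω) = 0

/-- `E ‖M_n‖² ≤ A² ∑ E ‖d_k‖²` for all finite martingales of length `n` started at `0`. -/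
def MartBound (X : Type u) [NormedAddCommGroup X] [NormedSpace ℝ X] (n : ℕ) (A : ℝ) : Prop :=
  ∀ (Ω : Type) [Fintype Ω] (w : Ω → ℝ) (M : ℕ → Ω → X),
    IsProb w → IsMart w M n → (∀ ω, M 0 ω = 0) →
      ∑ ω, w ω * ‖M n ω‖ ^ 2 ≤
        A ^ 2 * ∑ k ∈ range n, ∑ ω, w ω * ‖M (k + 1) ω - M k ω‖ ^ 2

/-- The martingale constants grow like a power less than `1/2`. -/
def HasMartGrowth (X : Type u) [NormedAddCommGroup X] [NormedSpace ℝ X] : Prop :=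
  ∃ C α : ℝ, 0 < C ∧ 0 < α ∧ α < 1 / 2 ∧ ∀ n : ℕ, 1 ≤ n → MartBound X n (C * (n : ℝ) ^ α)

end Vale.Agent.P125
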