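import Vale.Agent.P125.RenormPredual

/-!
A uniformly smooth norm on the dual gives a uniformly convex norm on the space.
-/

namespace Vale.Agent.P125

universe u

variable {X : Type u} [NormedAddCommGroup X] [NormedSpace ℝ X]

theorem convexNorm_of_dual (h : HasSmoothNorm (X →L[ℝ] ℝ)) : HasConvexNorm X := by
  obtain ⟨Ns, ⟨a, b, ha, hb, hN⟩, hs⟩ := h
  exact ⟨Predual.norm' ha hN, Predual.isEquiv ha hN hb, Predual.convex ha hN hs⟩

end Vale.Agent.P125
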