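import Vale.Agent.P125.GrowthBase

/-! Martingale constants are submultiplicative, hence a single gain gives a power gain. -/

namespace Vale.Agent.P125

open Finset

universe u

variable {X : Type u} [NormedAddCommGroup X] [NormedSpace ℝ X]

theorem mart_interval_smul {Ω : Type} [Fintype Ω] {w : Ω → ℝ} {M : ℕ → Ω → X} {N : ℕ}
    (hM : IsMart w M N) {a b : ℕ} (hab : a ≤ b) (hb : b ≤ N) {h : Ω → ℝ} (hh : Det M a h) :
    ∑ ω, (w ω * h ω) • (M b ω - M a ω) = 0 := by
  induction b, hab using Nat.le_induction with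
  | base => simp
  | succ b hab ih =>
    rw [← add_zero (0 : X)]
    nth_rewrite 1 [← ih (by omega)]
    rw [← hM b (by omega) h (hh.mono hab), ← Finset.sum_add_distrib]
    refine Finset.sum_congr rfl fun ω _ => ?_
    rw [← smul_add]
    congr 1
    abel

theorem martBound_one : MartBound X 1 1 := by
  intro Ω _ w M _ _ h0
  simp [h0]

theorem MartBound.mono_right {n : ℕ} {A A' : ℝ} (h : MartBound X n A) (h0 : 0 ≤ A)
    (hA : A ≤ A') : MartBound X n A' := by
  intro Ω _ w M hw hM hM0
  refine (h Ω w M hw hM hM0).trans ?_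
  refine mul_le_mul_of_nonneg_right (pow_le_pow_left₀ h0 hA 2) ?_
  exact Finset.sum_nonneg fun k _ => Finset.sum_nonneg fun ω _ => mul_nonneg (hw.1 ω) (sq_nonneg _)

theorem MartBound.mono_left {n k : ℕ} {A : ℝ} (h : MartBound X n A) (hk : k ≤ n) :
    MartBound X k A := by
  intro Ω _ w M hw hM hM0
  have hM' : IsMart w (fun i => M (min i k)) n := by
    intro i _ g hg
    rcases lt_or_ge i k with hik | hik
    · simp only [min_eq_left hik.le, min_eq_left (show i + 1 ≤ k by omega)]
      exact hM i hik g fun ω ω' e => hg ω ω' fun l hl => by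
        simpa [min_eq_left (show l ≤ k by omega)] using e l hl
    · simp [min_eq_right hik, min_eq_right (show k ≤ i + 1 by omega)]
  have := h Ω w (fun i => M (min i k)) hw hM' (by simpa using hM0)
  simp only [min_eq_right hk] at this
  refine this.trans (le_of_eq ?_)
  congr 1
  obtain ⟨r, rfl⟩ := Nat.exists_eq_add_of_le hk
  rw [Finset.sum_range_add]
  have hz : ∑ x ∈ Finset.range r, ∑ ω, w ω * ‖M (min (k + x + 1) k) ω - M (min (k + x) k) ω‖ ^ 2
      = 0 := Finset.sum_eq_zero fun x _ => by
    simp [min_eq_right (show k ≤ k + x + 1 by omega)]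
  rw [hz, add_zero]
  refine Finset.sum_congr rfl fun i hi => ?_
  have hi' := Finset.mem_range.1 hi
  simp only [min_eq_left hi'.le, min_eq_left (show i + 1 ≤ k by omega)]

theorem sum_range_blocks (F : ℕ → ℝ) (n m : ℕ) :
    ∑ i ∈ Finset.range n, ∑ j ∈ Finset.range m, F (i * m + j) = ∑ r ∈ Finset.range (n * m), F r := by
  induction n with
  | zero => simp
  | succ n ih => rw [Finset.sum_range_succ, ih, Nat.succ_mul, Finset.sum_range_add]

theorem MartBound.mul {n m : ℕ} {A B : ℝ} (hA : MartBound X n A) (hB : MartBound X m B) :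
    MartBound X (n * m) (A * B) := by
  intro Ω _ w M hw hM hM0
  have hle : ∀ i, i < n → i * m + m ≤ n * m := fun i hi => by
    rw [← Nat.succ_mul]; exact Nat.mul_le_mul_right m hi
  have hcoarse : IsMart w (fun i => M (i * m)) n := by
    intro k hk h hh
    refine mart_interval_smul hM (Nat.mul_le_mul_right m k.le_succ)
      (by rw [Nat.succ_mul]; exact hle k hk) ?_
    exact fun ω ω' e => hh ω ω' fun i hi => e _ (Nat.mul_le_mul_right m hi)
  have hout := hA Ω w (fun i => M (i * m)) hw hcoarse (by simpa using hM0)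
  refine hout.trans ?_
  rw [mul_pow, mul_assoc]
  refine mul_le_mul_of_nonneg_left ?_ (sq_nonneg A)
  rw [← sum_range_blocks _ n m, Finset.mul_sum]
  refine Finset.sum_le_sum fun i hi => ?_
  have hi' := hle i (Finset.mem_range.1 hi)
  have hfine : IsMart w (fun j ω => M (i * m + j) ω - M (i * m) ω) m := by
    intro k hk h hh
    have hz := hM (i * m + k) (by omega) h fun ω ω' e => hh ω ω' fun j hj => by
      simp only [e (i * m + j) (by omega), e (i * m) (by omega)]
    simpa [← add_assoc] using hz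
  have hin := hB Ω w (fun j ω => M (i * m + j) ω - M (i * m) ω) hw hfine (fun ω => by simp)
  simp only [Nat.succ_mul] at hin ⊢
  simpa [← add_assoc] using hin

/-- One gain over the trivial constant gives a power gain. -/
theorem hasMartGrowth_of_gain {n₀ : ℕ} (hn : 2 ≤ n₀) {A₀ : ℝ} (hA0 : 0 ≤ A₀)
    (hA1 : A₀ < Real.sqrt n₀) (hb : MartBound X n₀ A₀) : HasMartGrowth X := by
  have hn1 : (1 : ℝ) < n₀ := by exact_mod_cast hn
  set A := max A₀ ((n₀ : ℝ) ^ (1 / 4 : ℝ)) with hA
  have hA1' : 1 < A := lt_max_of_lt_right (Real.one_lt_rpow hn1 (by norm_num))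
  have hA2 : A < Real.sqrt n₀ := max_lt hA1 (by
    rw [Real.sqrt_eq_rpow]
    exact Real.rpow_lt_rpow_of_exponent_lt hn1 (by norm_num))
  have hlog : 0 < Real.log n₀ := Real.log_pos hn1
  set α := Real.log A / Real.log n₀ with hα
  have hα0 : 0 < α := div_pos (Real.log_pos hA1') hlog
  have hα2 : α < 1 / 2 := by
    rw [hα, div_lt_iff₀ hlog]
    have := Real.log_lt_log (by linarith) hA2
    rw [Real.log_sqrt (by linarith)] at this
    linarith
  have hAα : (n₀ : ℝ) ^ α = A := by
    rw [Real.rpow_def_of_pos (by linarith), hα, mul_div_cancel₀ _ hlog.ne',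
      Real.exp_log (by linarith)]
  have hb' : MartBound X n₀ A := hb.mono_right hA0 (le_max_left _ _)
  have hpow : ∀ j : ℕ, MartBound X (n₀ ^ j) (A ^ j) := by
    intro j
    induction j with
    | zero => simpa using martBound_one
    | succ j ih => rw [pow_succ, pow_succ]; exact ih.mul hb'
  refine ⟨A, α, by linarith, hα0, hα2, fun n hn' => ?_⟩
  set j := Nat.clog n₀ n
  have hj : n₀ ^ j ≤ n₀ * n := by
    rcases eq_or_lt_of_le hn' with h | h
    · have : j = 0 := by simp [j, ← h]
      rw [this, pow_zero]; exact Nat.mul_pos (by omega) hn'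
    · have h1 := Nat.pow_pred_clog_lt_self (show 1 < n₀ by omega) h
      have h2 : 0 < j := Nat.clog_pos (by omega) (by omega)
      calc n₀ ^ j = n₀ * n₀ ^ (j - 1) := by
            rw [← pow_succ', Nat.sub_add_cancel h2]
        _ ≤ n₀ * n := Nat.mul_le_mul_left _ (Nat.le_of_lt h1)
  refine ((hpow j).mono_left (Nat.le_pow_clog (by omega) n)).mono_right (by positivity) ?_
  calc A ^ j = ((n₀ ^ j : ℕ) : ℝ) ^ α := by
        rw [← hAα, ← Real.rpow_natCast ((n₀ : ℝ) ^ α), ← Real.rpow_mul (by linarith), mul_comm,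
          Real.rpow_mul (by linarith), Real.rpow_natCast, Nat.cast_pow]
    _ ≤ ((n₀ * n : ℕ) : ℝ) ^ α := Real.rpow_le_rpow (by positivity) (by exact_mod_cast hj) hα0.le
    _ = A * (n : ℝ) ^ α := by
        rw [Nat.cast_mul, Real.mul_rpow (by positivity) (by positivity), hAα]

end Vale.Agent.P125
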