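import Vale.Agent.P125.GrowthBush
import Vale.Agent.P125.GrowthPow

/-!
If `X` has no martingale gain then its dual has the uniform summing property: an almost extremal
martingale has almost constant norms of increments, and conditioning the norming functional of
its last term gives a martingale in the dual ball with uniformly large increments.
-/

namespace Vale.Agent.P125

open Finset

universe u

/-- The average of `f` over the fibre of `κ` through `ω`. -/
noncomputable def avg {Ω β : Type*} [Fintype Ω] {F : Type*} [AddCommGroup F] [Module ℝ F]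
    (κ : Ω → β) (w : Ω → ℝ) (f : Ω → F) (ω : Ω) : F :=
  open Classical in
  (∑ x ∈ Finset.univ.filter (fun x => κ x = κ ω), w x)⁻¹ •
    ∑ x ∈ Finset.univ.filter (fun x => κ x = κ ω), w x • f x

theorem avg_congr {Ω β : Type*} [Fintype Ω] {F : Type*} [AddCommGroup F] [Module ℝ F]
    (κ : Ω → β) (w : Ω → ℝ) (f : Ω → F) {ω ω' : Ω} (h : κ ω = κ ω') :
    avg κ w f ω = avg κ w f ω' := by
  classical
  have e : (Finset.univ.filter fun x => κ x = κ ω) = Finset.univ.filter fun x => κ x = κ ω' := by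
    ext x; simp [h]
  simp only [avg]
  convert congrArg (fun t : Finset Ω => (∑ x ∈ t, w x)⁻¹ • ∑ x ∈ t, w x • f x) e using 1

theorem norm_avg_le {Ω β : Type*} [Fintype Ω] {F : Type*} [SeminormedAddCommGroup F]
    [NormedSpace ℝ F] (κ : Ω → β) {w : Ω → ℝ} (hw : ∀ x, 0 ≤ w x) {f : Ω → F}
    (hf : ∀ x, ‖f x‖ ≤ 1) (ω : Ω) : ‖avg κ w f ω‖ ≤ 1 := by
  classical
  simp only [avg]
  set s := Finset.univ.filter fun x => κ x = κ ω
  have h0 : 0 ≤ ∑ x ∈ s, w x := Finset.sum_nonneg fun x _ => hw x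
  have h : ‖∑ x ∈ s, w x • f x‖ ≤ ∑ x ∈ s, w x :=
    (norm_sum_le _ _).trans (Finset.sum_le_sum fun x _ => by
      rw [norm_smul, Real.norm_of_nonneg (hw x)]
      exact mul_le_of_le_one_right (hw x) (hf x))
  rw [norm_smul, norm_inv, Real.norm_of_nonneg h0]
  refine (mul_le_mul_of_nonneg_left h (inv_nonneg.2 h0)).trans ?_
  rcases h0.eq_or_lt with e | e
  · simp [← e]
  · rw [inv_mul_cancel₀ e.ne']

theorem sum_avg {Ω β : Type*} [Fintype Ω] {F F' : Type*} [AddCommGroup F] [Module ℝ F]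
    [AddCommGroup F'] [Module ℝ F'] (κ : Ω → β) {w : Ω → ℝ} (hw : ∀ x, 0 ≤ w x) (f : Ω → F)
    {T : Ω → F →ₗ[ℝ] F'} (hT : ∀ x y, κ x = κ y → T x = T y) :
    ∑ ω, w ω • T ω (avg κ w f ω) = ∑ ω, w ω • T ω (f ω) := by
  classical
  have hmaps : ∀ ω ∈ (Finset.univ : Finset Ω), κ ω ∈ Finset.univ.image κ :=
    fun ω hω => Finset.mem_image_of_mem κ hω
  rw [← Finset.sum_fiberwise_of_maps_to hmaps fun ω => w ω • T ω (avg κ w f ω),
    ← Finset.sum_fiberwise_of_maps_to hmaps fun ω => w ω • T ω (f ω)]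
  refine Finset.sum_congr rfl fun v hv => ?_
  obtain ⟨ω₀, -, rfl⟩ := Finset.mem_image.1 hv
  set s := Finset.univ.filter fun x => κ x = κ ω₀
  have e1 : ∀ x ∈ s, T x = T ω₀ := fun x hx => hT _ _ (Finset.mem_filter.1 hx).2
  calc ∑ x ∈ s, w x • T x (avg κ w f x)
      = ∑ x ∈ s, w x • T ω₀ (avg κ w f ω₀) := Finset.sum_congr rfl fun x hx => by
        rw [e1 x hx, avg_congr κ w f (Finset.mem_filter.1 hx).2]
    _ = T ω₀ ((∑ x ∈ s, w x) • avg κ w f ω₀) := by rw [map_smul, Finset.sum_smul]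
    _ = T ω₀ (∑ x ∈ s, w x • f x) := by
        congr 1
        by_cases h0 : ∑ x ∈ s, w x = 0
        · rw [h0, zero_smul, Finset.sum_eq_zero fun x hx => ?_]
          rw [(Finset.sum_eq_zero_iff_of_nonneg fun y _ => hw y).1 h0 x hx, zero_smul]
        · simp only [avg]
          exact smul_inv_smul₀ h0 _
    _ = _ := by
        rw [map_sum]
        exact Finset.sum_congr rfl fun x hx => by rw [map_smul, e1 x hx]

theorem sq_sub_le_card_mul {n : ℕ} (a : ℕ → ℝ) {k : ℕ} (hk : k < n) :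
    (a k - a 0) ^ 2 ≤
      n * ∑ i ∈ Finset.range n, a i ^ 2 - (∑ i ∈ Finset.range n, a i) ^ 2 := by
  set f : ℕ → ℝ := fun i => ∑ j ∈ Finset.range n, (a i - a j) ^ 2 with hf
  have hid : ∑ i ∈ Finset.range n, f i =
      2 * (n * ∑ i ∈ Finset.range n, a i ^ 2 - (∑ i ∈ Finset.range n, a i) ^ 2) := by
    simp only [hf, sub_sq, Finset.sum_add_distrib, Finset.sum_sub_distrib, ← Finset.mul_sum,
      ← Finset.sum_mul, Finset.sum_const, Finset.card_range, nsmul_eq_mul]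
    ring
  have h0 : ∀ i ∈ Finset.range n, 0 ≤ f i := fun i _ => Finset.sum_nonneg fun j _ => sq_nonneg _
  rcases eq_or_ne k 0 with rfl | hk0
  · have := Finset.sum_nonneg h0
    nlinarith
  have hk' := Finset.mem_range.2 hk
  have hz : 0 ∈ Finset.range n := Finset.mem_range.2 (by omega)
  have h1 : (a k - a 0) ^ 2 ≤ f k :=
    Finset.single_le_sum (f := fun j => (a k - a j) ^ 2) (fun j _ => sq_nonneg _) hz
  have h2 : (a 0 - a k) ^ 2 ≤ f 0 :=
    Finset.single_le_sum (f := fun j => (a 0 - a j) ^ 2) (fun j _ => sq_nonneg _) hk'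
  have h3 := Finset.add_le_sum h0 hk' hz hk0
  nlinarith

theorem abs_weighted_le {Ω : Type} [Fintype Ω] {w g Q : Ω → ℝ} (hw : ∀ ω, 0 ≤ w ω) {r : ℝ}
    (hr : 0 < r) (hg : ∀ ω, g ω ^ 2 ≤ Q ω) (hsum : ∑ ω, w ω = 1)
    (hQ : ∑ ω, w ω * Q ω ≤ r ^ 2) (G : Finset Ω) : ∑ ω ∈ G, w ω * |g ω| ≤ r := by
  refine (Finset.sum_le_sum_of_subset_of_nonneg (Finset.subset_univ G)
    fun ω _ _ => mul_nonneg (hw ω) (abs_nonneg _)).trans ?_
  have h : ∀ ω, w ω * |g ω| * (2 * r) ≤ w ω * Q ω + w ω * r ^ 2 := fun ω => by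
    rw [← mul_add, mul_assoc]
    refine mul_le_mul_of_nonneg_left ?_ (hw ω)
    nlinarith [sq_nonneg (|g ω| - r), sq_abs (g ω), hg ω]
  have h' := Finset.sum_le_sum fun ω (_ : ω ∈ Finset.univ) => h ω
  rw [← Finset.sum_mul, Finset.sum_add_distrib, ← Finset.sum_mul, hsum, one_mul] at h'
  refine le_of_mul_le_mul_right (a := 2 * r) ?_ (by positivity)
  nlinarith

variable {X : Type u} [NormedAddCommGroup X] [NormedSpace ℝ X]

/-- From an almost extremal martingale, a martingale in the dual ball with large increments. -/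
theorem exists_dual_mart {n : ℕ} (hn : 2 ≤ n) {s : ℝ} (hs : 0 < s)
    (hbad : ∀ A : ℝ, 0 ≤ A → A < Real.sqrt n → ¬ MartBound X n A) :
    ∃ (Ω : Type) (_ : Fintype Ω) (w : Ω → ℝ) (Λ : ℕ → Ω → (X →L[ℝ] ℝ)),
      IsProb w ∧ IsMart w Λ (n - 2) ∧ (∀ k, ∀ ω, ‖Λ k ω‖ ≤ 1) ∧
      ∀ k < n - 2, ∀ G : Finset Ω, DetSet Λ k G →
        1 * ∑ ω ∈ G, w ω - 4 * s ≤ ∑ ω ∈ G, w ω * ‖Λ (k + 1) ω - Λ k ω‖ := by
  classical
  have hn2 : (2 : ℝ) ≤ n := by exact_mod_cast hn
  set δ := min (1 / (4 * n : ℝ)) (s ^ 2 / (4 * n)) with hδ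
  have hδ0 : 0 < δ := lt_min (by positivity) (by positivity)
  have hδ1 : δ * (4 * n) ≤ 1 := by
    rw [← le_div_iff₀ (by positivity)]; exact min_le_left _ _
  have hδ2 : δ * (4 * n) ≤ s ^ 2 := by
    rw [← le_div_iff₀ (by positivity)]; exact min_le_right _ _
  have hδn : δ < n := by nlinarith
  have hbad' := hbad (Real.sqrt (n - δ)) (Real.sqrt_nonneg _)
    (Real.sqrt_lt_sqrt (by linarith) (by linarith))
  simp only [MartBound, not_forall, not_le] at hbad'
  obtain ⟨Ω, hΩ, w, M, hw, hM, hM0, hlt⟩ := hbad'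
  rw [Real.sq_sqrt (by linarith)] at hlt
  set a : ℕ → Ω → ℝ := fun k ω => ‖M (k + 1) ω - M k ω‖ with ha
  set L : Ω → ℝ := fun ω => n * ∑ k ∈ Finset.range n, a k ω ^ 2 - ‖M n ω‖ ^ 2 with hL
  set f : Ω → (X →L[ℝ] ℝ) := fun ω => norming (M n ω) with hf
  have htel : ∀ ω, ∑ k ∈ Finset.range n, (M (k + 1) ω - M k ω) = M n ω := fun ω => by
    rw [Finset.sum_range_sub fun k => M k ω, hM0 ω, sub_zero]
  have hle : ∀ ω k, f ω (M (k + 1) ω - M k ω) ≤ a k ω := fun ω k => by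
    refine (le_abs_self _).trans ?_
    simpa [ha] using (f ω).le_of_opNorm_le (norming_spec _).1 (M (k + 1) ω - M k ω)
  have hYU : ∀ ω, ‖M n ω‖ ≤ ∑ k ∈ Finset.range n, a k ω := fun ω => by
    rw [← htel ω]; exact norm_sum_le _ _
  have hL1 : ∀ ω k, k < n → (a k ω - a 0 ω) ^ 2 ≤ L ω := fun ω k hk => by
    have := sq_sub_le_card_mul (fun i => a i ω) hk
    have := mul_self_le_mul_self (norm_nonneg (M n ω)) (hYU ω)
    simp only [hL]
    nlinarith
  have hL2 : ∀ ω k, k < n → (a k ω - f ω (M (k + 1) ω - M k ω)) ^ 2 ≤ L ω := fun ω k hk => by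
    have h1 := sq_sub_le_card_mul (fun i => a i ω) (show 0 < n by omega)
    have h2 : a k ω - f ω (M (k + 1) ω - M k ω) ≤ ∑ i ∈ Finset.range n, a i ω - ‖M n ω‖ := by
      refine (Finset.single_le_sum (f := fun i => a i ω - f ω (M (i + 1) ω - M i ω))
        (fun i _ => sub_nonneg.2 (hle ω i)) (Finset.mem_range.2 hk)).trans_eq ?_
      rw [Finset.sum_sub_distrib, ← map_sum, htel, hf, (norming_spec (M n ω)).2]
    have h3 := mul_self_le_mul_self (sub_nonneg.2 (hle ω k)) h2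
    have h4 := mul_nonneg (norm_nonneg (M n ω)) (sub_nonneg.2 (hYU ω))
    simp only [hL]
    nlinarith
  have hL0 : ∀ ω, 0 ≤ L ω := fun ω => (sq_nonneg _).trans (hL1 ω 0 (by omega))
  set S := ∑ k ∈ Finset.range n, ∑ ω, w ω * a k ω ^ 2 with hS
  have hEL : ∑ ω, w ω * L ω < δ * S := by
    have e : ∑ ω, w ω * L ω = n * S - ∑ ω, w ω * ‖M n ω‖ ^ 2 := by
      simp only [hL, hS, mul_sub, Finset.sum_sub_distrib, Finset.mul_sum]
      rw [Finset.sum_comm]
      congr 1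
      exact Finset.sum_congr rfl fun k _ => Finset.sum_congr rfl fun ω _ => by ring
    change (n - δ) * S < _ at hlt
    linarith
  set E0 := ∑ ω, w ω * a 0 ω ^ 2 with hE0
  have hS4 : S ≤ 4 * n * E0 := by
    have h : ∀ k ∈ Finset.range n, ∑ ω, w ω * a k ω ^ 2 ≤ 2 * E0 + 2 * ∑ ω, w ω * L ω := by
      intro k hk
      rw [hE0, Finset.mul_sum, Finset.mul_sum, ← Finset.sum_add_distrib]
      refine Finset.sum_le_sum fun ω _ => ?_
      have h1 := mul_le_mul_of_nonneg_left (hL1 ω k (Finset.mem_range.1 hk)) (hw.1 ω)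
      have h2 := mul_nonneg (hw.1 ω) (sq_nonneg (a k ω - 2 * a 0 ω))
      nlinarith
    have h' := Finset.sum_le_sum h
    rw [← hS, Finset.sum_const, Finset.card_range, nsmul_eq_mul] at h'
    have h5 := mul_le_mul_of_nonneg_left hEL.le (show (0 : ℝ) ≤ n by positivity)
    have h6 : (δ * (4 * n)) * S ≤ 1 * S := mul_le_mul_of_nonneg_right hδ1
      (Finset.sum_nonneg fun k _ => Finset.sum_nonneg fun ω _ => mul_nonneg (hw.1 ω) (sq_nonneg _))
    linarith
  have hpos : 0 < ∑ ω, w ω * (s ^ 2 * a 0 ω ^ 2 - L ω) := by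
    have e : ∑ ω, w ω * (s ^ 2 * a 0 ω ^ 2 - L ω) = s ^ 2 * E0 - ∑ ω, w ω * L ω := by
      rw [hE0, Finset.mul_sum, ← Finset.sum_sub_distrib]
      exact Finset.sum_congr rfl fun ω _ => by ring
    have h1 := mul_le_mul_of_nonneg_left hS4 hδ0.le
    have h2 : (δ * (4 * n)) * E0 ≤ s ^ 2 * E0 := mul_le_mul_of_nonneg_right hδ2
      (Finset.sum_nonneg fun ω _ => mul_nonneg (hw.1 ω) (sq_nonneg _))
    linarith
  rw [← Finset.sum_fiberwise_of_maps_to (t := Finset.univ.image (M 1)) (g := M 1)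
    fun ω hω => Finset.mem_image_of_mem _ hω] at hpos
  obtain ⟨v, -, hv⟩ : ∃ v ∈ Finset.univ.image (M 1),
      0 < ∑ ω ∈ Finset.univ.filter (fun ω => M 1 ω = v), w ω * (s ^ 2 * a 0 ω ^ 2 - L ω) := by
    by_contra hc
    exact absurd hpos (not_lt.2 (Finset.sum_nonpos fun v hv => not_lt.1 fun h => hc ⟨v, hv, h⟩))
  set Fv := Finset.univ.filter fun ω => M 1 ω = v with hFv
  set D := ‖v‖
  have hD : ∀ ω ∈ Fv, a 0 ω = D := fun ω hω => by
    simp only [ha, hM0 ω, sub_zero, (Finset.mem_filter.1 hω).2, zero_add, D]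
  set Pv := ∑ ω ∈ Fv, w ω with hPv
  have hPv0 : 0 ≤ Pv := Finset.sum_nonneg fun ω _ => hw.1 ω
  have hvL : ∑ ω ∈ Fv, w ω * L ω < s ^ 2 * D ^ 2 * Pv := by
    have e : ∑ ω ∈ Fv, w ω * (s ^ 2 * a 0 ω ^ 2 - L ω) =
        s ^ 2 * D ^ 2 * Pv - ∑ ω ∈ Fv, w ω * L ω := by
      rw [hPv, Finset.mul_sum, ← Finset.sum_sub_distrib]
      exact Finset.sum_congr rfl fun ω hω => by rw [hD ω hω]; ring
    linarith
  have hvL0 : 0 ≤ ∑ ω ∈ Fv, w ω * L ω :=
    Finset.sum_nonneg fun ω _ => mul_nonneg (hw.1 ω) (hL0 ω)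
  have hP : 0 < Pv := hPv0.lt_of_ne fun e => by rw [← e, mul_zero] at hvL; linarith
  have hDp : 0 < D := (norm_nonneg v).lt_of_ne fun e => by
    change 0 = D at e
    rw [← e] at hvL
    simp at hvL
    linarith
  set w' : Ω → ℝ := fun ω => if M 1 ω = v then w ω / Pv else 0 with hw'
  have hw'0 : ∀ ω, 0 ≤ w' ω := fun ω => by
    simp only [hw']; split_ifs
    · exact div_nonneg (hw.1 ω) hPv0
    · exact le_rfl
  have hw'1 : ∑ ω, w' ω = 1 := by
    simp only [hw', ← Finset.sum_filter]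
    rw [← Finset.sum_div, ← hFv, ← hPv, div_self hP.ne']
  have hw'L : ∑ ω, w' ω * L ω ≤ (s * D) ^ 2 := by
    simp only [hw', ite_mul, zero_mul, ← Finset.sum_filter, div_mul_eq_mul_div]
    rw [← Finset.sum_div, div_le_iff₀ hP, mul_pow, ← hFv]
    exact hvL.le
  have hdev : ∀ k < n, ∀ G : Finset Ω, ∑ ω ∈ G, w' ω * |a k ω - D| ≤ s * D := by
    intro k hk G
    have hEq : ∑ ω ∈ G, w' ω * |a k ω - D| = ∑ ω ∈ G, w' ω * |a k ω - a 0 ω| := by
      refine Finset.sum_congr rfl fun ω _ => ?_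
      by_cases h : M 1 ω = v
      · rw [hD ω (Finset.mem_filter.2 ⟨Finset.mem_univ _, h⟩)]
      · simp [hw', h]
    rw [hEq]
    exact abs_weighted_le hw'0 (mul_pos hs hDp) (fun ω => hL1 ω k hk) hw'1 hw'L G
  -- the conditional expectations of the norming functional
  set κ : (r : ℕ) → Ω → (Fin (r + 2) → X) := fun r ω i => M i ω with hκ
  set Λ : ℕ → Ω → (X →L[ℝ] ℝ) := fun r ω => avg (κ r) w' f ω with hΛ
  have hκe : ∀ r ω ω', (∀ i ≤ r + 1, M i ω = M i ω') → κ r ω = κ r ω' := fun r ω ω' h =>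
    funext fun i => h i (Nat.le_of_lt_succ i.2)
  have hκe' : ∀ r i ω ω', κ r ω = κ r ω' → i ≤ r + 1 → M i ω = M i ω' := fun r i ω ω' h hi =>
    congrFun h ⟨i, Nat.lt_succ_of_le hi⟩
  have hdetΛ : ∀ k r ω ω', κ k ω = κ k ω' → r ≤ k → Λ r ω = Λ r ω' := fun k r ω ω' h hr =>
    avg_congr _ _ _ (hκe r ω ω' fun i hi => hκe' k i ω ω' h (by omega))
  refine ⟨Ω, hΩ, w', Λ, ⟨hw'0, hw'1⟩, ?_, fun k ω => norm_avg_le _ hw'0
    (fun x => (norming_spec _).1) ω, ?_⟩
  · intro k _ h hh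
    have hhκ : ∀ x y, κ k x = κ k y → h x = h y := fun x y e =>
      hh x y fun i hi => hdetΛ k i x y e hi
    let T : Ω → (X →L[ℝ] ℝ) →ₗ[ℝ] (X →L[ℝ] ℝ) := fun ω => h ω • LinearMap.id
    have h1 := sum_avg (κ (k + 1)) hw'0 f (T := T) fun x y e => by
      simp only [T, hhκ x y (hκe k x y fun i hi => hκe' (k + 1) i x y e (by omega))]
    have h2 := sum_avg (κ k) hw'0 f (T := T) fun x y e => by simp only [T, hhκ x y e]
    simp only [T, LinearMap.smul_apply, LinearMap.id_apply] at h1 h2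
    simp only [mul_smul, smul_sub, Finset.sum_sub_distrib, hΛ]
    rw [h1, h2, sub_self]
  · intro k hk G hG
    have hGκ : ∀ x y, κ k x = κ k y → (x ∈ G ↔ y ∈ G) := fun x y e =>
      hG x y fun i hi => hdetΛ k i x y e hi
    set d : Ω → X := fun ω => M (k + 2) ω - M (k + 1) ω with hd
    let T : Ω → (X →L[ℝ] ℝ) →ₗ[ℝ] ℝ := fun ω => if ω ∈ G then
      (ContinuousLinearMap.apply ℝ ℝ (d ω)).toLinearMap else 0
    have h1 := sum_avg (κ (k + 1)) hw'0 f (T := T) fun x y e => by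
      have hx := hGκ x y (hκe k x y fun i hi => hκe' (k + 1) i x y e (by omega))
      have hdd : d x = d y := by
        simp only [hd, hκe' (k + 1) (k + 2) x y e le_rfl, hκe' (k + 1) (k + 1) x y e (by omega)]
      simp only [T, hx, hdd]
    have hT : ∀ ω l, T ω l = if ω ∈ G then l (d ω) else 0 := fun ω l => by
      simp only [T]; split_ifs <;> simp
    simp only [hT, smul_eq_mul, mul_ite, mul_zero, Finset.sum_ite_mem, Finset.univ_inter] at h1
    have h2 : ∑ ω ∈ G, w' ω * Λ k ω (d ω) = 0 := by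
      have hz := mart_step hM (show k + 1 < n by omega) (F := Λ k)
        (fun ω ω' e => avg_congr _ _ _ (hκe k ω ω' e))
        (G := G.filter fun ω => M 1 ω = v) (fun ω ω' e => by
          simp only [Finset.mem_filter, hGκ ω ω' (hκe k ω ω' e), e 1 (by omega)])
      simp only [hw', ite_mul, zero_mul, ← Finset.sum_filter, div_mul_eq_mul_div, ← Finset.sum_div]
      simp only [hd]
      rw [hz, zero_div]
    have hfd : D * ∑ ω ∈ G, w' ω - 2 * (s * D) ≤ ∑ ω ∈ G, w' ω * f ω (d ω) := by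
      have q1 := abs_weighted_le hw'0 (mul_pos hs hDp) (fun ω => hL2 ω (k + 1) (by omega))
        hw'1 hw'L G
      have q2 := hdev (k + 1) (by omega) G
      have q3 : ∑ ω ∈ G, (w' ω * D - w' ω * |a (k + 1) ω - f ω (d ω)| -
          w' ω * |a (k + 1) ω - D|) ≤ ∑ ω ∈ G, w' ω * f ω (d ω) := by
        refine Finset.sum_le_sum fun ω _ => ?_
        rw [← mul_sub, ← mul_sub]
        refine mul_le_mul_of_nonneg_left ?_ (hw'0 ω)
        linarith [le_abs_self (a (k + 1) ω - f ω (d ω)), neg_abs_le (a (k + 1) ω - D)]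
      rw [Finset.sum_sub_distrib, Finset.sum_sub_distrib, ← Finset.sum_mul] at q3
      simp only [hd] at q3 ⊢
      linarith
    have hup : ∑ ω ∈ G, w' ω * (Λ (k + 1) ω - Λ k ω) (d ω) ≤
        D * ∑ ω ∈ G, w' ω * ‖Λ (k + 1) ω - Λ k ω‖ + 2 * (s * D) := by
      have q2 := hdev (k + 1) (by omega) G
      rw [Finset.mul_sum]
      refine le_trans (Finset.sum_le_sum fun ω _ => ?_) (le_trans (le_of_eq
        (Finset.sum_add_distrib (f := fun ω => D * (w' ω * ‖Λ (k + 1) ω - Λ k ω‖))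
          (g := fun ω => 2 * (w' ω * |a (k + 1) ω - D|)))) ?_)
      · have h3 := (le_abs_self _).trans ((Λ (k + 1) ω - Λ k ω).le_opNorm (d ω))
        change _ ≤ _ * a (k + 1) ω at h3
        have h4 : ‖Λ (k + 1) ω - Λ k ω‖ ≤ 2 := by
          have hb : ∀ r, ‖Λ r ω‖ ≤ 1 := fun r => norm_avg_le _ hw'0 (fun x => (norming_spec _).1) ω
          linarith [norm_sub_le (Λ (k + 1) ω) (Λ k ω), hb (k + 1), hb k]
        have h5 := mul_le_mul_of_nonneg_left (le_abs_self (a (k + 1) ω - D))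
          (norm_nonneg (Λ (k + 1) ω - Λ k ω))
        have h6 := mul_le_mul_of_nonneg_right h4 (abs_nonneg (a (k + 1) ω - D))
        calc _ ≤ w' ω * (D * ‖Λ (k + 1) ω - Λ k ω‖ + 2 * |a (k + 1) ω - D|) :=
              mul_le_mul_of_nonneg_left (by linarith) (hw'0 ω)
          _ = _ := by ring
      · rw [← Finset.mul_sum, ← Finset.mul_sum]
        linarith
    have e : ∑ ω ∈ G, w' ω * (Λ (k + 1) ω - Λ k ω) (d ω) = ∑ ω ∈ G, w' ω * f ω (d ω) := by
      simp only [sub_apply, mul_sub, Finset.sum_sub_distrib]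
      rw [h2, sub_zero]
      exact h1
    rw [one_mul]
    refine le_of_mul_le_mul_left ?_ hDp
    linarith

/-- No martingale gain forces the uniform summing property of the dual. -/
theorem summing_dual_of_no_gain
    (h : ∀ n : ℕ, 2 ≤ n → ∀ A : ℝ, 0 ≤ A → A < Real.sqrt n → ¬ MartBound X n A) :
    Summing (X →L[ℝ] ℝ) := by
  refine ⟨1 / 32, by norm_num, fun K => ?_⟩
  obtain ⟨N, η, hη, hbush⟩ := exists_bush (E := X →L[ℝ] ℝ) (c := 1) one_pos le_rfl K
  obtain ⟨Ω, hΩ, w, Λ, hw, hΛ, hball, hgrow⟩ :=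
    exists_dual_mart (n := N + 2) (by omega) (show (0 : ℝ) < η / 4 by positivity) (h _ (by omega))
  exact hbush Ω w Λ hw hΛ (fun k _ => hball k) fun k hk G hG => by
    linarith [hgrow k (by omega) G hG]

theorem martGrowth_of_not_summing (h : ¬ Summing (X →L[ℝ] ℝ)) : HasMartGrowth X := by
  by_contra hc
  exact h (summing_dual_of_no_gain fun n hn A hA0 hA1 hb =>
    hc (hasMartGrowth_of_gain hn hA0 hA1 hb))

end Vale.Agent.P125
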