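import Vale.Agent.P125.Defs

/-! Finite martingales: sums over events, orthogonality, and distances to random hulls. -/

namespace Vale.Agent.P125

open Finset

universe u

variable {E : Type u} [NormedAddCommGroup E] [NormedSpace ℝ E]
  {Ω : Type} [Fintype Ω] {w : Ω → ℝ} {M : ℕ → Ω → E} {N : ℕ}

/-- `h` is determined by `M 0, …, M k`. -/
def Det {α : Type*} (M : ℕ → Ω → E) (k : ℕ) (h : Ω → α) : Prop :=
  ∀ ω ω', (∀ i ≤ k, M i ω = M i ω') → h ω = h ω'

/-- The event `G` is determined by `M 0, …, M k`. -/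
def DetSet (M : ℕ → Ω → E) (k : ℕ) (G : Finset Ω) : Prop :=
  ∀ ω ω', (∀ i ≤ k, M i ω = M i ω') → (ω ∈ G ↔ ω' ∈ G)

omit [NormedSpace ℝ E] [Fintype Ω] in
theorem Det.mono {α : Type*} {h : Ω → α} {k l : ℕ} (hh : Det M k h) (hkl : k ≤ l) : Det M l h :=
  fun ω ω' e => hh ω ω' fun i hi => e i (hi.trans hkl)

omit [NormedSpace ℝ E] [Fintype Ω] in
theorem DetSet.mono {G : Finset Ω} {k l : ℕ} (hh : DetSet M k G) (hkl : k ≤ l) : DetSet M l G :=
  fun ω ω' e => hh ω ω' fun i hi => e i (hi.trans hkl)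

omit [NormedSpace ℝ E] [Fintype Ω] in
theorem det_self {i k : ℕ} (hik : i ≤ k) : Det M k (M i) := fun _ _ e => e i hik

theorem mart_step (hM : IsMart w M N) {k : ℕ} (hk : k < N) {F : Ω → (E →L[ℝ] ℝ)}
    (hF : Det M k F) {G : Finset Ω} (hG : DetSet M k G) :
    ∑ ω ∈ G, w ω * F ω (M (k + 1) ω - M k ω) = 0 := by
  classical
  let H : Ω → Fin (k + 1) → E := fun ω i => M i ω
  have hH : ∀ ω ω', H ω = H ω' → ∀ i ≤ k, M i ω = M i ω' := fun ω ω' e i hi =>
    congrFun e ⟨i, Nat.lt_succ_of_le hi⟩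
  rw [← Finset.sum_fiberwise_of_maps_to (t := G.image H) (g := H)
    fun ω hω => Finset.mem_image_of_mem H hω]
  refine Finset.sum_eq_zero fun v hv => ?_
  obtain ⟨ω₀, hω₀, rfl⟩ := Finset.mem_image.1 hv
  let h : Ω → ℝ := fun ω => if H ω = H ω₀ then 1 else 0
  have hdet : ∀ ω ω', (∀ i ≤ k, M i ω = M i ω') → h ω = h ω' := by
    intro ω ω' e
    have : H ω = H ω' := funext fun i => e i (Nat.le_of_lt_succ i.2)
    simp only [h, this]
  have hz := congrArg (F ω₀) (hM k hk h hdet)
  rw [map_zero, map_sum] at hz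
  refine Eq.trans ?_ hz
  rw [← Finset.sum_subset (s₁ := G.filter fun ω => H ω = H ω₀) (Finset.subset_univ _)
    (fun ω _ hω => ?_)]
  · refine Finset.sum_congr rfl fun ω hω => ?_
    have e := (Finset.mem_filter.1 hω).2
    rw [map_smul, smul_eq_mul, hF ω ω₀ (hH _ _ e)]
    simp [h, e]
  · have hne : H ω ≠ H ω₀ := fun e =>
      hω (Finset.mem_filter.2 ⟨(hG ω ω₀ (hH _ _ e)).2 hω₀, e⟩)
    simp [h, hne]

theorem mart_interval (hM : IsMart w M N) {a b : ℕ} (hab : a ≤ b) (hb : b ≤ N)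
    {F : Ω → (E →L[ℝ] ℝ)} (hF : Det M a F) {G : Finset Ω} (hG : DetSet M a G) :
    ∑ ω ∈ G, w ω * F ω (M b ω - M a ω) = 0 := by
  induction b, hab using Nat.le_induction with
  | base => simp
  | succ b hab ih =>
    have h1 := mart_step hM (show b < N by omega) (hF.mono hab) (hG.mono hab)
    rw [← add_zero (0 : ℝ)]
    nth_rewrite 1 [← ih (by omega)]
    rw [← h1, ← Finset.sum_add_distrib]
    refine Finset.sum_congr rfl fun ω _ => ?_
    simp only [map_sub]
    ring

/-- Orthogonality of the increments seen by a functional chosen at time `a`. -/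
theorem mart_sq (hM : IsMart w M N) {a b : ℕ} (hab : a ≤ b) (hb : b ≤ N)
    {F : Ω → (E →L[ℝ] ℝ)} (hF : Det M a F) {G : Finset Ω} (hG : DetSet M a G) :
    ∑ ω ∈ G, w ω * F ω (M b ω - M a ω) ^ 2 =
      ∑ r ∈ Finset.Ico a b, ∑ ω ∈ G, w ω * F ω (M (r + 1) ω - M r ω) ^ 2 := by
  induction b, hab using Nat.le_induction with
  | base => simp
  | succ b hab ih =>
    have hdet : Det M b fun ω => F ω (M b ω - M a ω) • F ω := fun ω ω' e => by
      dsimp only
      rw [(hF.mono hab) ω ω' e, e b le_rfl, e a hab]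
    have hcross := mart_step hM (show b < N by omega) hdet (hG.mono hab)
    rw [Finset.sum_Ico_succ_top hab, ← ih (by omega), ← Finset.sum_add_distrib,
      ← add_zero (∑ ω ∈ G, (w ω * F ω (M b ω - M a ω) ^ 2 + w ω * F ω (M (b + 1) ω - M b ω) ^ 2)),
      ← mul_zero (2 : ℝ), ← hcross, Finset.mul_sum, ← Finset.sum_add_distrib]
    refine Finset.sum_congr rfl fun ω _ => ?_
    simp only [map_sub, smul_apply, smul_eq_mul]
    ring

theorem mart_sq_le (hw : IsProb w) (hM : IsMart w M N) (hball : ∀ k ≤ N, ∀ ω, ‖M k ω‖ ≤ 1)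
    {a b : ℕ} (hab : a ≤ b) (hb : b ≤ N) {F : Ω → (E →L[ℝ] ℝ)} (hF : Det M a F)
    (hF1 : ∀ ω, ‖F ω‖ ≤ 1) {G : Finset Ω} (hG : DetSet M a G) :
    ∑ r ∈ Finset.Ico a b, ∑ ω ∈ G, w ω * F ω (M (r + 1) ω - M r ω) ^ 2 ≤ 4 * ∑ ω ∈ G, w ω := by
  rw [← mart_sq hM hab hb hF hG, Finset.mul_sum]
  refine Finset.sum_le_sum fun ω _ => ?_
  have h : |F ω (M b ω - M a ω)| ≤ 2 := by
    refine ((F ω).le_of_opNorm_le (hF1 ω) _).trans ?_
    rw [one_mul]
    linarith [norm_sub_le (M b ω) (M a ω), hball b hb ω, hball a (hab.trans hb) ω]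
  obtain ⟨h1, h2⟩ := abs_le.1 h
  nlinarith [hw.1 ω, mul_nonneg (hw.1 ω) (mul_nonneg (show (0 : ℝ) ≤ 2 - F ω (M b ω - M a ω) by
    linarith) (show (0 : ℝ) ≤ 2 + F ω (M b ω - M a ω) by linarith))]

/-! ### Supporting functionals -/

theorem exists_support {C : Set E} (hC : Convex ℝ C) (hne : C.Nonempty) (y : E) :
    ∃ (f : E →L[ℝ] ℝ) (s : ℝ), ‖f‖ ≤ 1 ∧ (∀ c ∈ C, f c ≤ s) ∧ f y - s = Metric.infDist y C ∧
      ∀ z, f z - s ≤ Metric.infDist z C := by
  suffices h : ∃ (f : E →L[ℝ] ℝ) (s : ℝ), ‖f‖ ≤ 1 ∧ (∀ c ∈ C, f c ≤ s) ∧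
      f y - s = Metric.infDist y C by
    obtain ⟨f, s, hf, hs, hy⟩ := h
    refine ⟨f, s, hf, hs, hy, fun z => (Metric.le_infDist hne).2 fun c hc => ?_⟩
    have h1 := hs c hc
    have h2 : f (z - c) ≤ ‖z - c‖ := (le_abs_self _).trans (by simpa using f.le_of_opNorm_le hf (z - c))
    rw [map_sub] at h2
    rw [dist_eq_norm]
    linarith
  rcases (Metric.infDist_nonneg (x := y) (s := C)).eq_or_lt with h0 | hd
  · exact ⟨0, 0, by simp, by simp, by simpa using h0⟩
  set d := Metric.infDist y C with hdd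
  have hdisj : Disjoint (Metric.ball y d) C := by
    rw [Set.disjoint_left]
    intro z hz hzC
    have := Metric.infDist_le_dist_of_mem (x := y) hzC
    rw [Metric.mem_ball, dist_comm] at hz
    linarith
  obtain ⟨F, u, hFb, hFC⟩ :=
    geometric_hahn_banach_open (convex_ball y d) Metric.isOpen_ball hC hdisj
  have hFne : 0 < ‖F‖ := by
    rw [norm_pos_iff]
    rintro rfl
    obtain ⟨c, hc⟩ := hne
    have h1 := hFb y (Metric.mem_ball_self hd)
    have h2 := hFC c hc
    simp only [zero_apply] at h1 h2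
    linarith
  have hsup : F y + d * ‖F‖ ≤ u := by
    have hy' : F y < u := hFb y (Metric.mem_ball_self hd)
    have hb : ‖F‖ ≤ (u - F y) / d := by
      refine F.opNorm_le_of_unit_norm (div_nonneg (by linarith) hd.le) fun x hx => ?_
      rw [le_div_iff₀ hd, Real.norm_eq_abs]
      refine le_of_forall_lt fun a ha => ?_
      have key : ∀ x : E, ‖x‖ = 1 → ∀ t : ℝ, 0 < t → t < d → t * F x < u - F y := by
        intro x hx t ht0 htd
        have hmem : y + t • x ∈ Metric.ball y d := by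
          rw [Metric.mem_ball, dist_eq_norm, add_sub_cancel_left, norm_smul, hx, mul_one,
            Real.norm_of_nonneg ht0.le]
          exact htd
        have := hFb _ hmem
        rw [map_add, map_smul, smul_eq_mul] at this
        linarith
      rcases lt_or_ge a 0 with ha0 | ha0
      · linarith
      have hxpos : 0 < |F x| := by
        rcases (abs_nonneg (F x)).eq_or_lt with h | h
        · rw [← h, zero_mul] at ha; linarith
        · exact h
      have h1 : a / |F x| < d := by rw [div_lt_iff₀ hxpos]; linarith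
      obtain ⟨t, ht1, ht2⟩ := exists_between h1
      have ht0 : 0 < t := lt_of_le_of_lt (by positivity) ht1
      rw [div_lt_iff₀ hxpos] at ht1
      rcases abs_cases (F x) with ⟨e, -⟩ | ⟨e, -⟩
      · rw [e] at ht1; linarith [key x hx t ht0 ht2]
      · have := key (-x) (by rw [norm_neg]; exact hx) t ht0 ht2
        rw [map_neg] at this
        rw [e] at ht1; linarith
    rw [le_div_iff₀ hd] at hb
    linarith
  refine ⟨-(‖F‖⁻¹ • F), -(‖F‖⁻¹ * F y) - d, ?_, fun c hc => ?_, ?_⟩
  · rw [norm_neg, norm_smul, norm_inv, norm_norm, inv_mul_cancel₀ hFne.ne']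
  · have h := mul_le_mul_of_nonneg_left (hsup.trans (hFC c hc)) (inv_nonneg.2 hFne.le)
    have e : ‖F‖⁻¹ * (F y + d * ‖F‖) = ‖F‖⁻¹ * F y + d := by field_simp
    simp only [neg_apply, smul_apply, smul_eq_mul]
    linarith
  · simp only [neg_apply, smul_apply, smul_eq_mul]
    ring

/-- The hull of a finite tuple of points. -/
def hull {k : ℕ} (p : Fin (k + 1) → E) : Set E := convexHull ℝ (Set.range p)

/-- The distance to the hull of a tuple. -/
noncomputable def hullDist {k : ℕ} (p : Fin (k + 1) → E) (y : E) : ℝ := Metric.infDist y (hull p)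

theorem hull_nonempty {k : ℕ} (p : Fin (k + 1) → E) : (hull p).Nonempty :=
  (Set.range_nonempty p).convexHull

theorem hullDist_nonneg {k : ℕ} (p : Fin (k + 1) → E) (y : E) : 0 ≤ hullDist p y :=
  Metric.infDist_nonneg

theorem hullDist_le_two {k : ℕ} {p : Fin (k + 1) → E} (hp : ∀ i, ‖p i‖ ≤ 1) {y : E}
    (hy : ‖y‖ ≤ 1) : hullDist p y ≤ 2 := by
  refine (Metric.infDist_le_dist_of_mem (subset_convexHull ℝ _ (Set.mem_range_self 0))).trans ?_
  rw [dist_eq_norm]
  linarith [norm_sub_le y (p 0), hp 0]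

/-- A supporting functional for the hull at a point, chosen as a function of the data. -/
theorem exists_hull_support {k : ℕ} (p : Fin (k + 1) → E) (y : E) :
    ∃ fs : (E →L[ℝ] ℝ) × ℝ, ‖fs.1‖ ≤ 1 ∧ (∀ i, fs.1 (p i) ≤ fs.2) ∧
      fs.1 y - fs.2 = hullDist p y ∧ ∀ z, fs.1 z - fs.2 ≤ hullDist p z := by
  obtain ⟨f, s, h1, h2, h3, h4⟩ :=
    exists_support (convex_convexHull ℝ _) (hull_nonempty p) y
  exact ⟨(f, s), h1, fun i => h2 _ (subset_convexHull ℝ _ (Set.mem_range_self i)), h3, h4⟩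

/-- The chosen supporting functional. -/
noncomputable def support {k : ℕ} (p : Fin (k + 1) → E) (y : E) : (E →L[ℝ] ℝ) × ℝ :=
  (exists_hull_support p y).choose

theorem support_spec {k : ℕ} (p : Fin (k + 1) → E) (y : E) :
    ‖(support p y).1‖ ≤ 1 ∧ (∀ i, (support p y).1 (p i) ≤ (support p y).2) ∧
      (support p y).1 y - (support p y).2 = hullDist p y ∧
      ∀ z, (support p y).1 z - (support p y).2 ≤ hullDist p z :=
  (exists_hull_support p y).choose_spec

variable {k : ℕ} {P : Fin (k + 1) → Ω → E}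

omit [Fintype Ω] in
theorem det_support {a : ℕ} (hP : ∀ i, Det M a (P i)) :
    Det M a fun ω => support (fun i => P i ω) (M a ω) := fun ω ω' e => by
  have : (fun i => P i ω) = fun i => P i ω' := funext fun i => hP i ω ω' e
  simp only [this, e a le_rfl]

theorem sum_hullDist_mono (hw : IsProb w) (hM : IsMart w M N) {a b : ℕ} (hab : a ≤ b) (hb : b ≤ N)
    (hP : ∀ i, Det M a (P i)) {G : Finset Ω} (hG : DetSet M a G) :
    (∑ ω ∈ G, w ω * hullDist (fun i => P i ω) (M a ω) ≤
      ∑ ω ∈ G, w ω * hullDist (fun i => P i ω) (M b ω)) ∧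
    (∑ ω ∈ G, w ω * hullDist (fun i => P i ω) (M a ω) ^ 2 ≤
      ∑ ω ∈ G, w ω * hullDist (fun i => P i ω) (M b ω) ^ 2) := by
  set S := fun ω => support (fun i => P i ω) (M a ω)
  have hS : Det M a S := det_support hP
  have h1 := mart_interval hM hab hb (F := fun ω => (S ω).1)
    (fun ω ω' e => congrArg Prod.fst (hS ω ω' e)) hG
  have h2 := mart_interval hM hab hb
    (F := fun ω => (2 * hullDist (fun i => P i ω) (M a ω)) • (S ω).1)
    (fun ω ω' e => by
      have hp : (fun i => P i ω) = fun i => P i ω' := funext fun i => hP i ω ω' e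
      dsimp only
      rw [hS ω ω' e, hp, e a le_rfl]) hG
  constructor
  · rw [← add_zero (∑ ω ∈ G, w ω * hullDist (fun i => P i ω) (M a ω)), ← h1,
      ← Finset.sum_add_distrib]
    refine Finset.sum_le_sum fun ω _ => ?_
    obtain ⟨-, -, e3, e4⟩ := support_spec (fun i => P i ω) (M a ω)
    rw [← mul_add, map_sub]
    refine mul_le_mul_of_nonneg_left ?_ (hw.1 ω)
    linarith [e4 (M b ω)]
  · rw [← add_zero (∑ ω ∈ G, w ω * hullDist (fun i => P i ω) (M a ω) ^ 2), ← h2,
      ← Finset.sum_add_distrib]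
    refine Finset.sum_le_sum fun ω _ => ?_
    obtain ⟨-, -, e3, e4⟩ := support_spec (fun i => P i ω) (M a ω)
    rw [smul_apply, smul_eq_mul, ← mul_add, map_sub]
    refine mul_le_mul_of_nonneg_left ?_ (hw.1 ω)
    have h := mul_le_mul_of_nonneg_left (e4 (M b ω))
      (hullDist_nonneg (fun i => P i ω) (M a ω))
    have e3' := congrArg (fun t => hullDist (fun i => P i ω) (M a ω) * t) e3
    simp only [S] at e3' ⊢
    nlinarith [sq_nonneg (hullDist (fun i => P i ω) (M b ω) - hullDist (fun i => P i ω) (M a ω))]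

/-- When the squared distance hardly grows, the supporting functional stays near its value. -/
theorem sum_support_dev (hw : IsProb w) (hM : IsMart w M N) {a b : ℕ} (hab : a ≤ b) (hb : b ≤ N)
    (hP : ∀ i, Det M a (P i)) {G : Finset Ω} (hG : DetSet M a G) :
    ∑ ω ∈ G, w ω * (max ((support (fun i => P i ω) (M a ω)).1 (M b ω) -
        (support (fun i => P i ω) (M a ω)).2) 0 - hullDist (fun i => P i ω) (M a ω)) ^ 2 ≤
      ∑ ω ∈ G, w ω * hullDist (fun i => P i ω) (M b ω) ^ 2 -
        ∑ ω ∈ G, w ω * hullDist (fun i => P i ω) (M a ω) ^ 2 := by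
  set S := fun ω => support (fun i => P i ω) (M a ω)
  have hS : Det M a S := det_support hP
  have h2 := mart_interval hM hab hb
    (F := fun ω => (2 * hullDist (fun i => P i ω) (M a ω)) • (S ω).1)
    (fun ω ω' e => by
      have hp : (fun i => P i ω) = fun i => P i ω' := funext fun i => hP i ω ω' e
      dsimp only
      rw [hS ω ω' e, hp, e a le_rfl]) hG
  suffices key : ∀ ω ∈ G, w ω * (max ((S ω).1 (M b ω) - (S ω).2) 0 -
      hullDist (fun i => P i ω) (M a ω)) ^ 2 + w ω *
        ((2 * hullDist (fun i => P i ω) (M a ω)) • (S ω).1) (M b ω - M a ω) +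
      w ω * hullDist (fun i => P i ω) (M a ω) ^ 2 ≤ w ω * hullDist (fun i => P i ω) (M b ω) ^ 2 by
    have h := Finset.sum_le_sum key
    rw [Finset.sum_add_distrib, Finset.sum_add_distrib, h2] at h
    linarith
  intro ω _
  obtain ⟨-, -, e3, e4⟩ := support_spec (fun i => P i ω) (M a ω)
  rw [smul_apply, smul_eq_mul, ← mul_add (w ω), ← mul_add (w ω), map_sub]
  refine mul_le_mul_of_nonneg_left ?_ (hw.1 ω)
  have hd := hullDist_nonneg (fun i => P i ω) (M a ω)
  have hd' := hullDist_nonneg (fun i => P i ω) (M b ω)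
  simp only [S]
  set v := (support (fun i => P i ω) (M a ω)).1 (M b ω) - (support (fun i => P i ω) (M a ω)).2 with hv
  have h5 : max v 0 ≤ hullDist (fun i => P i ω) (M b ω) := max_le (e4 _) hd'
  have h6 := mul_self_le_mul_self (le_max_right v 0) h5
  have h7 := mul_le_mul_of_nonneg_left (le_max_left v 0) hd
  have e3' := congrArg (fun t => hullDist (fun i => P i ω) (M a ω) * t) e3
  beta_reduce at e3'
  generalize (support (fun i => P i ω) (M a ω)).1 (M b ω) = X at *
  generalize (support (fun i => P i ω) (M a ω)).1 (M a ω) = Y at *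
  generalize (support (fun i => P i ω) (M a ω)).2 = Z at *
  generalize hullDist (fun i => P i ω) (M a ω) = D at *
  generalize hullDist (fun i => P i ω) (M b ω) = D' at *
  generalize max v 0 = W at *
  rw [hv] at h7
  nlinarith

end Vale.Agent.P125
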