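import Vale.Agent.P125.GrowthBase

/-!
A martingale in the unit ball whose increments are uniformly bounded below contains long
sequences all of whose initial segments are uniformly separated from the tails.
-/

namespace Vale.Agent.P125

open Finset

universe u

variable {E : Type u} [NormedAddCommGroup E] [NormedSpace ℝ E]

/-- A norming functional, chosen as a function of the vector. -/
noncomputable def norming (v : E) : E →L[ℝ] ℝ := (exists_dual_vector'' ℝ v).choose

theorem norming_spec (v : E) : ‖norming v‖ ≤ 1 ∧ norming v v = ‖v‖ := by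
  obtain ⟨h1, h2⟩ := (exists_dual_vector'' ℝ v).choose_spec
  exact ⟨h1, by simpa [norming] using h2⟩

/-- A point of the barycentric grid with denominator `L`. -/
noncomputable def gridPoint {k L : ℕ} (p : Fin (k + 1) → E) (a : Fin (k + 1) → Fin (L + 1)) : E :=
  ∑ i, (((a i : ℕ) : ℝ) / L) • p i

theorem exists_weights {k : ℕ} {p : Fin (k + 1) → E} {y : E} (hy : y ∈ hull p) :
    ∃ t : Fin (k + 1) → ℝ, (∀ i, 0 ≤ t i ∧ t i ≤ 1) ∧ ∑ i, t i • p i = y := by
  classical
  obtain ⟨t, ht, e⟩ : y ∈ (fun t : Fin (k + 1) → ℝ => ∑ i, t i • p i) '' stdSimplex ℝ (Fin (k + 1)) := by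
    refine convexHull_min ?_ ?_ hy
    · rintro _ ⟨i, rfl⟩
      exact ⟨_, single_mem_stdSimplex ℝ i, by simp [Pi.single_apply]⟩
    · have hl : IsLinearMap ℝ fun t : Fin (k + 1) → ℝ => ∑ i, t i • p i :=
        ⟨fun s t => by simp [add_smul, Finset.sum_add_distrib],
          fun r t => by simp [Finset.smul_sum, smul_smul]⟩
      exact (convex_stdSimplex ℝ _).is_linear_image hl
  refine ⟨t, fun i => ⟨ht.1 i, ?_⟩, e⟩
  rw [← ht.2]
  exact Finset.single_le_sum (fun j _ => ht.1 j) (Finset.mem_univ i)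

theorem exists_gridPoint {k L : ℕ} (hL : 0 < L) {p : Fin (k + 1) → E} (hp : ∀ i, ‖p i‖ ≤ 1)
    (y : E) : ∃ a : Fin (k + 1) → Fin (L + 1),
      ‖y - gridPoint p a‖ ≤ hullDist p y + (k + 1) / L := by
  obtain ⟨v, hv, he⟩ := (Set.finite_range p).isCompact_convexHull ℝ |>.exists_infDist_eq_dist
    (hull_nonempty p) y
  obtain ⟨t, ht, rfl⟩ := exists_weights hv
  have hL' : (0 : ℝ) < L := by exact_mod_cast hL
  have hfl : ∀ i, ⌊t i * L⌋₊ < L + 1 := fun i => Nat.lt_succ_of_le (Nat.floor_le_of_le (by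
    nlinarith [(ht i).2]))
  refine ⟨fun i => ⟨_, hfl i⟩, ?_⟩
  have h1 : ∀ i, ‖t i • p i - ((⌊t i * L⌋₊ : ℝ) / L) • p i‖ ≤ 1 / L := fun i => by
    rw [← sub_smul, norm_smul]
    refine (mul_le_of_le_one_right (norm_nonneg _) (hp i)).trans ?_
    have a1 := Nat.floor_le (mul_nonneg (ht i).1 hL'.le)
    have a2 := Nat.lt_floor_add_one (t i * L)
    have e : t i - (⌊t i * L⌋₊ : ℝ) / L = (t i * L - ⌊t i * L⌋₊) / L := by field_simp
    rw [Real.norm_eq_abs, e, abs_div, abs_of_pos hL']
    exact div_le_div_of_nonneg_right (abs_le.2 ⟨by linarith, by linarith⟩) hL'.le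
  have h2 : ‖∑ i, t i • p i - gridPoint p (fun i => (⟨_, hfl i⟩ : Fin (L + 1)))‖ ≤ (k + 1) / L := by
    rw [gridPoint, ← Finset.sum_sub_distrib]
    refine ((norm_sum_le _ _).trans (Finset.sum_le_sum fun i _ => h1 i)).trans ?_
    rw [Finset.sum_const, Finset.card_univ, Fintype.card_fin, nsmul_eq_mul]
    push_cast
    rw [mul_one_div]
  rw [hullDist, hull, he, dist_eq_norm]
  exact (norm_sub_le_norm_sub_add_norm_sub y _ _).trans (add_le_add le_rfl h2)

theorem le_univ_sum {ι : Type} [Fintype ι] (f : ι → ℝ) (hf : ∀ i, 0 ≤ f i) (i : ι) :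
    f i ≤ ∑ j, f j :=
  Finset.single_le_sum (fun j _ => hf j) (Finset.mem_univ i)

/-- The net inequality. -/
theorem norm_sub_le_grid {k L : ℕ} (hL : 0 < L) {p : Fin (k + 1) → E} (hp : ∀ i, ‖p i‖ ≤ 1)
    (x y : E) : ‖x - y‖ ≤
      ∑ ab : (Fin (k + 1) → Fin (L + 1)) × (Fin (k + 1) → Fin (L + 1)),
          |norming (gridPoint p ab.1 - gridPoint p ab.2) (x - y)| +
        2 * (hullDist p x + hullDist p y + 2 * ((k + 1) / L)) := by
  obtain ⟨a, ha⟩ := exists_gridPoint hL hp x
  obtain ⟨b, hb⟩ := exists_gridPoint hL hp y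
  have h1 := le_univ_sum
    (fun ab : (Fin (k + 1) → Fin (L + 1)) × (Fin (k + 1) → Fin (L + 1)) =>
      |norming (gridPoint p ab.1 - gridPoint p ab.2) (x - y)|) (fun _ => abs_nonneg _) (a, b)
  dsimp only at h1
  generalize gridPoint p a = za at h1 ha
  generalize gridPoint p b = zb at h1 hb
  generalize (∑ ab : (Fin (k + 1) → Fin (L + 1)) × (Fin (k + 1) → Fin (L + 1)),
        |norming (gridPoint p ab.1 - gridPoint p ab.2) (x - y)|) = S at h1 ⊢
  obtain ⟨hg1, hg2⟩ := norming_spec (za - zb)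
  have h2 : ‖za - zb‖ ≤ |norming (za - zb) (x - y)| + ‖x - za‖ + ‖y - zb‖ := by
    have e : za - zb = (x - y) + ((za - x) + (y - zb)) := by abel
    have e' : norming (za - zb) (za - zb) = norming (za - zb) (x - y) +
        (norming (za - zb) (za - x) + norming (za - zb) (y - zb)) := by
      rw [← map_add, ← map_add, ← e]
    have i1 := (le_abs_self _).trans ((norming (za - zb)).le_of_opNorm_le hg1 (za - x))
    have i2 := (le_abs_self _).trans ((norming (za - zb)).le_of_opNorm_le hg1 (y - zb))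
    rw [one_mul] at i1 i2
    rw [norm_sub_rev za x] at i1
    linarith [le_abs_self (norming (za - zb) (x - y))]
  have h3 : ‖x - y‖ ≤ ‖x - za‖ + ‖za - zb‖ + ‖y - zb‖ := by
    have := norm_sub_le_norm_sub_add_norm_sub x za y
    have := norm_sub_le_norm_sub_add_norm_sub za zb y
    rw [norm_sub_rev zb y] at this
    linarith
  linarith

/-- Grid denominator. -/
noncomputable def gridDen (c : ℝ) (k : ℕ) : ℕ := ⌈32 * ((k : ℝ) + 1) / c⌉₊

/-- Number of pairs of grid points. -/
noncomputable def gridPairs (c : ℝ) (k : ℕ) : ℕ := ((gridDen c k + 1) ^ (k + 1)) ^ 2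

/-- Waiting time before the next point is chosen. -/
noncomputable def waitTime (c : ℝ) (k : ℕ) : ℕ := ⌈64 * (gridPairs c k : ℝ) ^ 2 / c ^ 2⌉₊ + 1

/-- Time needed to add `j` points to `k + 1` given ones. -/
noncomputable def bushLen (c : ℝ) (m : ℕ) : ℕ → ℕ → ℕ
  | 0, _ => 0
  | j + 1, k => waitTime c k + m * bushLen c m j (k + 1)

variable {Ω : Type} [Fintype Ω] {w : Ω → ℝ} {M : ℕ → Ω → E} {N : ℕ} {c η : ℝ}

theorem sum_hullDist_ge (hc : 0 < c) (hw : IsProb w) (hM : IsMart w M N)
    (hball : ∀ k ≤ N, ∀ ω, ‖M k ω‖ ≤ 1)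
    (hgrow : ∀ k < N, ∀ G : Finset Ω, DetSet M k G →
      c * ∑ ω ∈ G, w ω - η ≤ ∑ ω ∈ G, w ω * ‖M (k + 1) ω - M k ω‖)
    {k a : ℕ} {P : Fin (k + 1) → Ω → E} (hP : ∀ i, Det M a (P i)) (hP1 : ∀ i ω, ‖P i ω‖ ≤ 1)
    {G : Finset Ω} (hG : DetSet M a G) (hη : η ≤ c / 8 * ∑ ω ∈ G, w ω)
    {b : ℕ} (hab : a + waitTime c k ≤ b) (hb : b ≤ N) :
    c / 8 * ∑ ω ∈ G, w ω ≤ ∑ ω ∈ G, w ω * hullDist (fun i => P i ω) (M b ω) := by
  set e := a + waitTime c k with he
  refine le_trans ?_ (sum_hullDist_mono hw hM hab hb (fun i => (hP i).mono (by omega))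
    (hG.mono (by omega))).1
  set T := ∑ ω ∈ G, w ω with hT
  have hT0 : 0 ≤ T := Finset.sum_nonneg fun ω _ => hw.1 ω
  set D := ∑ ω ∈ G, w ω * hullDist (fun i => P i ω) (M e ω)
  set L := gridDen c k
  have hL : 0 < L := Nat.ceil_pos.2 (by positivity)
  have hρ : ((k : ℝ) + 1) / L ≤ c / 32 := by
    have h := Nat.le_ceil (32 * ((k : ℝ) + 1) / c)
    rw [div_le_iff₀ hc] at h
    rw [div_le_iff₀ (by exact_mod_cast hL)]
    change 32 * ((k : ℝ) + 1) ≤ (L : ℝ) * c at h
    linarith
  let Q := (Fin (k + 1) → Fin (L + 1)) × (Fin (k + 1) → Fin (L + 1))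
  let F : Q → Ω → (E →L[ℝ] ℝ) := fun ab ω =>
    norming (gridPoint (fun i => P i ω) ab.1 - gridPoint (fun i => P i ω) ab.2)
  have hF : ∀ ab, Det M a (F ab) := fun ab ω ω' e => by
    have : (fun i => P i ω) = fun i => P i ω' := funext fun i => hP i ω ω' e
    simp only [F, this]
  set q : ℝ := (gridPairs c k : ℝ) with hq
  have hq0 : 0 < q := by rw [hq, gridPairs]; positivity
  have hcard : ((Fintype.card Q : ℕ) : ℝ) = q := by
    simp [Q, hq, gridPairs, L, sq]
  set l := c / (4 * q) with hl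
  have hl0 : 0 < l := by positivity
  set m0 : ℝ := (waitTime c k : ℝ) with hm0
  have hIco : ((Finset.Ico a e).card : ℝ) = m0 := by simp [he, hm0]
  have hm : 64 * q ^ 2 / c ^ 2 ≤ m0 := by
    refine (Nat.le_ceil _).trans ?_
    simp [hm0, waitTime, hq]
  have hg : ∀ ab, ∑ r ∈ Finset.Ico a e, ∑ ω ∈ G, w ω * |F ab ω (M (r + 1) ω - M r ω)| ≤
      (2 / l + m0 * l / 2) * T := by
    intro ab
    have hsq := mart_sq_le hw hM hball (show a ≤ e by omega) (hab.trans hb) (hF ab)
      (fun ω => (norming_spec _).1) hG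
    calc _ ≤ ∑ r ∈ Finset.Ico a e, ∑ ω ∈ G,
          (1 / (2 * l) * (w ω * F ab ω (M (r + 1) ω - M r ω) ^ 2) + l / 2 * w ω) := by
          refine Finset.sum_le_sum fun r _ => Finset.sum_le_sum fun ω _ => ?_
          set v := F ab ω (M (r + 1) ω - M r ω)
          have h : |v| ≤ 1 / (2 * l) * v ^ 2 + l / 2 := by
            rw [← sq_abs v]
            have e : 1 / (2 * l) * |v| ^ 2 + l / 2 - |v| = (|v| - l) ^ 2 / (2 * l) := by
              field_simp; ring
            have : 0 ≤ (|v| - l) ^ 2 / (2 * l) := by positivity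
            linarith
          calc w ω * |v| ≤ w ω * (1 / (2 * l) * v ^ 2 + l / 2) :=
                mul_le_mul_of_nonneg_left h (hw.1 ω)
            _ = _ := by ring
      _ = 1 / (2 * l) * (∑ r ∈ Finset.Ico a e, ∑ ω ∈ G, w ω * F ab ω (M (r + 1) ω - M r ω) ^ 2)
          + m0 * (l / 2 * T) := by
          simp only [Finset.sum_add_distrib, ← Finset.mul_sum, Finset.sum_const, nsmul_eq_mul,
            hIco, ← hT]
          ring
      _ ≤ 1 / (2 * l) * (4 * T) + m0 * (l / 2 * T) := by
          gcongr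
      _ = _ := by field_simp; ring
  have hmain : ∀ r ∈ Finset.Ico a e, c * T - η ≤
      ∑ ab, ∑ ω ∈ G, w ω * |F ab ω (M (r + 1) ω - M r ω)| + 4 * D + c / 8 * T := by
    intro r hr
    obtain ⟨hr1, hr2⟩ := Finset.mem_Ico.1 hr
    refine (hgrow r (by omega) G (hG.mono hr1)).trans ?_
    have m1 := (sum_hullDist_mono hw hM (show r + 1 ≤ e by omega) (hab.trans hb)
      (fun i => (hP i).mono (by omega)) (hG.mono (by omega))).1
    have m2 := (sum_hullDist_mono hw hM (show r ≤ e by omega) (hab.trans hb)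
      (fun i => (hP i).mono (by omega)) (hG.mono (by omega))).1
    calc _ ≤ ∑ ω ∈ G, (w ω * ∑ ab, |F ab ω (M (r + 1) ω - M r ω)| +
          (2 * (w ω * hullDist (fun i => P i ω) (M (r + 1) ω)) +
            2 * (w ω * hullDist (fun i => P i ω) (M r ω)) + c / 8 * w ω)) := by
          refine Finset.sum_le_sum fun ω _ => ?_
          calc w ω * ‖M (r + 1) ω - M r ω‖ ≤ w ω * _ :=
                mul_le_mul_of_nonneg_left (norm_sub_le_grid hL (fun i => hP1 i ω) _ _) (hw.1 ω)
            _ ≤ _ := by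
                have := mul_le_mul_of_nonneg_left hρ (hw.1 ω)
                simp only [F]
                linarith
      _ ≤ _ := by
          rw [Finset.sum_add_distrib, Finset.sum_add_distrib, Finset.sum_add_distrib,
            ← Finset.mul_sum, ← Finset.mul_sum, ← Finset.mul_sum, ← hT]
          simp only [Finset.mul_sum (s := (Finset.univ : Finset Q))]
          rw [Finset.sum_comm]
          linarith
  have h1 := Finset.sum_le_sum hmain
  rw [Finset.sum_const, nsmul_eq_mul, hIco, Finset.sum_add_distrib, Finset.sum_add_distrib,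
    Finset.sum_const, Finset.sum_const, nsmul_eq_mul, nsmul_eq_mul, hIco, Finset.sum_comm] at h1
  have h2 : ∑ ab : Q, ∑ r ∈ Finset.Ico a e, ∑ ω ∈ G, w ω * |F ab ω (M (r + 1) ω - M r ω)| ≤
      q * ((2 / l + m0 * l / 2) * T) := by
    refine (Finset.sum_le_sum fun ab _ => hg ab).trans ?_
    rw [Finset.sum_const, nsmul_eq_mul, Finset.card_univ, hcard]
  have e1 : q * ((2 / l + m0 * l / 2) * T) = (8 * q ^ 2 / c + m0 * (c / 8)) * T := by
    rw [hl]; field_simp; ring
  have e2 : 8 * q ^ 2 / c ≤ m0 * (c / 8) := by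
    have := mul_le_mul_of_nonneg_right hm (show (0 : ℝ) ≤ c / 8 by positivity)
    have e : 64 * q ^ 2 / c ^ 2 * (c / 8) = 8 * q ^ 2 / c := by field_simp; ring
    linarith
  have e3 := mul_le_mul_of_nonneg_right e2 hT0
  have hm0' : (0 : ℝ) < m0 := by simp [hm0, waitTime]; positivity
  have e4 : m0 * (c * T - η) ≤ m0 * (3 * (c / 8) * T + 4 * D) := by
    linarith
  have e5 := le_of_mul_le_mul_left e4 hm0'
  linarith

omit [Fintype Ω] in
theorem sum_biUnion_le_sum [DecidableEq Ω] (hw : ∀ ω, 0 ≤ w ω) {ι : Type} (s : Finset ι)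
    (F : ι → Finset Ω) : ∑ ω ∈ s.biUnion F, w ω ≤ ∑ i ∈ s, ∑ ω ∈ F i, w ω := by
  classical
  induction s using Finset.induction with
  | empty => simp
  | insert i s hi ih =>
    rw [Finset.biUnion_insert, Finset.sum_insert hi]
    have h := Finset.sum_union_inter (s₁ := F i) (s₂ := s.biUnion F) (f := w)
    have h' : 0 ≤ ∑ ω ∈ F i ∩ s.biUnion F, w ω := Finset.sum_nonneg fun ω _ => hw ω
    linarith

theorem bush_step (hc : 0 < c) (hc1 : c ≤ 1) {m : ℕ} (hm : 0 < m) (hw : IsProb w)
    (hM : IsMart w M N) (hball : ∀ k ≤ N, ∀ ω, ‖M k ω‖ ≤ 1)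
    (hgrow : ∀ k < N, ∀ G : Finset Ω, DetSet M k G →
      c * ∑ ω ∈ G, w ω - η ≤ ∑ ω ∈ G, w ω * ‖M (k + 1) ω - M k ω‖) (j : ℕ) :
    ∀ (k a : ℕ) (P : Fin (k + 1) → Ω → E), (∀ i, Det M a (P i)) → (∀ i ω, ‖P i ω‖ ≤ 1) →
      ∀ G : Finset Ω, DetSet M a G → η * (8 / c) ≤ (∑ ω ∈ G, w ω) * (c / 32) ^ j →
      a + bushLen c m j k ≤ N →
      ∃ (G' B : Finset Ω) (t : Fin j → ℕ), G' ⊆ G ∧
        (∀ l, a ≤ t l ∧ t l ≤ a + bushLen c m j k) ∧
        (∑ ω ∈ G, w ω) * (c / 32) ^ j ≤ ∑ ω ∈ G', w ω ∧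
        ∑ ω ∈ B, w ω ≤ (j : ℝ) ^ 2 * (4096 / c ^ 2 / m) ∧
        ∀ ω ∈ G', ω ∉ B → ∀ i : Fin j, ∃ f : E →L[ℝ] ℝ, ‖f‖ ≤ 1 ∧ ∀ l, i ≤ l →
          (∀ q, f (P q ω) + c / 32 ≤ f (M (t l) ω)) ∧
          ∀ l', l' < i → f (M (t l') ω) + c / 32 ≤ f (M (t l) ω) := by
  classical
  induction j with
  | zero =>
    intro k a P _ _ G _ _ _
    exact ⟨G, ∅, Fin.elim0, subset_rfl, fun l => l.elim0, by simp, by simp, fun _ _ _ i => i.elim0⟩
  | succ j ih =>
    intro k a P hP hP1 G hG hη hN
    have hmR : (0 : ℝ) < m := by exact_mod_cast hm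
    set len := bushLen c m j (k + 1) with hlen
    rw [bushLen, ← hlen] at hN ⊢
    set e := a + waitTime c k with he
    set T := ∑ ω ∈ G, w ω with hT
    have hT0 : 0 ≤ T := Finset.sum_nonneg fun ω _ => hw.1 ω
    have hT1 : T ≤ 1 := by
      rw [← hw.2]
      exact Finset.sum_le_sum_of_subset_of_nonneg (Finset.subset_univ _) fun ω _ _ => hw.1 ω
    set D : ℕ → ℝ := fun r => ∑ ω ∈ G, w ω * hullDist (fun i => P i ω) (M r ω) ^ 2 with hD
    obtain ⟨i₀, hi₀, hwin⟩ : ∃ i ∈ Finset.range m,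
        D (e + (i + 1) * len) - D (e + i * len) ≤ 4 / m := by
      refine Finset.exists_le_of_sum_le ⟨0, Finset.mem_range.2 hm⟩ ?_
      rw [Finset.sum_range_sub fun i => D (e + i * len), Finset.sum_const, Finset.card_range,
        nsmul_eq_mul, mul_div_cancel₀ _ hmR.ne']
      have h0 : 0 ≤ D (e + 0 * len) :=
        Finset.sum_nonneg fun ω _ => mul_nonneg (hw.1 ω) (sq_nonneg _)
      have h4 : D (e + m * len) ≤ 4 * T := by
        rw [hT, Finset.mul_sum]
        refine Finset.sum_le_sum fun ω _ => ?_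
        have hd := hullDist_le_two (fun i => hP1 i ω) (hball _ (by omega) ω : ‖M (e + m * len) ω‖ ≤ 1)
        rw [mul_comm 4 (w ω)]
        refine mul_le_mul_of_nonneg_left ?_ (hw.1 ω)
        calc _ ≤ (2 : ℝ) ^ 2 := pow_le_pow_left₀ (hullDist_nonneg _ _) hd 2
          _ = 4 := by norm_num
      linarith
    have hi₁ : (i₀ + 1) * len ≤ m * len :=
      Nat.mul_le_mul_right _ (Finset.mem_range.1 hi₀)
    rw [Nat.add_one_mul, ← add_assoc] at hwin
    rw [Nat.add_one_mul] at hi₁
    set b := e + i₀ * len with hb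
    have hPb : ∀ i, Det M b (P i) := fun i => (hP i).mono (by omega)
    have hGb : DetSet M b G := hG.mono (by omega)
    set d : Ω → ℝ := fun ω => hullDist (fun i => P i ω) (M b ω) with hd
    have hpow : (c / 32) ^ (j + 1) ≤ 1 := pow_le_one₀ (by positivity) (by linarith)
    have hη1 : η ≤ c / 8 * T := by
      have h := hη.trans (mul_le_of_le_one_right hT0 hpow)
      rw [← mul_le_mul_iff_left₀ (show (0 : ℝ) < 8 / c by positivity)]
      refine h.trans_eq ?_
      field_simp
    have hgr := sum_hullDist_ge hc hw hM hball hgrow hP hP1 hG hη1 (b := b) (by omega) (by omega)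
    set G1 := G.filter fun ω => c / 16 ≤ d ω with hG1
    have hG1d : DetSet M b G1 := by
      intro ω ω' h
      have hp : (fun i => P i ω) = fun i => P i ω' := funext fun i => hPb i ω ω' h
      simp only [hG1, Finset.mem_filter, hGb ω ω' h, hd, hp, h b le_rfl]
    have hG1m : T * (c / 32) ≤ ∑ ω ∈ G1, w ω := by
      have h : ∑ ω ∈ G, w ω * d ω ≤ ∑ ω ∈ G, ((if c / 16 ≤ d ω then 2 * w ω else 0) + c / 16 * w ω) := by
        refine Finset.sum_le_sum fun ω _ => ?_
        split_ifs with h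
        · have := hullDist_le_two (fun i => hP1 i ω) (hball b (by omega) ω)
          nlinarith [hw.1 ω]
        · rw [zero_add, mul_comm]
          exact mul_le_mul_of_nonneg_right (le_of_lt (not_le.1 h)) (hw.1 ω)
      rw [Finset.sum_add_distrib, ← Finset.sum_filter, ← Finset.mul_sum, ← Finset.mul_sum,
        ← hG1, ← hT] at h
      linarith
    set P' : Fin (k + 2) → Ω → E := Fin.snoc P (M b) with hP'
    have hP'd : ∀ i, Det M b (P' i) := by
      intro i
      induction i using Fin.lastCases with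
      | last => simpa [hP'] using det_self (M := M) le_rfl
      | cast i => simpa [hP'] using hPb i
    have hP'1 : ∀ i ω, ‖P' i ω‖ ≤ 1 := by
      intro i
      induction i using Fin.lastCases with
      | last => simpa [hP'] using hball b (by omega)
      | cast i => simpa [hP'] using hP1 i
    have hη' : η * (8 / c) ≤ (∑ ω ∈ G1, w ω) * (c / 32) ^ j := by
      refine hη.trans ?_
      rw [pow_succ', ← mul_assoc]
      exact mul_le_mul_of_nonneg_right hG1m (by positivity)
    obtain ⟨G', B, t, hsub, ht, hmass, hB, hsep⟩ :=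
      ih (k + 1) b P' hP'd hP'1 G1 hG1d hη' (by omega)
    set fail : Fin j → Finset Ω := fun l => G1.filter fun ω =>
      (support (fun i => P i ω) (M b ω)).1 (M (t l) ω) - (support (fun i => P i ω) (M b ω)).2
        < c / 32 with hfail
    have hfm : ∀ l, ∑ ω ∈ fail l, w ω ≤ 4096 / c ^ 2 / m := by
      intro l
      obtain ⟨hl1, hl2⟩ := ht l
      have hdev := sum_support_dev hw hM hl1 (by omega) hPb hGb
      have hmon := (sum_hullDist_mono hw hM (show t l ≤ b + len by omega) (by omega)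
        (fun i => (hPb i).mono hl1) (hGb.mono hl1)).2
      have hlow : (c / 32) ^ 2 * ∑ ω ∈ fail l, w ω ≤ 4 / m := by
        rw [Finset.mul_sum]
        refine le_trans ?_ ((hdev.trans (sub_le_sub_right hmon _)).trans hwin)
        refine le_trans (Finset.sum_le_sum fun ω hω => ?_) (Finset.sum_le_sum_of_subset_of_nonneg
          (s := fail l) (fun ω hω => (Finset.mem_filter.1 (Finset.mem_filter.1 hω).1).1)
          fun ω _ _ => mul_nonneg (hw.1 ω) (sq_nonneg _))
        obtain ⟨hω1, hω2⟩ := Finset.mem_filter.1 hω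
        have hω3 : c / 16 ≤ d ω := (Finset.mem_filter.1 hω1).2
        rw [mul_comm]
        refine mul_le_mul_of_nonneg_left ?_ (hw.1 ω)
        rw [← neg_sq (max _ _ - _)]
        refine pow_le_pow_left₀ (by positivity) ?_ 2
        have := max_le hω2.le (show (0 : ℝ) ≤ c / 32 by positivity)
        simp only [hd] at hω3
        linarith
      rw [← le_div_iff₀' (by positivity)] at hlow
      refine hlow.trans_eq ?_
      field_simp
      ring
    refine ⟨G', B ∪ Finset.univ.biUnion fail, Fin.cons b t, hsub.trans (Finset.filter_subset _ _),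
      ?_, ?_, ?_, ?_⟩
    · intro l
      induction l using Fin.cases with
      | zero => simp only [Fin.cons_zero]; omega
      | succ l => simp only [Fin.cons_succ]; have := ht l; omega
    · refine le_trans ?_ hmass
      rw [pow_succ', ← mul_assoc]
      exact mul_le_mul_of_nonneg_right hG1m (by positivity)
    · have h1 : ∑ ω ∈ B ∪ Finset.univ.biUnion fail, w ω ≤
          ∑ ω ∈ B, w ω + ∑ ω ∈ Finset.univ.biUnion fail, w ω := by
        rw [← Finset.sum_union_inter]
        exact le_add_of_nonneg_right (Finset.sum_nonneg fun ω _ => hw.1 ω)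
      have h2 := (sum_biUnion_le_sum hw.1 Finset.univ fail).trans
        (Finset.sum_le_sum fun l _ => hfm l)
      rw [Finset.sum_const, Finset.card_univ, Fintype.card_fin, nsmul_eq_mul] at h2
      have hK : 0 ≤ 4096 / c ^ 2 / m := by positivity
      push_cast
      nlinarith [mul_nonneg (show (0 : ℝ) ≤ (j : ℝ) + 1 by positivity) hK]
    · intro ω hω hnB i
      simp only [Finset.mem_union, Finset.mem_biUnion, Finset.mem_univ, true_and, not_or,
        not_exists] at hnB
      have hω1 := hsub hω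
      obtain ⟨s1, s2, s3, -⟩ := support_spec (fun q => P q ω) (M b ω)
      induction i using Fin.cases with
      | zero =>
        refine ⟨(support (fun q => P q ω) (M b ω)).1, s1, fun l _ => ⟨fun q => ?_,
          fun l' hl' => absurd hl' (Fin.not_lt_zero l')⟩⟩
        have hq := s2 q
        induction l using Fin.cases with
        | zero =>
          simp only [Fin.cons_zero]
          have : c / 16 ≤ d ω := (Finset.mem_filter.1 hω1).2
          simp only [hd] at this
          linarith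
        | succ l =>
          simp only [Fin.cons_succ]
          have := hnB.2 l
          simp only [hfail, Finset.mem_filter, hω1, true_and, not_lt] at this
          linarith
      | succ i =>
        obtain ⟨f, hf, hfs⟩ := hsep ω hω hnB.1 i
        refine ⟨f, hf, fun l hl => ?_⟩
        induction l using Fin.cases with
        | zero => exact absurd hl (not_le.2 (Fin.succ_pos i))
        | succ l =>
          obtain ⟨f1, f2⟩ := hfs l (Fin.succ_le_succ_iff.1 hl)
          simp only [Fin.cons_succ]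
          refine ⟨fun q => by simpa [hP'] using f1 q.castSucc, fun l' hl' => ?_⟩
          induction l' using Fin.cases with
          | zero => simpa [hP'] using f1 (Fin.last _)
          | succ l' =>
            simp only [Fin.cons_succ]
            exact f2 l' (Fin.succ_lt_succ_iff.1 hl')

/-- The bush lemma: long separated sequences in a martingale with large increments. -/
theorem exists_bush (hc : 0 < c) (hc1 : c ≤ 1) (K : ℕ) :
    ∃ (N : ℕ) (η : ℝ), 0 < η ∧ ∀ (Ω : Type) [Fintype Ω] (w : Ω → ℝ) (M : ℕ → Ω → E),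
      IsProb w → IsMart w M N → (∀ k ≤ N, ∀ ω, ‖M k ω‖ ≤ 1) →
      (∀ k < N, ∀ G : Finset Ω, DetSet M k G →
        c * ∑ ω ∈ G, w ω - η ≤ ∑ ω ∈ G, w ω * ‖M (k + 1) ω - M k ω‖) →
      ∃ x : Fin K → E, (∀ i, ‖x i‖ ≤ 1) ∧
        ∀ k : Fin K, ∃ f : E →L[ℝ] ℝ, ‖f‖ ≤ 1 ∧
          ∀ i j, i ≤ k → k < j → c / 32 ≤ f (x i) - f (x j) := by
  cases K with
  | zero => exact ⟨0, 1, one_pos, fun _ _ _ _ _ _ _ _ => ⟨Fin.elim0, fun i => i.elim0, fun k => k.elim0⟩⟩
  | succ K =>
    set π := (c / 32) ^ K with hπ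
    have hπ0 : 0 < π := by positivity
    set m := ⌈(K : ℝ) ^ 2 * (4096 / c ^ 2) / π⌉₊ + 1 with hm
    refine ⟨bushLen c m K 0, c / 8 * π, by positivity, ?_⟩
    intro Ω _ w M hw hM hball hgrow
    have h0 := hball 0 (Nat.zero_le _)
    obtain ⟨G', B, t, -, ht, hG', hB, hsep⟩ := bush_step hc hc1 (m := m) (by omega)
      hw hM hball hgrow K 0 0 (fun _ => M 0) (fun _ => det_self le_rfl) (fun _ => h0)
      Finset.univ (fun ω ω' _ => by simp) (le_of_eq (by rw [hw.2, hπ]; field_simp)) (by simp [hm])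
    rw [hw.2, one_mul, ← hπ] at hG'
    have hlt : ∑ ω ∈ B, w ω < ∑ ω ∈ G', w ω := by
      refine lt_of_le_of_lt hB (lt_of_lt_of_le ?_ hG')
      have h := Nat.le_ceil ((K : ℝ) ^ 2 * (4096 / c ^ 2) / π)
      rw [div_le_iff₀ hπ0] at h
      rw [← mul_div_assoc, div_lt_iff₀ (by positivity)]
      push_cast [hm]
      nlinarith
    obtain ⟨ω, hω, hωB⟩ : ∃ ω ∈ G', ω ∉ B := by
      by_contra hcon
      push Not at hcon
      exact absurd (Finset.sum_le_sum_of_subset_of_nonneg hcon fun ω _ _ => hw.1 ω) (not_le.2 hlt)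
    refine ⟨Fin.cons (M 0 ω) fun l => M (t l) ω, fun i => ?_, fun k => ?_⟩
    · induction i using Fin.cases with
      | zero => exact h0 ω
      | succ i =>
        simp only [Fin.cons_succ]
        exact hball _ (by simpa [hm] using (ht i).2) ω
    induction k using Fin.lastCases with
    | last => exact ⟨0, by simp, fun i j _ h => absurd h (not_lt.2 (Fin.le_last j))⟩
    | cast k =>
      obtain ⟨f, hf, hfs⟩ := hsep ω hω hωB k
      refine ⟨-f, by rwa [norm_neg], fun i j hi hj => ?_⟩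
      simp only [neg_apply]
      induction j using Fin.cases with
      | zero => exact absurd hj (Fin.not_lt_zero _)
      | succ j =>
        obtain ⟨f1, f2⟩ := hfs j (Fin.castSucc_lt_succ_iff.1 hj)
        simp only [Fin.cons_succ]
        induction i using Fin.cases with
        | zero => simp only [Fin.cons_zero]; linarith [f1 0]
        | succ i =>
          simp only [Fin.cons_succ]
          linarith [f2 i (Fin.succ_le_castSucc_iff.1 hi)]

end Vale.Agent.P125
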