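import Vale.Agent.P125.Defs

/-! The summing property passes from the dual space to the space. -/

namespace Vale.Agent.P125

open Finset

universe u

variable {X : Type u} [NormedAddCommGroup X] [NormedSpace ℝ X]

/-- A functional on the dual is approximated on finitely many functionals by a point. -/
theorem exists_approx_point {n : ℕ} (y : Fin n → (X →L[ℝ] ℝ)) (ξ : (X →L[ℝ] ℝ) →L[ℝ] ℝ)
    (hξ : ‖ξ‖ ≤ 1) {ε : ℝ} (hε : 0 < ε) : ∃ x : X, ‖x‖ ≤ 1 ∧ ∀ i, |y i x - ξ (y i)| ≤ ε := by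
  classical
  let T : X →L[ℝ] (Fin n → ℝ) := ContinuousLinearMap.pi y
  let s : Set (Fin n → ℝ) := closure (T '' Metric.closedBall 0 1)
  by_cases hmem : (fun i => ξ (y i)) ∈ s
  · obtain ⟨_, ⟨x, hx, rfl⟩, hd⟩ := Metric.mem_closure_iff.1 hmem ε hε
    refine ⟨x, by simpa using hx, fun i => ?_⟩
    have h := (dist_le_pi_dist _ _ i).trans hd.le
    rw [Real.dist_eq, abs_sub_comm] at h
    exact h
  · have hconv : Convex ℝ s :=
      ((convex_closedBall (0 : X) 1).linear_image T.toLinearMap).closure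
    obtain ⟨f, u, hfu, hu⟩ := geometric_hahn_banach_closed_point hconv isClosed_closure hmem
    let c : Fin n → ℝ := fun i => f (Pi.single i 1)
    have hf : ∀ z, f z = ∑ i, z i * c i := fun z => by
      conv_lhs => rw [pi_eq_sum_univ' z]
      rw [map_sum]
      refine Finset.sum_congr rfl fun i _ => ?_
      rw [map_smul, smul_eq_mul]
    let Ψ : X →L[ℝ] ℝ := ∑ i, c i • y i
    have hΨ : ∀ x, Ψ x = f (T x) := fun x => by
      rw [hf]
      simp [Ψ, T, mul_comm]
    have hxu : ∀ x : X, ‖x‖ ≤ 1 → Ψ x < u := fun x hx => by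
      rw [hΨ]
      exact hfu _ (subset_closure ⟨x, by simpa using hx, rfl⟩)
    have hu0 : 0 ≤ u := by
      have := hxu 0 (by simp)
      rw [map_zero] at this
      exact this.le
    have hnorm : ‖Ψ‖ ≤ u := by
      refine Ψ.opNorm_le_bound hu0 fun x => ?_
      rcases eq_or_ne x 0 with rfl | hx
      · simp
      have h1 := hxu (‖x‖⁻¹ • x) (le_of_eq (norm_smul_inv_norm hx))
      have h2 := hxu (-(‖x‖⁻¹ • x)) (by rw [norm_neg]; exact le_of_eq (norm_smul_inv_norm hx))
      rw [map_smul, smul_eq_mul] at h1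
      rw [map_neg, map_smul, smul_eq_mul] at h2
      have hpos : 0 < ‖x‖ := norm_pos_iff.2 hx
      rw [Real.norm_eq_abs, abs_le]
      have e : ‖x‖ * (‖x‖⁻¹ * Ψ x) = Ψ x := by field_simp
      constructor <;>
        nlinarith [mul_le_mul_of_nonneg_left h1.le hpos.le, mul_le_mul_of_nonneg_left h2.le hpos.le]
    have hle : f (fun i => ξ (y i)) ≤ u := by
      rw [hf]
      calc ∑ i, ξ (y i) * c i = ξ Ψ := by simp [Ψ, mul_comm]
        _ ≤ ‖ξ Ψ‖ := le_abs_self _
        _ ≤ 1 * ‖Ψ‖ := ξ.le_of_opNorm_le hξ Ψ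
        _ ≤ u := by rw [one_mul]; exact hnorm
    exact absurd hle (not_le.2 hu)

/-- The summing property of the dual implies that of the space. -/
theorem summing_of_dual (h : Summing (X →L[ℝ] ℝ)) : Summing X := by
  classical
  obtain ⟨θ, hθ, h⟩ := h
  refine ⟨θ / 2, half_pos hθ, fun K => ?_⟩
  set B : ℕ := ⌈8 / θ⌉₊ + 1 with hB
  obtain ⟨y, hy, hξ⟩ := h (B * (K + 1) + 1)
  choose ξ hξ1 hξ2 using hξ
  choose x hx hxy using fun k => exists_approx_point y (ξ k) (hξ1 k) (show 0 < θ / 8 by positivity)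
  have hne : ∀ k : Fin (B * (K + 1) + 1), (Finset.Iic k).Nonempty := fun k => ⟨k, by simp⟩
  set b : Fin (B * (K + 1) + 1) → ℝ := fun k => (Finset.Iic k).inf' (hne k) fun i => ξ k (y i)
  have hval : ∀ k i, |ξ k (y i)| ≤ 1 := fun k i =>
    ((ξ k).le_of_opNorm_le (hξ1 k) (y i)).trans (by simpa using hy i)
  have hb : ∀ k, |b k| ≤ 1 := fun k => by
    obtain ⟨i, -, hi⟩ := Finset.exists_mem_eq_inf' (hne k) fun i => ξ k (y i)
    simp only [b, hi]
    exact hval k i
  let bucket : Fin (B * (K + 1) + 1) → ℕ := fun k => ⌊(b k + 1) * (4 / θ)⌋₊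
  have hbucket : ∀ k ∈ (Finset.univ : Finset (Fin (B * (K + 1) + 1))),
      bucket k ∈ Finset.range B := fun k _ => by
    rw [Finset.mem_range, hB, Nat.lt_succ_iff]
    refine Nat.le_trans (Nat.floor_le_floor ?_) (Nat.floor_le_ceil _)
    calc (b k + 1) * (4 / θ) ≤ 2 * (4 / θ) := by
          refine mul_le_mul_of_nonneg_right ?_ (by positivity)
          linarith [(abs_le.1 (hb k)).2]
      _ = 8 / θ := by ring
  obtain ⟨v, -, hv⟩ := Finset.exists_lt_card_fiber_of_mul_lt_card_of_maps_to hbucket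
    (show (Finset.range B).card * (K + 1) < (Finset.univ : Finset (Fin (B * (K + 1) + 1))).card by
      simp)
  set S := Finset.univ.filter fun k => bucket k = v with hS
  let e := S.orderEmbOfCardLe hv.le
  have hmem : ∀ s, bucket (e s) = v := fun s =>
    (Finset.mem_filter.1 (S.orderEmbOfCardLe_mem hv.le s)).2
  have hclose : ∀ r s, b (e r) ≤ b (e s) + θ / 4 := by
    intro r s
    have h1 : ∀ t, (v : ℝ) ≤ (b (e t) + 1) * (4 / θ) ∧ (b (e t) + 1) * (4 / θ) < v + 1 := fun t => by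
      have h0 : 0 ≤ (b (e t) + 1) * (4 / θ) :=
        mul_nonneg (by linarith [(abs_le.1 (hb (e t))).1]) (by positivity)
      rw [← hmem t]
      exact ⟨Nat.floor_le h0, Nat.lt_floor_add_one _⟩
    have h2 := (h1 r).2
    have h3 := (h1 s).1
    have h4 : (b (e r) - b (e s)) * (4 / θ) ≤ 1 := by linarith
    rw [← mul_div_assoc, div_le_one hθ] at h4
    linarith
  refine ⟨fun r => x (e r.castSucc), fun r => hx _, fun k => ?_⟩
  refine ⟨-(y (e k.succ)), by rw [norm_neg]; exact hy _, fun i j hik hkj => ?_⟩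
  have hi : e i.castSucc < e k.succ := e.strictMono (by simp [Fin.lt_def]; omega)
  have hj : e k.succ ≤ e j.castSucc := e.monotone (by simp [Fin.le_def]; omega)
  have hjb : b (e j.castSucc) ≤ ξ (e j.castSucc) (y (e k.succ)) :=
    Finset.inf'_le (fun i => ξ (e j.castSucc) (y i)) (Finset.mem_Iic.2 hj)
  obtain ⟨i', hi', hib⟩ :=
    Finset.exists_mem_eq_inf' (hne (e i.castSucc)) fun i' => ξ (e i.castSucc) (y i')
  have hsep := hξ2 (e i.castSucc) i' (e k.succ) (Finset.mem_Iic.1 hi') hi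
  have hib' : b (e i.castSucc) = ξ (e i.castSucc) (y i') := hib
  have e1 := abs_le.1 (hxy (e i.castSucc) (e k.succ))
  have e2 := abs_le.1 (hxy (e j.castSucc) (e k.succ))
  have e3 := hclose i.castSucc j.castSucc
  simp only [neg_apply]
  linarith [e1.1, e1.2, e2.1, e2.2]

end Vale.Agent.P125
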