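import Mathlib

/-!
Iterated ultrafilter limits of bounded functions of increasing tuples.
-/

namespace Vale.Agent.P125

open Filter Topology

noncomputable section

/-- A fixed free ultrafilter on `ℕ`. -/
def U : Ultrafilter ℕ := hyperfilter ℕ

theorem U_le_atTop : (U : Filter ℕ) ≤ atTop := Nat.hyperfilter_le_atTop

theorem eventually_U_ge (m : ℕ) : ∀ᶠ i in (U : Filter ℕ), m ≤ i :=
  U_le_atTop (eventually_ge_atTop m)

/-- The iterated ultrafilter on `k`-tuples: the first entry is drawn first. -/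
def Utup : (k : ℕ) → Ultrafilter (Fin k → ℕ)
  | 0 => pure Fin.elim0
  | k + 1 => U.bind fun i => (Utup k).map (fun s => Fin.cons i s)

theorem eventually_Utup_succ {k : ℕ} {q : (Fin (k + 1) → ℕ) → Prop} :
    (∀ᶠ s in (Utup (k + 1) : Filter (Fin (k + 1) → ℕ)), q s) ↔
      ∀ᶠ i in (U : Filter ℕ), ∀ᶠ s in (Utup k : Filter (Fin k → ℕ)), q (Fin.cons i s) :=
  Iff.rfl

theorem Utup_ge_strictMono (k m : ℕ) :
    ∀ᶠ s in (Utup k : Filter (Fin k → ℕ)), StrictMono s ∧ ∀ j, m ≤ s j := by
  induction k generalizing m with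
  | zero => exact Eventually.of_forall fun s => ⟨fun i => i.elim0, fun i => i.elim0⟩
  | succ k ih =>
    rw [eventually_Utup_succ]
    filter_upwards [eventually_U_ge m] with i hi
    filter_upwards [ih (i + 1)] with s hs
    refine ⟨?_, ?_⟩
    · rw [Fin.strictMono_iff_lt_succ]
      intro j
      rcases Fin.eq_zero_or_eq_succ j.castSucc with h | ⟨j', h⟩
      · rw [h, Fin.cons_zero, Fin.cons_succ]; exact hs.2 j
      · rw [h, Fin.cons_succ, Fin.cons_succ]
        apply hs.1
        have := congrArg Fin.val h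
        simp at this
        exact Fin.lt_def.mpr (by omega)
    · intro j
      rcases Fin.eq_zero_or_eq_succ j with h | ⟨j', h⟩
      · rw [h, Fin.cons_zero]; exact hi
      · rw [h, Fin.cons_succ]; exact le_trans (by omega) (hs.2 j')

theorem Utup_subtuple : ∀ {N k : ℕ} (e : Fin k → Fin N), StrictMono e →
    (Utup N).map (fun s => s ∘ e) = Utup k := by
  intro N
  induction N with
  | zero =>
    intro k e _
    cases k with
    | zero =>
      apply Ultrafilter.coe_injective
      ext q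
      change ((Fin.elim0 : Fin 0 → ℕ) ∘ e ∈ q) ↔ ((Fin.elim0 : Fin 0 → ℕ) ∈ q)
      rw [Subsingleton.elim ((Fin.elim0 : Fin 0 → ℕ) ∘ e) Fin.elim0]
    | succ k => exact (e 0).elim0
  | succ N ih =>
    intro k e he
    apply Ultrafilter.coe_injective
    ext q
    change (∀ᶠ s in (Utup (N + 1) : Filter (Fin (N + 1) → ℕ)), s ∘ e ∈ q) ↔
      (∀ᶠ r in (Utup k : Filter (Fin k → ℕ)), r ∈ q)
    rw [eventually_Utup_succ]
    by_cases h0 : ∀ j, e j ≠ 0
    · let e' : Fin k → Fin N := fun j => (e j).pred (h0 j)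
      have he' : StrictMono e' := fun a b hab => Fin.pred_lt_pred_iff.mpr (he hab)
      have hcomp : ∀ (i : ℕ) (s : Fin N → ℕ),
          (Fin.cons i s : Fin (N + 1) → ℕ) ∘ e = s ∘ e' := by
        intro i s
        funext j
        change (Fin.cons i s : Fin (N + 1) → ℕ) (e j) = s ((e j).pred (h0 j))
        conv_lhs => rw [← Fin.succ_pred (e j) (h0 j)]
        rw [Fin.cons_succ]
      simp only [hcomp]
      rw [eventually_const]
      rw [← ih e' he']
      rfl
    · push Not at h0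
      obtain ⟨j0, hj0⟩ := h0
      cases k with
      | zero => exact j0.elim0
      | succ k =>
        have hz : e 0 = 0 := by
          apply le_antisymm ?_ (Fin.zero_le _)
          rw [← hj0]; exact he.monotone (Fin.zero_le _)
        have h1 : ∀ j : Fin k, e j.succ ≠ 0 := by
          intro j hj
          have := he (Fin.succ_pos j)
          rw [hz, hj] at this
          exact lt_irrefl _ this
        let e' : Fin k → Fin N := fun j => (e j.succ).pred (h1 j)
        have he' : StrictMono e' := fun a b hab =>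
          Fin.pred_lt_pred_iff.mpr (he (Fin.succ_lt_succ_iff.mpr hab))
        have hcomp : ∀ (i : ℕ) (s : Fin N → ℕ),
            (Fin.cons i s : Fin (N + 1) → ℕ) ∘ e = Fin.cons i (s ∘ e') := by
          intro i s
          funext j
          rcases Fin.eq_zero_or_eq_succ j with h | ⟨j', h⟩
          · rw [h, Fin.cons_zero]; simp [hz]
          · rw [h, Fin.cons_succ]
            change (Fin.cons i s : Fin (N + 1) → ℕ) (e j'.succ) = s ((e j'.succ).pred (h1 j'))
            conv_lhs => rw [← Fin.succ_pred (e j'.succ) (h1 j')]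
            rw [Fin.cons_succ]
        simp only [hcomp]
        rw [eventually_Utup_succ]
        apply eventually_congr
        refine Eventually.of_forall fun i => ?_
        rw [← ih e' he']
        rfl

/-- A bounded real function on a type. -/
def Bdd {α : Type*} (φ : α → ℝ) : Prop := ∃ B, ∀ a, |φ a| ≤ B

/-- Limit of a real function along an ultrafilter. -/
def ulim {α : Type*} (F : Ultrafilter α) (φ : α → ℝ) : ℝ := (F.map φ : Filter ℝ).limsInf

theorem tendsto_ulim {α : Type*} (F : Ultrafilter α) {φ : α → ℝ} (h : Bdd φ) :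
    Tendsto φ F (𝓝 (ulim F φ)) := by
  obtain ⟨B, hB⟩ := h
  have hc : IsCompact (Set.Icc (-B) B) := isCompact_Icc
  obtain ⟨a, -, ha⟩ := hc.ultrafilter_le_nhds (F.map φ) (by
    rw [le_principal_iff]
    change φ ⁻¹' Set.Icc (-B) B ∈ (F : Filter α)
    exact Eventually.of_forall fun x => abs_le.mp (hB x))
  have e : ulim F φ = a := limsInf_eq_of_le_nhds ha
  rw [e]
  exact ha

theorem ulim_eq {α : Type*} (F : Ultrafilter α) {φ : α → ℝ} {a : ℝ}
    (h : Tendsto φ F (𝓝 a)) : ulim F φ = a := limsInf_eq_of_le_nhds h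

theorem ulim_map {α β : Type*} (F : Ultrafilter α) (g : α → β) (φ : β → ℝ) :
    ulim (F.map g) φ = ulim F (φ ∘ g) := by
  rfl

/-- Iterated limit of a bounded function of increasing tuples. -/
def L (k : ℕ) (Φ : (Fin k → ℕ) → ℝ) : ℝ := ulim (Utup k) Φ

theorem L_subtuple {N k : ℕ} (e : Fin k → Fin N) (he : StrictMono e) (Φ : (Fin k → ℕ) → ℝ) :
    L N (fun s => Φ (s ∘ e)) = L k Φ := by
  unfold L
  rw [← Utup_subtuple e he, ulim_map]
  rfl

theorem ulim_le_ulim {α : Type*} (F : Ultrafilter α) {φ ψ : α → ℝ} (hφ : Bdd φ) (hψ : Bdd ψ)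
    (h : ∀ᶠ a in (F : Filter α), φ a ≤ ψ a) : ulim F φ ≤ ulim F ψ :=
  le_of_tendsto_of_tendsto (tendsto_ulim F hφ) (tendsto_ulim F hψ) h

theorem le_ulim {α : Type*} (F : Ultrafilter α) {φ : α → ℝ} (hφ : Bdd φ) {c : ℝ}
    (h : ∀ᶠ a in (F : Filter α), c ≤ φ a) : c ≤ ulim F φ :=
  ge_of_tendsto (tendsto_ulim F hφ) h

theorem ulim_le {α : Type*} (F : Ultrafilter α) {φ : α → ℝ} (hφ : Bdd φ) {c : ℝ}
    (h : ∀ᶠ a in (F : Filter α), φ a ≤ c) : ulim F φ ≤ c :=
  le_of_tendsto (tendsto_ulim F hφ) h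

theorem abs_ulim_le {α : Type*} (F : Ultrafilter α) {φ : α → ℝ} {B : ℝ}
    (h : ∀ a, |φ a| ≤ B) : |ulim F φ| ≤ B :=
  abs_le.mpr ⟨le_ulim F ⟨B, h⟩ (Eventually.of_forall fun a => (abs_le.mp (h a)).1),
    ulim_le F ⟨B, h⟩ (Eventually.of_forall fun a => (abs_le.mp (h a)).2)⟩

theorem ulim_sum {α ι : Type*} (F : Ultrafilter α) (s : Finset ι) (φ : ι → α → ℝ)
    (h : ∀ i ∈ s, Bdd (φ i)) :
    ulim F (fun a => ∑ i ∈ s, φ i a) = ∑ i ∈ s, ulim F (φ i) :=
  ulim_eq F (tendsto_finsetSum s fun i hi => tendsto_ulim F (h i hi))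

theorem eventually_near_ulim {α ι : Type*} [Finite ι] (F : Ultrafilter α) (φ : ι → α → ℝ)
    (h : ∀ i, Bdd (φ i)) {ε : ℝ} (hε : 0 < ε) :
    ∀ᶠ a in (F : Filter α), ∀ i, |φ i a - ulim F (φ i)| < ε := by
  rw [eventually_all]
  intro i
  have := (tendsto_ulim F (h i)).eventually (Metric.ball_mem_nhds _ hε)
  filter_upwards [this] with a ha
  simpa [Real.dist_eq] using ha

end

end Vale.Agent.P125
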