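import Vale.Agent.P125.Defs
import Vale.Agent.P125.Limits

/-!
A spreading model with exact averaging (`N (push e c) ≤ N c` for monotone `e`) extracted from
the summing property.
-/

namespace Vale.Agent.P125

open Finset Filter Topology

universe u

noncomputable section

/-- Push a vector forward along a map of index sets. -/
def push {M R : ℕ} (e : Fin M → Fin R) (c : Fin M → ℝ) : Fin R → ℝ :=
  ∑ j, Pi.single (e j) (c j)

theorem sum_push_smul {V : Type*} [AddCommGroup V] [Module ℝ V] {M R : ℕ}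
    (e : Fin M → Fin R) (c : Fin M → ℝ) (v : Fin R → V) :
    ∑ r, push e c r • v r = ∑ j, c j • v (e j) := by
  unfold push
  simp only [Finset.sum_apply, Finset.sum_smul]
  rw [Finset.sum_comm]
  refine Finset.sum_congr rfl fun j _ => ?_
  rw [Finset.sum_eq_single (e j)]
  · simp
  · intro r _ hr; simp [hr]
  · simp

theorem push_eq_sum_smul {M R : ℕ} (e : Fin M → Fin R) (c : Fin M → ℝ) :
    push e c = ∑ j, c j • (Pi.single (e j) (1 : ℝ) : Fin R → ℝ) := by
  unfold push
  refine Finset.sum_congr rfl fun j _ => ?_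
  rw [← Pi.single_smul, smul_eq_mul, mul_one]

theorem push_push {M R S : ℕ} (e : Fin M → Fin R) (e' : Fin R → Fin S) (c : Fin M → ℝ) :
    push e' (push e c) = push (e' ∘ e) c := by
  rw [push_eq_sum_smul e', sum_push_smul, push_eq_sum_smul]
  rfl

theorem push_id {M : ℕ} (c : Fin M → ℝ) : push id c = c := by
  funext r
  unfold push
  simp [Finset.sum_apply, Pi.single_apply]

theorem push_smul {M R : ℕ} (e : Fin M → Fin R) (a : ℝ) (c : Fin M → ℝ) :
    push e (a • c) = a • push e c := by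
  rw [push_eq_sum_smul, push_eq_sum_smul, Finset.smul_sum]
  refine Finset.sum_congr rfl fun j _ => ?_
  rw [Pi.smul_apply, smul_eq_mul, mul_smul]

theorem push_apply {M R : ℕ} (e : Fin M → Fin R) (c : Fin M → ℝ) (r : Fin R) :
    push e c r = ∑ j, if e j = r then c j else 0 := by
  unfold push
  rw [Finset.sum_apply]
  refine Finset.sum_congr rfl fun j _ => ?_
  rw [Pi.single_apply]
  rcases eq_or_ne (e j) r with h | h
  · simp [h]
  · simp [h, h.symm]

/-- A spreading model of `X` with exact averaging and separation `θ`. -/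
structure SpreadModel (X : Type u) [NormedAddCommGroup X] [NormedSpace ℝ X] (θ : ℝ) where
  /-- The seminorms. -/
  N : (M : ℕ) → Seminorm ℝ (Fin M → ℝ)
  le_l1 : ∀ (M : ℕ) (c : Fin M → ℝ), N M c ≤ ∑ j, |c j|
  push_le : ∀ (M R : ℕ) (e : Fin M → Fin R) (c : Fin M → ℝ), Monotone e →
    N R (push e c) ≤ N M c
  sep : θ ≤ N 2 ![1, -1]
  realize : ∀ (n : ℕ) (ι : Type) (_ : Finite ι) (C : ι → Fin n → ℝ) (ε : ℝ), 0 < ε →
    ∃ y : Fin n → X, ∀ i, |‖∑ j, C i j • y j‖ - N n (C i)| < ε

namespace SpreadModel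

variable {X : Type u} [NormedAddCommGroup X] [NormedSpace ℝ X] {θ : ℝ} (S : SpreadModel X θ)

theorem push_eq {M R : ℕ} (e : Fin M → Fin R) (he : StrictMono e) (c : Fin M → ℝ) :
    S.N R (push e c) = S.N M c := by
  refine le_antisymm (S.push_le M R e c he.monotone) ?_
  rcases Nat.eq_zero_or_pos M with h | h
  · subst h
    have hc : c = 0 := Subsingleton.elim _ _
    rw [hc, map_zero]
    exact apply_nonneg _ _
  · let e' : Fin R → Fin M := fun r =>
      ⟨(univ.filter fun j => e j ≤ r).card - 1, by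
        have : (univ.filter fun j => e j ≤ r).card ≤ M :=
          le_trans (Finset.card_filter_le _ _) (by simp)
        omega⟩
    have hmono : Monotone e' := by
      intro a b hab
      have : (univ.filter fun j => e j ≤ a) ⊆ (univ.filter fun j => e j ≤ b) := by
        intro j hj
        simp only [Finset.mem_filter, Finset.mem_univ, true_and] at hj ⊢
        exact le_trans hj hab
      have := Finset.card_le_card this
      change (_ : ℕ) ≤ _
      simp only [e']
      omega
    have hinv : e' ∘ e = id := by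
      funext j
      have : (univ.filter fun i => e i ≤ e j) = Finset.Iic j := by
        ext i
        simp [he.le_iff_le]
      apply Fin.ext
      simp [e', this, Fin.card_Iic]
    calc S.N M c = S.N M (push e' (push e c)) := by rw [push_push, hinv, push_id]
      _ ≤ S.N R (push e c) := S.push_le R M e' _ hmono

end SpreadModel

section Construction

variable {X : Type u} [NormedAddCommGroup X] [NormedSpace ℝ X]

/-- `∑ c_j x_{s_j}`. -/
def Sx (x : ℕ → X) (M : ℕ) (c : Fin M → ℝ) (s : Fin M → ℕ) : X := ∑ j, c j • x (s j)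

theorem norm_Sx_le {x : ℕ → X} (hx : ∀ i, ‖x i‖ ≤ 1) (M : ℕ) (c : Fin M → ℝ) (s : Fin M → ℕ) :
    ‖Sx x M c s‖ ≤ ∑ j, |c j| := by
  refine le_trans (norm_sum_le _ _) (Finset.sum_le_sum fun j _ => ?_)
  rw [norm_smul, Real.norm_eq_abs]
  exact mul_le_of_le_one_right (abs_nonneg _) (hx _)

/-- The ultrafilter limit of `‖∑ c_j x^n_{s_j}‖`. -/
def Gl (xs : ℕ → ℕ → X) (M : ℕ) (c : Fin M → ℝ) (s : Fin M → ℕ) : ℝ :=
  ulim U fun n => ‖Sx (xs n) M c s‖

variable {xs : ℕ → ℕ → X} (hx : ∀ n i, ‖xs n i‖ ≤ 1)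
include hx

theorem bdd_normSx (M : ℕ) (c : Fin M → ℝ) (s : Fin M → ℕ) :
    Bdd fun n => ‖Sx (xs n) M c s‖ :=
  ⟨∑ j, |c j|, fun n => by rw [abs_norm]; exact norm_Sx_le (hx n) M c s⟩

theorem abs_Gl_le (M : ℕ) (c : Fin M → ℝ) (s : Fin M → ℕ) : |Gl xs M c s| ≤ ∑ j, |c j| :=
  abs_ulim_le _ fun n => by rw [abs_norm]; exact norm_Sx_le (hx n) M c s

theorem bdd_Gl (M : ℕ) (c : Fin M → ℝ) : Bdd (Gl xs M c) :=
  ⟨∑ j, |c j|, abs_Gl_le hx M c⟩

theorem Gl_add_le (M : ℕ) (c d : Fin M → ℝ) (s : Fin M → ℕ) :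
    Gl xs M (c + d) s ≤ Gl xs M c s + Gl xs M d s := by
  refine le_of_tendsto_of_tendsto (tendsto_ulim U (bdd_normSx hx M (c + d) s))
    ((tendsto_ulim U (bdd_normSx hx M c s)).add (tendsto_ulim U (bdd_normSx hx M d s))) ?_
  refine Eventually.of_forall fun n => ?_
  have : Sx (xs n) M (c + d) s = Sx (xs n) M c s + Sx (xs n) M d s := by
    simp [Sx, add_smul, Finset.sum_add_distrib]
  simp only [this]
  exact norm_add_le _ _

theorem Gl_smul (M : ℕ) (a : ℝ) (c : Fin M → ℝ) (s : Fin M → ℕ) :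
    Gl xs M (a • c) s = |a| * Gl xs M c s := by
  refine ulim_eq U ?_
  have : ∀ n, ‖Sx (xs n) M (a • c) s‖ = |a| * ‖Sx (xs n) M c s‖ := by
    intro n
    have : Sx (xs n) M (a • c) s = a • Sx (xs n) M c s := by
      simp [Sx, Finset.smul_sum, mul_smul]
    rw [this, norm_smul, Real.norm_eq_abs]
  simp only [this]
  exact (tendsto_ulim U (bdd_normSx hx M c s)).const_mul _

/-- The spreading seminorm. -/
def N0 (M : ℕ) : Seminorm ℝ (Fin M → ℝ) :=
  Seminorm.of (fun c => L M (Gl xs M c))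
    (fun c d => by
      refine le_of_tendsto_of_tendsto (tendsto_ulim (Utup M) (bdd_Gl hx M (c + d)))
        ((tendsto_ulim _ (bdd_Gl hx M c)).add (tendsto_ulim _ (bdd_Gl hx M d))) ?_
      exact Eventually.of_forall fun s => Gl_add_le hx M c d s)
    (fun a c => by
      refine ulim_eq _ ?_
      simp only [Real.norm_eq_abs]
      rw [show Gl xs M (a • c) = fun s => |a| * Gl xs M c s from funext (Gl_smul hx M a c)]
      exact (tendsto_ulim _ (bdd_Gl hx M c)).const_mul _)

theorem N0_apply (M : ℕ) (c : Fin M → ℝ) : N0 hx M c = L M (Gl xs M c) := rfl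

theorem N0_le_l1 (M : ℕ) (c : Fin M → ℝ) : N0 hx M c ≤ ∑ j, |c j| :=
  le_trans (le_abs_self _) (abs_ulim_le _ (abs_Gl_le hx M c))

theorem N0_push {M R : ℕ} (e : Fin M → Fin R) (he : StrictMono e) (c : Fin M → ℝ) :
    N0 hx R (push e c) = N0 hx M c := by
  rw [N0_apply, N0_apply, ← L_subtuple e he (Gl xs M c)]
  congr 1
  funext s
  unfold Gl
  congr 1
  funext n
  congr 1
  exact sum_push_smul e c fun r => xs n (s r)

end Construction

/-- Replace every coefficient by a block of length `W` of equal coefficients with the same sum. -/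
def blow (W M : ℕ) (c : Fin M → ℝ) : Fin (M * W) → ℝ :=
  fun p => c (finProdFinEquiv.symm p).1 / W

theorem sum_blow_smul {V : Type*} [AddCommGroup V] [Module ℝ V] (W M : ℕ) (c : Fin M → ℝ)
    (v : Fin (M * W) → V) :
    ∑ p, blow W M c p • v p = ∑ j, c j • ((W : ℝ)⁻¹ • ∑ q, v (finProdFinEquiv (j, q))) := by
  rw [← finProdFinEquiv.sum_comp, Fintype.sum_prod_type]
  refine Finset.sum_congr rfl fun j _ => ?_
  rw [Finset.smul_sum, Finset.smul_sum]
  refine Finset.sum_congr rfl fun q _ => ?_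
  simp only [blow, Equiv.symm_apply_apply]
  rw [smul_smul, div_eq_mul_inv]

theorem blow_add (W M : ℕ) (c d : Fin M → ℝ) : blow W M (c + d) = blow W M c + blow W M d := by
  funext p; simp [blow, add_div]

theorem blow_smul (W M : ℕ) (a : ℝ) (c : Fin M → ℝ) : blow W M (a • c) = a • blow W M c := by
  funext p; simp [blow, mul_div_assoc]

theorem l1_blow (W M : ℕ) (hW : 0 < W) (c : Fin M → ℝ) :
    ∑ p, |blow W M c p| = ∑ j, |c j| := by
  rw [← finProdFinEquiv.sum_comp, Fintype.sum_prod_type]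
  refine Finset.sum_congr rfl fun j _ => ?_
  simp only [blow, Equiv.symm_apply_apply, abs_div, Nat.abs_cast, Finset.sum_const,
    Finset.card_univ, Fintype.card_fin, nsmul_eq_mul]
  field_simp

section Averaged

variable {X : Type u} [NormedAddCommGroup X] [NormedSpace ℝ X]
variable {xs : ℕ → ℕ → X} (hx : ∀ n i, ‖xs n i‖ ≤ 1)
include hx

/-- The spreading seminorm of block averages. -/
def NW (W M : ℕ) (c : Fin M → ℝ) : ℝ := N0 hx (M * W) (blow W M c)

theorem NW_le_l1 (W M : ℕ) (hW : 0 < W) (c : Fin M → ℝ) : NW hx W M c ≤ ∑ j, |c j| :=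
  le_trans (N0_le_l1 hx _ _) (le_of_eq (l1_blow W M hW c))

theorem abs_NW_le (W M : ℕ) (c : Fin M → ℝ) : |NW hx (W + 1) M c| ≤ ∑ j, |c j| := by
  rw [abs_of_nonneg (show (0 : ℝ) ≤ NW hx (W + 1) M c from apply_nonneg _ _)]
  exact NW_le_l1 hx _ _ W.succ_pos c

theorem bdd_NW (M : ℕ) (c : Fin M → ℝ) : Bdd fun W => NW hx (W + 1) M c :=
  ⟨∑ j, |c j|, fun W => abs_NW_le hx W M c⟩

theorem sampling {M R : ℕ} (e : Fin M → Fin R) (he : Monotone e) (c : Fin M → ℝ) (W : ℕ)
    (hW : 0 < W) (hMW : M ≤ W) :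
    NW hx W R (push e c) ≤ N0 hx M c + 2 * M * (∑ j, |c j|) / W := by
  set T := R * (2 * W) with hT
  set δ : ℕ → Fin T → ℝ := fun a p => if (p : ℕ) = a then 1 else 0 with hδ
  have hδ1 : ∀ a, N0 hx T (δ a) ≤ 1 := by
    intro a
    refine le_trans (N0_le_l1 hx T _) ?_
    by_cases ha : a < T
    · rw [Finset.sum_eq_single (⟨a, ha⟩ : Fin T)]
      · simp [hδ]
      · intro p _ hp
        have : (p : ℕ) ≠ a := fun h => hp (Fin.ext h)
        simp [hδ, this]
      · simp
    · have : ∀ p : Fin T, (p : ℕ) ≠ a := fun p h => ha (h ▸ p.isLt)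
      simp [hδ, this]
  have hsingle : ∀ (a : ℕ) (ha : a < T), (Pi.single (⟨a, ha⟩ : Fin T) (1 : ℝ)) = δ a := by
    intro a ha; funext p
    simp [hδ, Pi.single_apply, Fin.ext_iff]
  have hblock : ∀ r : Fin R, (r : ℕ) * (2 * W) + 2 * W ≤ T := by
    intro r
    have := Nat.mul_le_mul_right (2 * W) (show (r : ℕ) + 1 ≤ R from r.isLt)
    rw [hT]; linarith
  have hpos : ∀ (r : Fin R) (q : ℕ), q < 2 * W → (r : ℕ) * (2 * W) + q < T :=
    fun r q hq => by have := hblock r; omega
  let σ : Fin W → Fin M → Fin T := fun s j =>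
    ⟨(e j : ℕ) * (2 * W) + ((j : ℕ) + (s : ℕ)),
      hpos _ _ (by have := j.isLt; have := s.isLt; omega)⟩
  have hσ : ∀ s, StrictMono (σ s) := by
    intro s i j hij
    have h1 := Nat.mul_le_mul_right (2 * W) (show (e i : ℕ) ≤ e j from he hij.le)
    change (_ : ℕ) < _
    simp only [σ]
    have : (i : ℕ) < j := hij
    omega
  let emb : Fin (R * W) → Fin T := fun p =>
    ⟨((finProdFinEquiv.symm p).1 : ℕ) * (2 * W) + ((finProdFinEquiv.symm p).2 : ℕ),
      hpos _ _ (by have := (finProdFinEquiv.symm p).2.isLt; omega)⟩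
  have hemb : StrictMono emb := by
    intro a b hab
    change (_ : ℕ) < _
    obtain ⟨⟨r, q⟩, rfl⟩ := finProdFinEquiv.surjective a
    obtain ⟨⟨r', q'⟩, rfl⟩ := finProdFinEquiv.surjective b
    have h : (q : ℕ) + W * (r : ℕ) < (q' : ℕ) + W * (r' : ℕ) := hab
    have := q.isLt
    have := q'.isLt
    simp only [emb, Equiv.symm_apply_apply]
    rcases lt_trichotomy (r : ℕ) (r' : ℕ) with h' | h' | h'
    · have := Nat.mul_le_mul_right (2 * W) (show (r : ℕ) + 1 ≤ r' from h')
      linarith [Nat.zero_le (q' : ℕ)]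
    · rw [h'] at h ⊢; omega
    · have := Nat.mul_le_mul_left W (show (r' : ℕ) + 1 ≤ r from h')
      exfalso; linarith
  set base : Fin M → ℕ := fun j => (e j : ℕ) * (2 * W) with hbase
  have hu : ∀ s, push (σ s) c = ∑ j, c j • δ (base j + ((j : ℕ) + (s : ℕ))) := by
    intro s
    rw [push_eq_sum_smul]
    exact Finset.sum_congr rfl fun j _ => by rw [hsingle]
  have hv : push emb (blow W R (push e c)) =
      ∑ j, c j • ((W : ℝ)⁻¹ • ∑ q ∈ Finset.range W, δ (base j + q)) := by
    rw [push_eq_sum_smul, sum_blow_smul, sum_push_smul]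
    refine Finset.sum_congr rfl fun j _ => ?_
    rw [← Fin.sum_univ_eq_sum_range]
    congr 2
    refine Finset.sum_congr rfl fun q _ => ?_
    rw [hsingle]
    simp [Equiv.symm_apply_apply, hbase]
  set ubar : Fin T → ℝ := (W : ℝ)⁻¹ • ∑ s, push (σ s) c with hubar
  have hub : N0 hx T ubar ≤ N0 hx M c := by
    rw [hubar, map_smul_eq_mul]
    have : N0 hx T (∑ s, push (σ s) c) ≤ ∑ s : Fin W, N0 hx T (push (σ s) c) :=
      Finset.le_sum_of_subadditive _ (map_zero _).le (map_add_le_add _) _ _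
    refine le_trans (mul_le_mul_of_nonneg_left this (norm_nonneg _)) ?_
    simp only [N0_push hx _ (hσ _), Finset.sum_const, Finset.card_univ, Fintype.card_fin,
      nsmul_eq_mul]
    rw [norm_inv, Real.norm_natCast, ← mul_assoc]
    rw [inv_mul_cancel₀ (by exact_mod_cast hW.ne'), one_mul]
  have hdiff : push emb (blow W R (push e c)) - ubar = ∑ j, (c j * (W : ℝ)⁻¹) •
      (∑ q ∈ Finset.range (j : ℕ), δ (base j + q)
        - ∑ q ∈ Finset.range (j : ℕ), δ (base j + (W + q))) := by
    rw [hv, hubar]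
    simp only [hu]
    rw [Finset.sum_comm, Finset.smul_sum, ← Finset.sum_sub_distrib]
    refine Finset.sum_congr rfl fun j _ => ?_
    rw [← Finset.smul_sum, smul_comm ((W : ℝ)⁻¹) (c j), ← smul_sub, ← smul_sub, mul_smul]
    congr 2
    rw [Fin.sum_univ_eq_sum_range (fun s => δ (base j + ((j : ℕ) + s))) W]
    have h1 := Finset.sum_range_add (fun q => δ (base j + q)) W (j : ℕ)
    have h2 := Finset.sum_range_add (fun q => δ (base j + q)) (j : ℕ) W
    rw [add_comm W (j : ℕ), h2] at h1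
    rw [sub_eq_sub_iff_add_eq_add]
    rw [h1]
  have hd : N0 hx T (push emb (blow W R (push e c)) - ubar) ≤ 2 * M * (∑ j, |c j|) / W := by
    rw [hdiff]
    refine le_trans (Finset.le_sum_of_subadditive _ (map_zero _).le (map_add_le_add _) _ _) ?_
    rw [Finset.mul_sum, Finset.sum_div]
    refine Finset.sum_le_sum fun j _ => ?_
    rw [map_smul_eq_mul]
    have hA : ∀ g : ℕ → ℕ, N0 hx T (∑ q ∈ Finset.range (j : ℕ), δ (g q)) ≤ M := by
      intro g
      refine le_trans (Finset.le_sum_of_subadditive _ (map_zero _).le (map_add_le_add _) _ _) ?_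
      refine le_trans (Finset.sum_le_sum fun q _ => hδ1 (g q)) ?_
      simp [j.isLt.le]
    have h2 : N0 hx T (∑ q ∈ Finset.range (j : ℕ), δ (base j + q)
        - ∑ q ∈ Finset.range (j : ℕ), δ (base j + (W + q))) ≤ 2 * M := by
      refine le_trans (map_sub_le_add _ _ _) ?_
      linarith [hA fun q => base j + q, hA fun q => base j + (W + q)]
    calc ‖c j * (W : ℝ)⁻¹‖ * _ ≤ ‖c j * (W : ℝ)⁻¹‖ * (2 * M) :=
          mul_le_mul_of_nonneg_left h2 (norm_nonneg _)
      _ = 2 * M * |c j| / W := by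
          rw [norm_mul, norm_inv, Real.norm_natCast, Real.norm_eq_abs]; ring
  calc NW hx W R (push e c) = N0 hx T (push emb (blow W R (push e c))) := (N0_push hx emb hemb _).symm
    _ = N0 hx T (ubar + (push emb (blow W R (push e c)) - ubar)) := by rw [add_sub_cancel]
    _ ≤ N0 hx T ubar + N0 hx T (push emb (blow W R (push e c)) - ubar) := map_add_le_add _ _ _
    _ ≤ _ := add_le_add hub hd

/-- The averaged spreading seminorm. -/
def Nbar (M : ℕ) : Seminorm ℝ (Fin M → ℝ) :=
  Seminorm.of (fun c => ulim U fun W => NW hx (W + 1) M c)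
    (fun c d => by
      refine le_of_tendsto_of_tendsto (tendsto_ulim U (bdd_NW hx M (c + d)))
        ((tendsto_ulim _ (bdd_NW hx M c)).add (tendsto_ulim _ (bdd_NW hx M d))) ?_
      refine Eventually.of_forall fun W => ?_
      simp only [NW, blow_add]
      exact map_add_le_add _ _ _)
    (fun a c => by
      refine ulim_eq _ ?_
      simp only [NW, blow_smul, map_smul_eq_mul]
      exact (tendsto_ulim _ (bdd_NW hx M c)).const_mul _)

theorem Nbar_apply (M : ℕ) (c : Fin M → ℝ) :
    Nbar hx M c = ulim U fun W => NW hx (W + 1) M c := rfl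

theorem Nbar_push {M R : ℕ} (e : Fin M → Fin R) (he : Monotone e) (c : Fin M → ℝ) :
    Nbar hx R (push e c) ≤ Nbar hx M c := by
  rw [Nbar_apply, Nbar_apply]
  refine le_ulim U (bdd_NW hx M c) (Eventually.of_forall fun K => ?_)
  let e' : Fin (M * (K + 1)) → Fin R := fun p => e (finProdFinEquiv.symm p).1
  have he' : Monotone e' := by
    intro a b hab
    refine he ?_
    change (a : ℕ) / (K + 1) ≤ (b : ℕ) / (K + 1)
    exact Nat.div_le_div_right hab
  have hpe : push e' (blow (K + 1) M c) = push e c := by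
    rw [push_eq_sum_smul, sum_blow_smul, push_eq_sum_smul]
    refine Finset.sum_congr rfl fun j _ => ?_
    simp only [e', Equiv.symm_apply_apply, Finset.sum_const, Finset.card_univ, Fintype.card_fin]
    rw [← Nat.cast_smul_eq_nsmul ℝ, smul_smul ((K + 1 : ℕ) : ℝ)⁻¹,
      inv_mul_cancel₀ (by positivity), one_smul]
  set B := 2 * ((M * (K + 1) : ℕ) : ℝ) * ∑ p, |blow (K + 1) M c p| with hB
  have h0 : Tendsto (fun W : ℕ => NW hx (K + 1) M c + B / ((W + 1 : ℕ) : ℝ)) U
      (𝓝 (NW hx (K + 1) M c + 0)) := by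
    refine tendsto_const_nhds.add ?_
    refine Tendsto.mono_left ?_ U_le_atTop
    exact (tendsto_const_div_atTop_nhds_zero_nat B).comp (tendsto_add_atTop_nat 1)
  rw [add_zero] at h0
  refine le_of_tendsto_of_tendsto (tendsto_ulim U (bdd_NW hx R (push e c))) h0 ?_
  filter_upwards [eventually_U_ge (M * (K + 1))] with W hW
  rw [← hpe]
  exact sampling hx e' he' (blow (K + 1) M c) (W + 1) W.succ_pos (by omega)

end Averaged

/-- A space with the summing property has a spreading model with exact averaging. -/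
theorem exists_spreadModel {X : Type u} [NormedAddCommGroup X] [NormedSpace ℝ X]
    (hS : Summing X) : ∃ θ : ℝ, 0 < θ ∧ θ ≤ 2 ∧ Nonempty (SpreadModel X θ) := by
  obtain ⟨θ, hθ, hseq⟩ := hS
  refine ⟨θ, hθ, ?_, ?_⟩
  · obtain ⟨x, hx, hk⟩ := hseq 2
    obtain ⟨f, hf, hfs⟩ := hk 0
    have h := hfs 0 1 le_rfl (by decide)
    have h0 := (f.le_of_opNorm_le hf (x 0))
    have h1 := (f.le_of_opNorm_le hf (x 1))
    rw [Real.norm_eq_abs, one_mul] at h0 h1
    linarith [abs_le.mp h0, abs_le.mp h1, hx 0, hx 1]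
  choose x hx hk using hseq
  let xs : ℕ → ℕ → X := fun n i => if h : i < n then x n ⟨i, h⟩ else 0
  have hxs : ∀ n i, ‖xs n i‖ ≤ 1 := by
    intro n i
    by_cases h : i < n
    · simp [xs, h, hx n]
    · simp [xs, h]
  refine ⟨⟨Nbar hxs, fun M c => ?_, fun M R e c he => Nbar_push hxs e he c, ?_, ?_⟩⟩
  · exact ulim_le U (bdd_NW hxs M c)
      (Eventually.of_forall fun W => NW_le_l1 hxs _ _ W.succ_pos c)
  · refine le_ulim U (bdd_NW hxs 2 _) (Eventually.of_forall fun W => ?_)
    refine le_ulim _ (bdd_Gl hxs _ _) ?_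
    filter_upwards [Utup_ge_strictMono (2 * (W + 1)) 0] with s hs
    refine le_ulim U (bdd_normSx hxs _ _ s) ?_
    have hn : ∀ᶠ n in (U : Filter ℕ), ∀ p, s p < n := by
      rw [eventually_all]; exact fun p => eventually_U_ge (s p + 1)
    filter_upwards [hn] with n hn
    let pk : Fin (2 * (W + 1)) := finProdFinEquiv (0, Fin.last W)
    obtain ⟨f, hf, hfs⟩ := hk n ⟨s pk, hn pk⟩
    have hSx : Sx (xs n) _ (blow (W + 1) 2 ![1, -1]) s = ((W + 1 : ℕ) : ℝ)⁻¹ •
        ∑ q : Fin (W + 1),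
          (xs n (s (finProdFinEquiv (0, q))) - xs n (s (finProdFinEquiv (1, q)))) := by
      rw [Sx, sum_blow_smul, Fin.sum_univ_two, Finset.sum_sub_distrib, smul_sub]
      simp [sub_eq_add_neg]
    have hle : θ ≤ f (Sx (xs n) _ (blow (W + 1) 2 ![1, -1]) s) := by
      rw [hSx, map_smul, map_sum, smul_eq_mul, ← div_eq_inv_mul,
        le_div_iff₀ (by positivity)]
      have : ∀ q ∈ (Finset.univ : Finset (Fin (W + 1))),
          θ ≤ f (xs n (s (finProdFinEquiv (0, q))) - xs n (s (finProdFinEquiv (1, q)))) := by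
        intro q _
        rw [map_sub]
        simp only [xs, dif_pos (hn _)]
        refine hfs _ _ ?_ ?_
        · change s _ ≤ s pk
          refine hs.1.monotone ?_
          change (_ : ℕ) ≤ _
          have := q.isLt
          simp [pk, finProdFinEquiv]
          omega
        · change s pk < s _
          refine hs.1 ?_
          change (_ : ℕ) < _
          simp [pk, finProdFinEquiv]
          omega
      have h2 := Finset.card_nsmul_le_sum _ _ _ this
      rw [Finset.card_univ, Fintype.card_fin, nsmul_eq_mul] at h2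
      linarith
    refine le_trans hle (le_trans (le_abs_self _) ?_)
    have h3 := f.le_of_opNorm_le hf (Sx (xs n) _ (blow (W + 1) 2 ![1, -1]) s)
    rw [one_mul, Real.norm_eq_abs] at h3
    exact h3
  · intro n ι hι C ε hε
    have h1 := eventually_near_ulim U (fun i W => NW hxs (W + 1) n (C i))
      (fun i => bdd_NW hxs n (C i)) (show (0 : ℝ) < ε / 3 by linarith)
    obtain ⟨W, hW⟩ := h1.exists
    have h2 := eventually_near_ulim (Utup (n * (W + 1)))
      (fun i => Gl xs (n * (W + 1)) (blow (W + 1) n (C i)))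
      (fun i => bdd_Gl hxs _ _) (show (0 : ℝ) < ε / 3 by linarith)
    obtain ⟨s, hs⟩ := h2.exists
    have h3 := eventually_near_ulim U
      (fun i m => ‖Sx (xs m) (n * (W + 1)) (blow (W + 1) n (C i)) s‖)
      (fun i => bdd_normSx hxs _ _ s) (show (0 : ℝ) < ε / 3 by linarith)
    obtain ⟨m, hm⟩ := h3.exists
    refine ⟨fun j => ((W + 1 : ℕ) : ℝ)⁻¹ • ∑ q, xs m (s (finProdFinEquiv (j, q))), fun i => ?_⟩
    have e1 : Sx (xs m) (n * (W + 1)) (blow (W + 1) n (C i)) s =
        ∑ j, C i j • (((W + 1 : ℕ) : ℝ)⁻¹ • ∑ q, xs m (s (finProdFinEquiv (j, q)))) :=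
      sum_blow_smul _ _ _ _
    have a1 := abs_lt.mp (hW i)
    have a2 := abs_lt.mp (hs i)
    have a3 := abs_lt.mp (hm i)
    rw [← e1, abs_lt]
    simp only [Nbar_apply, NW, N0_apply, L, Gl] at a1 a2 a3 ⊢
    constructor <;> linarith

end

end Vale.Agent.P125
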