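import Vale.Agent.P125.Defs
import Vale.Agent.P125.Chain

/-!
The summing property excludes nontrivial Markov type.
-/

namespace Vale.Agent.P125

open Finset

noncomputable section

universe u

variable {X : Type u} [NormedAddCommGroup X] [NormedSpace ℝ X] {θ : ℝ}

theorem chain_bound (S : SpreadModel X θ) (hθ : 0 < θ) (hθ2 : θ ≤ 2) {p : ℝ} (hp : 1 < p)
    {K : ℝ} (hK0 : 0 ≤ K)
    (hK : ∀ (m : ℕ) (π : Fin m → ℝ) (P : Matrix (Fin m) (Fin m) ℝ),
      (∀ i, 0 ≤ π i) → ∑ i, π i = 1 → (∀ i j, 0 ≤ P i j) → (∀ i, ∑ j, P i j = 1) →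
      (∀ i j, π i * P i j = π j * P j i) →
      ∀ (f : Fin m → X) (t : ℕ), 1 ≤ t →
        ∑ i, ∑ j, π i * (P ^ t) i j * ‖f i - f j‖ ^ p ≤
          K ^ p * t * ∑ i, ∑ j, π i * P i j * ‖f i - f j‖ ^ p)
    (T : ℕ) (hT : 1 ≤ T) : 1 / 2 * (θ / 8 * T) ^ p ≤ K ^ p * T * (3 : ℝ) ^ p := by
  set t' := 2 * T + 2 with ht'
  set t := 2 * t' with ht
  set d := 6 * T with hd
  set Q := 12 * t * T with hQ
  have hd0 : 0 < d := by omega
  have hQ0 : 0 < Q := by
    rw [hQ]; exact Nat.mul_pos (by omega) hT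
  let i0 : Fin d := ⟨0, hd0⟩
  obtain ⟨n, ν, hν, hν1, hsupp, hlaw⟩ := exists_law (mark t d) (cw d)
    (fun i b => mark_strictMono t d i b) (show (0 : ℝ) < 1 / (6 * T) by positivity)
  set φ' := S.N (2 * t') (alt (2 * t')) with hφ'
  have hφθ : θ ≤ φ' := S.theta_le_alt t' (by omega)
  have hφ : S.N (2 * t) (alt (2 * t)) ≤ 2 * φ' := by rw [ht]; exact S.alt_double t'
  set ε := θ ^ 2 / 8 with hε
  have hε0 : 0 < ε := by positivity
  obtain ⟨y, hy⟩ := S.realize n ((Fin n → Fin Q) × (Fin n → Fin Q)) inferInstance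
    (fun gg => toR (gi gg.1 - gi gg.2)) ε hε0
  let f : St t d n Q → X := fun x => ∑ j, (gi x.2 j : ℝ) • y j
  have hfd : ∀ x x' : St t d n Q,
      |‖f x - f x'‖ - S.N n (toR (gi x.2 - gi x'.2))| < ε := by
    intro x x'
    have e : f x - f x' = ∑ j, toR (gi x.2 - gi x'.2) j • y j := by
      simp only [f, ← Finset.sum_sub_distrib, ← sub_smul]
      refine Finset.sum_congr rfl fun j _ => ?_
      simp [toR]
    rw [e]
    exact hy (x.2, x'.2)
  have hεφ : ε ≤ φ' := by rw [hε]; nlinarith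
  have hone : ∀ x x' : St t d n Q, stat ν x * trans ν x x' * ‖f x - f x'‖ ^ p ≤
      stat ν x * trans ν x x' * (3 * φ') ^ p := by
    intro x x'
    have hnn : 0 ≤ stat ν x * trans ν x x' :=
      mul_nonneg (stat_nonneg ν hν x) (trans_nonneg ν hν hd0 x x')
    by_cases hxx : x = x'
    · subst hxx
      rw [sub_self, norm_zero, Real.zero_rpow (by linarith)]
      exact mul_le_mul_of_nonneg_left (Real.rpow_nonneg (by linarith) _) hnn
    rcases hnn.lt_or_eq with hpos | hz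
    swap
    · rw [← hz]; simp
    have hw : wgt ν x x' ≠ 0 := by
      intro hw
      rw [trans, Matrix.of_apply, hw, if_neg hxx] at hpos
      simp at hpos
    obtain ⟨i, -, hi⟩ := Finset.exists_ne_zero_of_sum_ne_zero hw
    obtain ⟨b, -, hb⟩ := Finset.exists_ne_zero_of_sum_ne_zero hi
    obtain ⟨i', -, hi'⟩ := Finset.exists_ne_zero_of_sum_ne_zero hb
    unfold mv at hi'
    split_ifs at hi' with hm
    swap
    · exact absurd rfl hi'
    unfold cnd at hi'
    split_ifs at hi' with heq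
    swap
    · exact absurd rfl hi'
    have hν0 : ν x.1 ≠ 0 := fun h0 => hi' (by simp [h0])
    have hn : S.N n (toR (gi x.2 - gi x'.2)) ≤ 2 * φ' := by
      have e : toR (gi x.2 - gi x'.2) = -toR (label (x.1 ∘ mark t d i b) b) := by
        rw [hm]; funext j; simp [toR]
      rw [e, map_neg_eq_map,
        S.N_label _ ((hsupp _ hν0).comp (mark_strictMono t d i b))]
      exact hφ
    refine mul_le_mul_of_nonneg_left ?_ hnn
    refine Real.rpow_le_rpow (norm_nonneg _) ?_ (by linarith)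
    have := abs_lt.mp (hfd x x')
    linarith
  have hfar : ∀ (x0 x : St t d n Q) (i : Fin d), good ν i0 T x0 x i ≠ 0 →
      θ / 8 * T * φ' ≤ ‖f x0 - f x‖ := by
    intro x0 x i hg
    obtain ⟨hx, hinv⟩ := good_inv ν hν hd0 i0 hsupp (by omega) T (by omega) x0 x i hg
    obtain ⟨hz, β, c, hc, hcv⟩ := nestInv_final (t' := t') (hsupp _ hx) i.isLt (by omega) hinv
    have h1 := S.disp_bound hθ hθ2 (by omega) _ hz c hc hcv
    have h2 := abs_lt.mp (hfd x x0)
    rw [norm_sub_rev]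
    have h3 : θ * θ ≤ T * φ' * θ := by
      refine mul_le_mul_of_nonneg_right ?_ hθ.le
      have : (1 : ℝ) ≤ T := by exact_mod_cast hT
      nlinarith
    rw [hε] at h2
    nlinarith
  have hT0 : (0 : ℝ) < T := by exact_mod_cast hT
  have hmass : (1 : ℝ) / 2 ≤ ∑ x0, ∑ x : St t d n Q, ∑ i, good ν i0 T x0 x i := by
    refine le_trans ?_ (good_total ν hν hd0 i0 hQ0 hν1 hsupp (by omega) hlaw T (by omega))
    have e1 : (T : ℝ) * (1 / (6 * T) + 1 / (d : ℝ) + 2 * t / Q) = 1 / 2 := by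
      have e2 : (d : ℝ) = 6 * T := by rw [hd]; push_cast; ring
      have e3 : (Q : ℝ) = 12 * t * T := by rw [hQ]; push_cast; ring
      have : (0 : ℝ) < t := by exact_mod_cast (show 0 < t by omega)
      rw [e2, e3]
      field_simp
      ring
    rw [e1]; norm_num
  have hlow : 1 / 2 * (θ / 8 * T * φ') ^ p ≤
      ∑ x0, ∑ x, stat ν x0 * (trans ν ^ T) x0 x * ‖f x0 - f x‖ ^ p := by
    have hD : 0 ≤ θ / 8 * T * φ' := mul_nonneg (by positivity) (by linarith)
    refine le_trans (mul_le_mul_of_nonneg_right hmass (Real.rpow_nonneg hD _)) ?_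
    rw [Finset.sum_mul]
    refine Finset.sum_le_sum fun x0 _ => ?_
    rw [Finset.sum_mul]
    refine Finset.sum_le_sum fun x _ => ?_
    refine le_trans ?_ (mul_le_mul_of_nonneg_right (good_le_pow ν hν hd0 i0 T x0 x)
      (Real.rpow_nonneg (norm_nonneg _) _))
    rw [Finset.sum_mul, Finset.sum_mul]
    refine Finset.sum_le_sum fun i _ => ?_
    by_cases hg : good ν i0 T x0 x i = 0
    · simp [hg]
    · exact mul_le_mul_of_nonneg_left (Real.rpow_le_rpow hD (hfar x0 x i hg) (by linarith))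
        (good_nonneg ν hν i0 T x0 x i)
  have hup : ∑ x, ∑ x', stat ν x * trans ν x x' * ‖f x - f x'‖ ^ p ≤ (3 * φ') ^ p := by
    refine le_trans (Finset.sum_le_sum fun x _ => Finset.sum_le_sum fun x' _ => hone x x')
      (le_of_eq ?_)
    simp only [← Finset.sum_mul, ← Finset.mul_sum, trans_row, mul_one]
    rw [sum_stat ν hQ0 hν1, one_mul]
  have hMT := markov_ineq_fintype hK (stat ν) (trans ν) (stat_nonneg ν hν)
    (sum_stat ν hQ0 hν1) (trans_nonneg ν hν hd0) (trans_row ν) (trans_rev ν hν hd0) f T hT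
  have h := le_trans (le_trans hlow hMT) (mul_le_mul_of_nonneg_left hup
    (mul_nonneg (Real.rpow_nonneg hK0 _) hT0.le))
  have hφpos : 0 < φ' := lt_of_lt_of_le hθ hφθ
  rw [Real.mul_rpow (by positivity) hφpos.le, Real.mul_rpow (by norm_num) hφpos.le] at h
  have hp' : 0 < φ' ^ p := Real.rpow_pos_of_pos hφpos _
  refine le_of_mul_le_mul_right ?_ hp'
  calc 1 / 2 * (θ / 8 * ↑T) ^ p * φ' ^ p = 1 / 2 * ((θ / 8 * ↑T) ^ p * φ' ^ p) := by ring
    _ ≤ K ^ p * ↑T * ((3 : ℝ) ^ p * φ' ^ p) := h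
    _ = K ^ p * ↑T * (3 : ℝ) ^ p * φ' ^ p := by ring

/-- The summing property excludes nontrivial Markov type. -/
theorem not_markovType_of_summing (hS : Summing X) {p : ℝ} (hp : 1 < p) :
    ¬ MarkovType X p := by
  rintro ⟨K, hK0, hK⟩
  obtain ⟨θ, hθ, hθ2, ⟨S⟩⟩ := exists_spreadModel hS
  set B := K ^ p * (3 : ℝ) ^ p * 2 / (θ / 8) ^ p with hB
  have hev := (tendsto_rpow_atTop (show (0 : ℝ) < p - 1 by linarith)).comp
    (tendsto_natCast_atTop_atTop (R := ℝ))
  obtain ⟨T, hT1, hT⟩ := ((Filter.eventually_ge_atTop 1).and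
    (hev.eventually_gt_atTop B)).exists
  have hT0 : (0 : ℝ) < T := by exact_mod_cast hT1
  have h := chain_bound S hθ hθ2 hp hK0 hK T hT1
  rw [Real.mul_rpow (by positivity) hT0.le] at h
  have e : (T : ℝ) ^ p = (T : ℝ) ^ (p - 1) * T := by
    rw [← Real.rpow_add_one hT0.ne', sub_add_cancel]
  rw [e] at h
  have hpos : 0 < (θ / 8) ^ p := Real.rpow_pos_of_pos (by positivity) _
  have h2 : (θ / 8) ^ p * (T : ℝ) ^ (p - 1) ≤ K ^ p * (3 : ℝ) ^ p * 2 :=
    le_of_mul_le_mul_right (by linarith) hT0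
  have h3 : (T : ℝ) ^ (p - 1) ≤ B := by
    rw [hB, le_div_iff₀ hpos]; linarith
  exact absurd hT (not_lt.mpr h3)

end

end Vale.Agent.P125
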