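import Vale.Agent.P125.Defs

/-!
The norm induced on `X` by an equivalent norm of the dual, and the two duality statements.
-/

namespace Vale.Agent.P125

universe u

variable {X : Type u} [NormedAddCommGroup X] [NormedSpace ℝ X]

namespace Predual

variable (Ns : Seminorm ℝ (X →L[ℝ] ℝ))

/-- Values at `x` of the functionals in the unit ball of `Ns`. -/
def vals (x : X) : Set ℝ := (fun f : X →L[ℝ] ℝ => f x) '' {f | Ns f ≤ 1}

variable {Ns} {a b : ℝ} (ha : 0 < a) (hN : ∀ f : X →L[ℝ] ℝ, a * ‖f‖ ≤ Ns f ∧ Ns f ≤ b * ‖f‖)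

include ha hN

theorem le_div (x : X) : ∀ r ∈ vals Ns x, r ≤ ‖x‖ / a := by
  rintro _ ⟨f, hf, rfl⟩
  have h1 : ‖f‖ ≤ 1 / a := by
    rw [le_div_iff₀ ha, mul_comm]; exact ((hN f).1).trans hf
  calc f x ≤ ‖f x‖ := Real.le_norm_self _
    _ ≤ ‖f‖ * ‖x‖ := f.le_opNorm x
    _ ≤ 1 / a * ‖x‖ := mul_le_mul_of_nonneg_right h1 (norm_nonneg x)
    _ = ‖x‖ / a := by ring

theorem bdd (x : X) : BddAbove (vals Ns x) := ⟨‖x‖ / a, le_div ha hN x⟩

omit ha hN in
theorem zero_vals (x : X) : (0 : ℝ) ∈ vals Ns x :=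
  ⟨0, by simp, by simp⟩

theorem pairing {x : X} {f : X →L[ℝ] ℝ} (hf : Ns f ≤ 1) : f x ≤ sSup (vals Ns x) :=
  le_csSup (bdd ha hN x) ⟨f, hf, rfl⟩

theorem sSup_nonneg' (x : X) : 0 ≤ sSup (vals Ns x) := le_csSup (bdd ha hN x) (zero_vals x)

theorem add_le (x y : X) :
    sSup (vals Ns (x + y)) ≤ sSup (vals Ns x) + sSup (vals Ns y) := by
  refine csSup_le ⟨0, zero_vals _⟩ ?_
  rintro _ ⟨f, hf, rfl⟩
  simp only [map_add]
  exact add_le_add (pairing ha hN hf) (pairing ha hN hf)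

theorem smul_le (r : ℝ) (x : X) : sSup (vals Ns (r • x)) ≤ ‖r‖ * sSup (vals Ns x) := by
  refine csSup_le ⟨0, zero_vals _⟩ ?_
  rintro _ ⟨f, hf, rfl⟩
  simp only [map_smul, smul_eq_mul, Real.norm_eq_abs]
  refine (le_abs_self _).trans ?_
  rw [abs_mul]
  refine mul_le_mul_of_nonneg_left ?_ (abs_nonneg r)
  rw [abs_le]
  refine ⟨?_, pairing ha hN hf⟩
  have := pairing ha hN (x := x) (f := -f) (by rwa [map_neg_eq_map])
  simp only [neg_apply] at this
  linarith

/-- The induced seminorm on `X`. -/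
noncomputable def norm' : Seminorm ℝ X :=
  Seminorm.ofSMulLE (fun x => sSup (vals Ns x))
    (le_antisymm (csSup_le ⟨0, zero_vals _⟩ (by rintro _ ⟨f, -, rfl⟩; simp))
      (sSup_nonneg' ha hN 0))
    (add_le ha hN) (smul_le ha hN)

theorem norm'_apply (x : X) : norm' ha hN x = sSup (vals Ns x) := rfl

theorem le_mul (f : X →L[ℝ] ℝ) (x : X) : f x ≤ Ns f * norm' ha hN x := by
  rcases (apply_nonneg Ns f).eq_or_lt with h | h
  · have hf : ‖f‖ ≤ 0 := by
      have := (hN f).1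
      rw [← h] at this
      exact nonpos_of_mul_nonpos_right this ha
    rw [norm_le_zero_iff] at hf
    simp [hf]
  · have := pairing ha hN (x := x) (f := (Ns f)⁻¹ • f)
      (by rw [map_smul_eq_mul, norm_inv, Real.norm_of_nonneg h.le, inv_mul_cancel₀ h.ne'])
    rw [smul_apply, smul_eq_mul, inv_mul_le_iff₀ h] at this
    exact this

theorem exists_near (x : X) {c : ℝ} (hc : c < norm' ha hN x) :
    ∃ f : X →L[ℝ] ℝ, Ns f ≤ 1 ∧ c < f x := by
  rw [norm'_apply] at hc
  obtain ⟨_, ⟨f, hf, rfl⟩, hlt⟩ := exists_lt_of_lt_csSup (b := c) ⟨0, zero_vals x⟩ hc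
  exact ⟨f, hf, hlt⟩

theorem exists_near_unit (x : X) {c : ℝ} (hc0 : 0 ≤ c) (hc : c < norm' ha hN x) :
    ∃ f : X →L[ℝ] ℝ, Ns f = 1 ∧ c < f x := by
  obtain ⟨f, hf, hlt⟩ := exists_near ha hN x hc
  have hpos : 0 < Ns f := by
    rcases (apply_nonneg Ns f).eq_or_lt with h | h
    · have := le_mul ha hN f x
      rw [← h, zero_mul] at this
      linarith
    · exact h
  refine ⟨(Ns f)⁻¹ • f, by
    rw [map_smul_eq_mul, norm_inv, Real.norm_of_nonneg hpos.le, inv_mul_cancel₀ hpos.ne'], ?_⟩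
  rw [smul_apply, smul_eq_mul, lt_inv_mul_iff₀ hpos]
  exact lt_of_le_of_lt (mul_le_of_le_one_left hc0 hf) hlt

theorem isEquiv (hb : 0 < b) : IsEquivNorm (norm' ha hN) := by
  refine ⟨1 / b, 1 / a, by positivity, by positivity, fun x => ⟨?_, ?_⟩⟩
  · obtain ⟨g, hg, hgx⟩ := exists_dual_vector'' ℝ x
    have hNg : Ns g ≤ b := ((hN g).2).trans (mul_le_of_le_one_right hb.le hg)
    have h1 : ‖x‖ ≤ b * norm' ha hN x := by
      have := (le_mul ha hN g x).trans
        (mul_le_mul_of_nonneg_right hNg (apply_nonneg _ x))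
      simpa [hgx] using this
    rw [div_mul_eq_mul_div, one_mul, div_le_iff₀ hb]
    linarith
  · refine (csSup_le ⟨0, zero_vals x⟩ (le_div ha hN x)).trans_eq ?_
    ring

theorem smooth (hc : IsUniformlyConvex Ns) : IsUniformlySmooth (norm' ha hN) := by
  intro ε hε
  obtain ⟨δ, hδ, hconv⟩ := hc (min ε 2) (lt_min hε two_pos) (min_le_right _ _)
  refine ⟨δ, hδ, fun τ hτ hτδ x y hx hy => ?_⟩
  refine le_of_forall_pos_le_add fun η hη => ?_
  obtain ⟨f, hf, hfx⟩ := exists_near ha hN (x + τ • y)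
    (c := norm' ha hN (x + τ • y) - η) (by linarith)
  obtain ⟨g, hg, hgx⟩ := exists_near ha hN (x - τ • y)
    (c := norm' ha hN (x - τ • y) - η) (by linarith)
  have hsum : (f + g) x ≤ Ns (f + g) := by simpa [hx] using le_mul ha hN (f + g) x
  have hdif : (f - g) y ≤ Ns (f - g) := by simpa [hy] using le_mul ha hN (f - g) y
  have hfg : Ns (f + g) ≤ 2 := (map_add_le_add Ns f g).trans (by linarith)
  have hfg' : Ns (f - g) ≤ 2 := (map_sub_le_add Ns f g).trans (by linarith)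
  have hmain : norm' ha hN (x + τ • y) + norm' ha hN (x - τ • y) ≤
      Ns (f + g) + τ * Ns (f - g) + 2 * η := by
    have h1 := mul_le_mul_of_nonneg_left hdif hτ.le
    simp only [add_apply, sub_apply] at hsum h1
    simp only [map_add, map_sub, map_smul, smul_eq_mul] at hfx hgx
    linarith
  by_cases hfar : min ε 2 ≤ Ns (f - g)
  · have h := hconv f g hf hg hfar
    rw [map_smul_eq_mul, Real.norm_of_nonneg (by norm_num : (0 : ℝ) ≤ 1 / 2)] at h
    have h2 := mul_le_mul_of_nonneg_left hfg' hτ.le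
    nlinarith
  · have h2 := mul_le_mul_of_nonneg_left (not_le.1 hfar).le hτ.le
    have h3 := mul_le_mul_of_nonneg_left (min_le_left ε 2) hτ.le
    nlinarith

theorem convex (hs : IsUniformlySmooth Ns) : IsUniformlyConvex (norm' ha hN) := by
  intro ε hε hε2
  obtain ⟨τ₀, hτ₀, hsm⟩ := hs (ε / 8) (by linarith)
  set t := min (τ₀ / 2) 1 with ht
  have ht0 : 0 < t := lt_min (by linarith) one_pos
  have ht1 : t ≤ 1 := min_le_right _ _
  refine ⟨t * ε / 4, by positivity, fun x y hx hy hxy => ?_⟩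
  rw [map_smul_eq_mul, Real.norm_of_nonneg (by norm_num : (0 : ℝ) ≤ 1 / 2)]
  by_cases hbig : norm' ha hN (x + y) ≤ 1
  · nlinarith
  set η := min (t * ε / 8) (ε / 2) with hη
  have hη0 : 0 < η := lt_min (by positivity) (by linarith)
  have hηt : η ≤ t * ε / 8 := min_le_left _ _
  obtain ⟨f, hf, hfx⟩ := exists_near_unit ha hN (x + y) (c := norm' ha hN (x + y) - η)
    (by nlinarith [not_le.1 hbig]) (by linarith)
  obtain ⟨g, hg, hgx⟩ := exists_near_unit ha hN (x - y) (c := norm' ha hN (x - y) - η)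
    (by linarith [min_le_right (t * ε / 8) (ε / 2)]) (by linarith)
  have h := hsm t ht0 (lt_of_le_of_lt (min_le_left _ _) (by linarith)) f g hf hg
  have h1 : (f + t • g) x ≤ Ns (f + t • g) :=
    (le_mul ha hN _ x).trans (mul_le_of_le_one_right (apply_nonneg _ _) hx)
  have h2 : (f - t • g) y ≤ Ns (f - t • g) :=
    (le_mul ha hN _ y).trans (mul_le_of_le_one_right (apply_nonneg _ _) hy)
  simp only [add_apply, sub_apply, smul_apply, smul_eq_mul] at h1 h2
  simp only [map_add, map_sub] at hfx hgx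
  have h4 := mul_lt_mul_of_pos_left hgx ht0
  have h5 := mul_le_mul_of_nonneg_left hxy ht0.le
  have h6 := mul_le_of_le_one_left hη0.le ht1
  nlinarith

end Predual

end Vale.Agent.P125
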