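import Vale.Agent.P125.RenormTest
import Vale.Agent.P125.RenormPredual

/-!
Sub-critical martingale growth gives an equivalent uniformly smooth norm.
-/

namespace Vale.Agent.P125

universe u

variable {X : Type u} [NormedAddCommGroup X] [NormedSpace ℝ X]

theorem smoothNorm_of_martGrowth (h : HasMartGrowth X) : HasSmoothNorm X := by
  obtain ⟨Ns, ⟨a, b, ha, hb, hN⟩, hconv⟩ := convexNorm_of_flat (Chain.flat_dual h)
  exact ⟨Predual.norm' ha hN, Predual.isEquiv ha hN hb, Predual.smooth ha hN hconv⟩

end Vale.Agent.P125
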