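import Vale.Agent.P125.Defs

/-!
Bounded separated trees give a uniformly convex norm.

`chain ε (k + 1)` is the convex hull of the midpoints of `ε`-separated pairs of `chain ε k`.
If the chain dies out, the sum of the distances to its members is a convex function on the ball
with a uniform midpoint defect on separated pairs.
-/

namespace Vale.Agent.P125

open Finset Metric
open scoped Topology

universe u

variable {E : Type u} [NormedAddCommGroup E] [NormedSpace ℝ E]

/-- Midpoints of separated pairs. -/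
def mids (ε : ℝ) (B : Set E) : Set E :=
  {z | ∃ f ∈ B, ∃ g ∈ B, ε ≤ ‖f - g‖ ∧ z = (1 / 2 : ℝ) • (f + g)}

/-- The derived bodies of the unit ball. -/
def chain (ε : ℝ) : ℕ → Set E
  | 0 => closedBall 0 1
  | k + 1 => convexHull ℝ (mids ε (chain ε k))

/-- Separated trees in the ball have bounded height. -/
def Flat (E : Type u) [NormedAddCommGroup E] [NormedSpace ℝ E] : Prop :=
  ∀ ε : ℝ, 0 < ε → ∃ L : ℕ, chain (E := E) ε L = ∅

namespace Chain

theorem convex (ε : ℝ) : ∀ k, Convex ℝ (chain (E := E) ε k)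
  | 0 => convex_closedBall 0 1
  | _ + 1 => convex_convexHull ℝ _

theorem neg_mem (ε : ℝ) : ∀ k, ∀ z ∈ chain (E := E) ε k, -z ∈ chain (E := E) ε k
  | 0 => fun z hz => by simpa [chain] using hz
  | k + 1 => by
    intro z hz
    have hsub : chain (E := E) ε (k + 1) ⊆ -chain (E := E) ε (k + 1) := by
      refine convexHull_min ?_ (convex ε (k + 1)).neg
      rintro w ⟨f, hf, g, hg, hfg, rfl⟩
      refine Set.mem_neg.2 (subset_convexHull ℝ _ ⟨-f, neg_mem ε k f hf, -g, neg_mem ε k g hg, ?_, ?_⟩)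
      · rwa [show -f - -g = -(f - g) by abel, norm_neg]
      · rw [← smul_neg]; congr 1; abel
    exact Set.mem_neg.1 (hsub hz)

theorem step_subset (ε : ℝ) (k : ℕ) : chain (E := E) ε (k + 1) ⊆ chain (E := E) ε k := by
  refine convexHull_min ?_ (convex ε k)
  rintro w ⟨f, hf, g, hg, -, rfl⟩
  rw [smul_add]
  exact convex ε k hf hg (by norm_num) (by norm_num) (by norm_num)

theorem zero_mem {ε : ℝ} {k : ℕ} (h : (chain (E := E) ε k).Nonempty) : (0 : E) ∈ chain ε k := by
  obtain ⟨z, hz⟩ := h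
  simpa using convex ε k hz (neg_mem ε k z hz) (a := 1 / 2) (b := 1 / 2) (by norm_num) (by norm_num)
    (by norm_num)

theorem infDist_convex {B : Set E} (hB : Convex ℝ B) (hne : B.Nonempty) {a b : ℝ} (ha : 0 ≤ a)
    (hb : 0 ≤ b) (hab : a + b = 1) (x y : E) :
    infDist (a • x + b • y) B ≤ a * infDist x B + b * infDist y B := by
  refine le_of_forall_pos_le_add fun δ hδ => ?_
  obtain ⟨p, hp, hp'⟩ := (infDist_lt_iff hne).1 (lt_add_of_pos_right (infDist x B) hδ)
  obtain ⟨q, hq, hq'⟩ := (infDist_lt_iff hne).1 (lt_add_of_pos_right (infDist y B) hδ)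
  refine (infDist_le_dist_of_mem (hB hp hq ha hb hab)).trans ?_
  rw [dist_eq_norm] at hp' hq' ⊢
  calc ‖a • x + b • y - (a • p + b • q)‖ = ‖a • (x - p) + b • (y - q)‖ := by
        congr 1; simp only [smul_sub]; abel
    _ ≤ ‖a • (x - p)‖ + ‖b • (y - q)‖ := norm_add_le _ _
    _ = a * ‖x - p‖ + b * ‖y - q‖ := by
        rw [norm_smul, norm_smul, Real.norm_of_nonneg ha, Real.norm_of_nonneg hb]
    _ ≤ a * (infDist x B + δ) + b * (infDist y B + δ) := by gcongr
    _ = _ := by linear_combination δ * hab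

/-- Distances transfer to the midpoint one step down. -/
theorem mid_step {ε : ℝ} (hε : 0 < ε) {k : ℕ} (hne : (chain (E := E) (ε / 2) k).Nonempty) {x y : E}
    (hxy : ε ≤ ‖x - y‖)
    (hsmall : (infDist x (chain (ε / 2) k) + infDist y (chain (ε / 2) k)) / 2 < ε / 8) :
    (chain (E := E) (ε / 2) (k + 1)).Nonempty ∧
      infDist ((1 / 2 : ℝ) • (x + y)) (chain (ε / 2) (k + 1)) ≤
        (infDist x (chain (ε / 2) k) + infDist y (chain (ε / 2) k)) / 2 := by
  have key : ∀ δ : ℝ, 0 < δ → δ ≤ ε / 8 → ∃ z ∈ chain (E := E) (ε / 2) (k + 1),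
      ‖(1 / 2 : ℝ) • (x + y) - z‖ ≤
        (infDist x (chain (ε / 2) k) + infDist y (chain (ε / 2) k)) / 2 + δ := by
    intro δ hδ hδ'
    obtain ⟨p, hp, hp'⟩ :=
      (infDist_lt_iff hne).1 (lt_add_of_pos_right (infDist x (chain (ε / 2) k)) hδ)
    obtain ⟨q, hq, hq'⟩ :=
      (infDist_lt_iff hne).1 (lt_add_of_pos_right (infDist y (chain (ε / 2) k)) hδ)
    rw [dist_eq_norm] at hp' hq'
    have hsep : ε / 2 ≤ ‖p - q‖ := by
      have h1 : ‖x - y‖ ≤ ‖x - p‖ + ‖p - q‖ + ‖y - q‖ := by
        calc ‖x - y‖ = ‖(x - p) + (p - q) + -(y - q)‖ := by congr 1; abel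
          _ ≤ ‖(x - p) + (p - q)‖ + ‖-(y - q)‖ := norm_add_le _ _
          _ ≤ _ := by rw [norm_neg]; gcongr; exact norm_add_le _ _
      linarith
    refine ⟨_, subset_convexHull ℝ _ ⟨p, hp, q, hq, hsep, rfl⟩, ?_⟩
    rw [← smul_sub, norm_smul]
    have h2 : ‖x + y - (p + q)‖ ≤ ‖x - p‖ + ‖y - q‖ := by
      rw [show x + y - (p + q) = (x - p) + (y - q) by abel]; exact norm_add_le _ _
    rw [Real.norm_of_nonneg (by norm_num : (0 : ℝ) ≤ 1 / 2)]
    linarith
  obtain ⟨z, hz, -⟩ := key (ε / 8) (by linarith) le_rfl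
  refine ⟨⟨z, hz⟩, le_of_forall_pos_le_add fun δ hδ => ?_⟩
  obtain ⟨w, hw, hw'⟩ := key (min δ (ε / 8)) (lt_min hδ (by linarith)) (min_le_right _ _)
  refine (infDist_le_dist_of_mem hw).trans ?_
  rw [dist_eq_norm]
  linarith [min_le_left δ (ε / 8)]

/-- A convex even `1`-Lipschitz function with a midpoint defect on separated pairs of the ball. -/
theorem exists_defect (hflat : Flat E) {ε : ℝ} (hε : 0 < ε) :
    ∃ (g : E → ℝ) (η : ℝ), 0 < η ∧ (∀ z, 0 ≤ g z ∧ g z ≤ ‖z‖) ∧ (∀ z, g (-z) = g z) ∧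
      (∀ z w, g z ≤ g w + ‖z - w‖) ∧
      (∀ (a b : ℝ), 0 ≤ a → 0 ≤ b → a + b = 1 → ∀ z w, g (a • z + b • w) ≤ a * g z + b * g w) ∧
      ∀ x y, ‖x‖ ≤ 1 → ‖y‖ ≤ 1 → ε ≤ ‖x - y‖ →
        g ((1 / 2 : ℝ) • (x + y)) ≤ (g x + g y) / 2 - η := by
  classical
  set B : ℕ → Set E := chain (ε / 2) with hB
  have hex : ∃ L, B L = ∅ := hflat (ε / 2) (by linarith)
  set L := Nat.find hex with hL
  have hLe : B L = ∅ := Nat.find_spec hex
  have hne : ∀ k < L, (B k).Nonempty := fun k hk =>
    Set.nonempty_iff_ne_empty.2 (Nat.find_min hex hk)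
  have hL1 : 1 ≤ L := by
    rcases Nat.eq_zero_or_pos L with h | h
    · rw [h] at hLe
      exact absurd hLe (Set.nonempty_iff_ne_empty.1 ⟨0, by simp [hB, chain]⟩)
    · exact h
  have hLr : (0 : ℝ) < L := by exact_mod_cast hL1
  set h : ℕ → E → ℝ := fun k z => infDist z (B k) with hh
  have hle : ∀ k < L, ∀ z, h k z ≤ ‖z‖ := fun k hk z => by
    simpa [hh] using infDist_le_dist_of_mem (x := z) (zero_mem (hne k hk))
  have hneg : ∀ k, ∀ z, h k (-z) = h k z := by
    intro k z
    have hset : (fun w : E => -w) '' B k = B k := by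
      ext w
      refine ⟨?_, fun hw => ⟨-w, neg_mem _ _ w hw, neg_neg w⟩⟩
      rintro ⟨v, hv, rfl⟩
      exact neg_mem _ _ v hv
    simp only [hh]
    conv_lhs => rw [← hset]
    exact infDist_image (Isometry.of_dist_eq fun a b => dist_neg_neg a b)
  refine ⟨fun z => (∑ k ∈ range L, h k z) / L, ε / 8 / L, by positivity, fun z => ⟨?_, ?_⟩,
    fun z => ?_, fun z w => ?_, fun a b ha hb hab z w => ?_, fun x y hx hy hxy => ?_⟩
  · exact div_nonneg (sum_nonneg fun k _ => infDist_nonneg) hLr.le
  · rw [div_le_iff₀ hLr]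
    calc ∑ k ∈ range L, h k z ≤ ∑ _k ∈ range L, ‖z‖ :=
          sum_le_sum fun k hk => hle k (mem_range.1 hk) z
      _ = ‖z‖ * L := by simp [mul_comm]
  · simp only [hneg]
  · rw [div_le_iff₀ hLr, add_mul, div_mul_cancel₀ _ hLr.ne']
    calc ∑ k ∈ range L, h k z ≤ ∑ k ∈ range L, (h k w + ‖z - w‖) :=
          sum_le_sum fun k _ => by
            simp only [hh]; rw [← dist_eq_norm]; exact infDist_le_infDist_add_dist
      _ = _ := by rw [sum_add_distrib]; simp [mul_comm]
  · rw [← mul_div_assoc, ← mul_div_assoc, ← add_div, div_le_div_iff_of_pos_right hLr, mul_sum,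
      mul_sum, ← sum_add_distrib]
    exact sum_le_sum fun k hk =>
      infDist_convex (convex _ k) (hne k (mem_range.1 hk)) ha hb hab z w
  · set m := (1 / 2 : ℝ) • (x + y) with hm
    set a : ℕ → ℝ := fun k => (h k x + h k y) / 2 with ha
    set b : ℕ → ℝ := fun k => h k m with hb
    have hba : ∀ k < L, b k ≤ a k := by
      intro k hk
      have := infDist_convex (convex (ε / 2) k) (hne k hk) (a := 1 / 2) (b := 1 / 2)
        (by norm_num) (by norm_num) (by norm_num) x y
      simp only [hb, ha, hm, hh, hB, smul_add]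
      linarith
    have hnext : ∀ k < L, a k < ε / 8 → k + 1 < L ∧ b (k + 1) ≤ a k := by
      intro k hk hka
      obtain ⟨h1, h2⟩ := mid_step hε (hne k hk) hxy hka
      refine ⟨lt_of_le_of_ne hk fun e => ?_, h2⟩
      have : (B L).Nonempty := e ▸ h1
      rw [hLe] at this
      exact Set.not_nonempty_empty this
    have hex2 : ∃ k, k < L ∧ ε / 8 ≤ a k := by
      by_contra hc
      simp only [not_exists, not_and, not_le] at hc
      have := (hnext (L - 1) (by omega) (hc _ (by omega))).1
      omega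
    set K := Nat.find hex2 with hK
    obtain ⟨hKL, hKa⟩ := Nat.find_spec hex2
    have hbefore : ∀ k < K, a k < ε / 8 := fun k hk => by
      have := Nat.find_min hex2 hk
      simp only [not_and, not_le] at this
      exact this (by omega)
    have ha0 : a 0 = 0 := by
      have h0 : ∀ z : E, ‖z‖ ≤ 1 → h 0 z = 0 := fun z hz => by
        simp only [hh, hB, chain]
        exact infDist_zero_of_mem (by simpa using hz)
      simp [ha, h0 x hx, h0 y hy]
    have hdef : ε / 8 ≤ ∑ k ∈ range L, (a k - b k) := by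
      refine le_trans ?_ (sum_le_sum_of_subset_of_nonneg (s := range (K + 1))
        (range_subset_range.2 (by omega)) fun k hk _ => sub_nonneg.2 (hba k (mem_range.1 hk)))
      have hterm : ∀ k ∈ range K, a (k + 1) - a k ≤ a (k + 1) - b (k + 1) := fun k hk => by
        have hk' := mem_range.1 hk
        linarith [(hnext k (by omega) (hbefore k hk')).2]
      rw [sum_range_succ']
      have h0 : 0 ≤ a 0 - b 0 := sub_nonneg.2 (hba 0 (by omega))
      have := sum_le_sum hterm
      rw [sum_range_sub, ha0, sub_zero] at this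
      linarith
    rw [sum_sub_distrib] at hdef
    simp only [ha, ← sum_div, sum_add_distrib] at hdef
    show (∑ k ∈ range L, b k) / L ≤
      ((∑ k ∈ range L, h k x) / L + (∑ k ∈ range L, h k y) / L) / 2 - ε / 8 / L
    rw [← add_div, div_right_comm _ (L : ℝ) 2, ← sub_div, div_le_div_iff_of_pos_right hLr]
    linarith

end Chain

/-- Flatness gives an equivalent uniformly convex norm. -/
theorem convexNorm_of_flat (hflat : Flat E) : HasConvexNorm E := by
  classical
  choose g η hη hg hev hlip hcvx hdef using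
    fun j : ℕ => Chain.exists_defect hflat (ε := (1 / 2 : ℝ) ^ j) (by positivity)
  set c : ℕ → ℝ := fun j => (1 / 2 : ℝ) ^ (j + 1) with hc
  have hcs : HasSum c 1 := by
    have := (hasSum_geometric_of_lt_one (r := (1 / 2 : ℝ)) (by norm_num) (by norm_num)).mul_left
      (1 / 2 : ℝ)
    simp only [hc, pow_succ']
    norm_num at this ⊢
    exact this
  have hsum : ∀ z, Summable fun j => c j * g j z := fun z =>
    Summable.of_nonneg_of_le (fun j => mul_nonneg (by positivity) (hg j z).1)
      (fun j => mul_le_mul_of_nonneg_left (hg j z).2 (by positivity))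
      (hcs.summable.mul_right ‖z‖)
  set φ : E → ℝ := fun z => ∑' j, c j * g j z with hφ
  have hφ0 : ∀ z, 0 ≤ φ z := fun z => tsum_nonneg fun j => mul_nonneg (by positivity) (hg j z).1
  have hφ1 : ∀ z, φ z ≤ ‖z‖ := fun z => by
    refine ((hsum z).tsum_le_tsum (fun j => mul_le_mul_of_nonneg_left (hg j z).2 (by positivity))
      (hcs.summable.mul_right ‖z‖)).trans_eq ?_
    rw [tsum_mul_right, hcs.tsum_eq, one_mul]
  set F : E → ℝ := fun z => ‖z‖ + φ z with hF
  have hFlip : ∀ z w, F z ≤ F w + 2 * ‖z - w‖ := fun z w => by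
    have h1 : φ z ≤ φ w + ‖z - w‖ := by
      calc φ z ≤ ∑' j, (c j * g j w + c j * ‖z - w‖) :=
            (hsum z).tsum_le_tsum (fun j => by
              rw [← mul_add]; exact mul_le_mul_of_nonneg_left (hlip j z w) (by positivity))
              ((hsum w).add (hcs.summable.mul_right _))
        _ = _ := by
            rw [(hsum w).tsum_add (hcs.summable.mul_right _), tsum_mul_right, hcs.tsum_eq, one_mul]
    have h2 := norm_sub_norm_le z w
    simp only [hF]
    linarith
  have hFc : ∀ a b : ℝ, 0 ≤ a → 0 ≤ b → a + b = 1 → ∀ z w, F (a • z + b • w) ≤ a * F z + b * F w := by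
    intro a b ha hb hab z w
    have h1 : φ (a • z + b • w) ≤ a * φ z + b * φ w := by
      simp only [hφ, ← tsum_mul_left]
      rw [← ((hsum z).mul_left a).tsum_add ((hsum w).mul_left b)]
      refine (hsum _).tsum_le_tsum (fun j => ?_) (((hsum z).mul_left a).add ((hsum w).mul_left b))
      calc c j * g j (a • z + b • w) ≤ c j * (a * g j z + b * g j w) :=
            mul_le_mul_of_nonneg_left (hcvx j a b ha hb hab z w) (by positivity)
        _ = _ := by ring
    have h2 : ‖a • z + b • w‖ ≤ a * ‖z‖ + b * ‖w‖ := by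
      refine (norm_add_le _ _).trans_eq ?_
      rw [norm_smul, norm_smul, Real.norm_of_nonneg ha, Real.norm_of_nonneg hb]
    simp only [hF]
    linarith
  set C : Set E := {z | F z ≤ 1} with hC
  have hCc : Convex ℝ C := by
    intro z hz w hw a b ha hb hab
    refine (hFc a b ha hb hab z w).trans ?_
    calc a * F z + b * F w ≤ a * 1 + b * 1 := by gcongr <;> assumption
      _ = 1 := by linarith
  have hFneg : ∀ z, F (-z) = F z := fun z => by simp [hF, hφ, hev]
  have hball : closedBall (0 : E) (1 / 2) ⊆ C := fun z hz => by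
    rw [mem_closedBall, dist_zero_right] at hz
    show ‖z‖ + φ z ≤ 1
    linarith [hφ1 z]
  have hnhds : C ∈ 𝓝 (0 : E) :=
    Filter.mem_of_superset (closedBall_mem_nhds 0 (by norm_num)) hball
  have h0C : (0 : E) ∈ C := mem_of_mem_nhds hnhds
  have hbal : Balanced ℝ C := by
    intro a ha
    rintro _ ⟨z, hz, rfl⟩
    rw [Real.norm_eq_abs, abs_le] at ha
    show F (a • z) ≤ 1
    have h := hFc ((1 + a) / 2) ((1 - a) / 2) (by linarith) (by linarith) (by ring) z (-z)
    rw [show ((1 + a) / 2) • z + ((1 - a) / 2) • (-z) = a • z by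
      rw [smul_neg, ← sub_eq_add_neg, ← sub_smul]; congr 1; ring, hFneg] at h
    refine h.trans ?_
    have : F z ≤ 1 := hz
    nlinarith
  have habs : Absorbent ℝ C := absorbent_nhds_zero hnhds
  set N : Seminorm ℝ E := gaugeSeminorm hbal hCc habs with hN
  have hNapp : ∀ z, N z = gauge C z := fun z => rfl
  have hclosed : IsClosed C := by
    refine isClosed_le ?_ continuous_const
    refine (LipschitzWith.of_le_add_mul 2 fun z w => ?_).continuous
    rw [dist_eq_norm]
    exact_mod_cast hFlip z w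
  have hmemC : ∀ z, N z ≤ 1 ↔ F z ≤ 1 := fun z => by
    rw [hNapp, gauge_le_one_iff_mem_closure hCc hnhds, hclosed.closure_eq]
    rfl
  have hlow : ∀ z, ‖z‖ ≤ N z := fun z => by
    have hsub : C ⊆ closedBall (0 : E) 1 := fun w hw => by
      rw [mem_closedBall, dist_zero_right]
      have : ‖w‖ + φ w ≤ 1 := hw
      linarith [hφ0 w]
    have := gauge_mono habs hsub z
    rwa [gauge_closedBall zero_le_one, div_one] at this
  have hupp : ∀ z, N z ≤ 2 * ‖z‖ := fun z => by
    have habs' : Absorbent ℝ (closedBall (0 : E) (1 / 2)) :=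
      absorbent_nhds_zero (closedBall_mem_nhds 0 (by norm_num))
    have := gauge_mono habs' hball z
    rw [gauge_closedBall (by norm_num)] at this
    rw [hNapp]
    linarith
  refine ⟨N, ⟨1, 2, one_pos, two_pos, fun z => ⟨by rw [one_mul]; exact hlow z, hupp z⟩⟩, ?_⟩
  intro ε hε hε2
  obtain ⟨j, hj⟩ := exists_pow_lt_of_lt_one (show 0 < ε / 2 by linarith)
    (show (1 / 2 : ℝ) < 1 by norm_num)
  set δ := min (c j * η j) 1 with hδ
  have hδ0 : 0 < δ := lt_min (mul_pos (by positivity) (hη j)) one_pos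
  refine ⟨δ / 4, by linarith, fun x y hx hy hxy => ?_⟩
  have hFx := (hmemC x).1 hx
  have hFy := (hmemC y).1 hy
  have hsep : (1 / 2 : ℝ) ^ j ≤ ‖x - y‖ := by linarith [hupp (x - y)]
  have hd := hdef j x y ((hlow x).trans hx) ((hlow y).trans hy) hsep
  set m := (1 / 2 : ℝ) • (x + y) with hm
  have hmid : φ m ≤ (φ x + φ y) / 2 - c j * η j := by
    have hle : ∀ i, c i * g i m ≤ (c i * g i x + c i * g i y) / 2 - if i = j then c j * η j else 0 := by
      intro i
      split_ifs with h
      · subst h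
        have := mul_le_mul_of_nonneg_left hd (show 0 ≤ c i by positivity)
        linarith
      · have h1 := mul_le_mul_of_nonneg_left (hcvx i (1 / 2) (1 / 2) (by norm_num) (by norm_num)
          (by norm_num) x y) (show 0 ≤ c i by positivity)
        rw [← smul_add] at h1
        linarith
    have hs1 := ((hsum x).add (hsum y)).div_const 2
    have hs2 : Summable fun i => if i = j then c j * η j else 0 :=
      summable_of_hasFiniteSupport ((Set.finite_singleton j).subset fun i hi => by
        by_contra h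
        simp only [Set.mem_singleton_iff] at h
        simp [h] at hi)
    refine ((hsum m).tsum_le_tsum hle (hs1.sub hs2)).trans_eq ?_
    rw [hs1.tsum_sub hs2, tsum_div_const, (hsum x).tsum_add (hsum y), tsum_ite_eq]
  have hnm : ‖m‖ ≤ (‖x‖ + ‖y‖) / 2 := by
    rw [hm, norm_smul, Real.norm_of_nonneg (by norm_num : (0 : ℝ) ≤ 1 / 2)]
    linarith [norm_add_le x y]
  have hFm : F m ≤ 1 - δ := by
    have hFx' : ‖x‖ + φ x ≤ 1 := hFx
    have hFy' : ‖y‖ + φ y ≤ 1 := hFy
    show ‖m‖ + φ m ≤ 1 - δ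
    linarith [min_le_left (c j * η j) 1]
  have hz : N ((1 + δ / 2) • m) ≤ 1 := by
    rw [hmemC]
    have h1 := hFlip ((1 + δ / 2) • m) m
    have h2 : ‖(1 + δ / 2) • m - m‖ ≤ δ / 2 := by
      rw [show (1 + δ / 2) • m - m = (δ / 2) • m by rw [add_smul, one_smul]; abel, norm_smul,
        Real.norm_of_nonneg (by linarith)]
      have : ‖m‖ ≤ 1 := by linarith [(hlow x).trans hx, (hlow y).trans hy]
      nlinarith
    linarith
  rw [map_smul_eq_mul, Real.norm_of_nonneg (by linarith)] at hz
  have hδ1 : δ ≤ 1 := min_le_right _ _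
  have hN0 : 0 ≤ N m := apply_nonneg N m
  nlinarith [mul_nonneg hδ0.le hδ0.le]

end Vale.Agent.P125
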