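import Vale.Agent.P125.RenormBody

/-!
Sub-critical martingale growth in `X` bounds the separated trees in the ball of the dual.

A point of `chain ε k` is the mean of a random norm one functional that pairs at least `k ε / 4`
with some martingale of length `k` with increments of norm at most one.
-/

namespace Vale.Agent.P125

open Finset

universe u

variable {X : Type u} [NormedAddCommGroup X] [NormedSpace ℝ X]

namespace Chain

/-- A testing martingale for a functional. -/
def Tested (ε : ℝ) (k : ℕ) (f : X →L[ℝ] ℝ) : Prop :=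
  ∃ (Ω : Type) (_ : Fintype Ω) (w : Ω → ℝ) (M : ℕ → Ω → X) (G : Ω → (X →L[ℝ] ℝ)),
    IsProb w ∧ IsMart w M k ∧ (∀ ω, M 0 ω = 0) ∧ (∀ s < k, ∀ ω, ‖M (s + 1) ω - M s ω‖ ≤ 1) ∧
      (∀ ω, ‖G ω‖ ≤ 1) ∧ ∑ ω, w ω • G ω = f ∧ (k : ℝ) * ε / 4 ≤ ∑ ω, w ω * G ω (M k ω)

theorem exists_vec {ε : ℝ} (hε : 0 < ε) {T : X →L[ℝ] ℝ} (hT : ε ≤ ‖T‖) :
    ∃ v : X, ‖v‖ ≤ 1 ∧ ε / 2 ≤ T v := by
  by_contra hc
  simp only [not_exists, not_and, not_le] at hc
  have h : ‖T‖ ≤ ε / 2 := by
    refine T.opNorm_le_bound (by linarith) fun z => ?_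
    rcases eq_or_ne z 0 with rfl | hz
    · simp
    have hn : 0 < ‖z‖ := norm_pos_iff.2 hz
    have h1 := hc (‖z‖⁻¹ • z) (by rw [norm_smul, norm_inv, norm_norm, inv_mul_cancel₀ hn.ne'])
    have h2 := hc (-(‖z‖⁻¹ • z)) (by
      rw [norm_neg, norm_smul, norm_inv, norm_norm, inv_mul_cancel₀ hn.ne'])
    rw [map_smul, smul_eq_mul] at h1
    rw [map_neg, map_smul, smul_eq_mul] at h2
    rw [Real.norm_eq_abs, abs_le]
    constructor
    · have := mul_lt_mul_of_pos_left h2 hn
      rw [mul_neg, ← mul_assoc, mul_inv_cancel₀ hn.ne', one_mul] at this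
      linarith
    · have := mul_lt_mul_of_pos_left h1 hn
      rw [← mul_assoc, mul_inv_cancel₀ hn.ne', one_mul] at this
      linarith
  linarith

theorem tested {ε : ℝ} (hε : 0 < ε) : ∀ (k : ℕ), ∀ f ∈ chain (E := X →L[ℝ] ℝ) ε k, Tested ε k f
  | 0, f, hf => by
    refine ⟨Unit, inferInstance, fun _ => 1, fun _ _ => 0, fun _ => f, ⟨fun _ => zero_le_one, by simp⟩,
      fun s hs => absurd hs (Nat.not_lt_zero s), fun _ => rfl, fun s hs => absurd hs (Nat.not_lt_zero s),
      fun _ => by simpa [chain] using hf, by simp, by simp⟩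
  | k + 1, f, hf => by
    classical
    obtain ⟨t, z, hz, lam, hlam, hsum, hf'⟩ : ∃ (t : Finset (X →L[ℝ] ℝ)) (_z : Unit),
        (↑t ⊆ mids ε (chain (E := X →L[ℝ] ℝ) ε k)) ∧ ∃ lam : (X →L[ℝ] ℝ) → ℝ,
          (∀ y ∈ t, 0 ≤ lam y) ∧ ∑ y ∈ t, lam y = 1 ∧ ∑ y ∈ t, lam y • y = f := by
      rw [chain, convexHull_eq_union_convexHull_finite_subsets] at hf
      obtain ⟨t, ht, hft⟩ := Set.mem_iUnion₂.1 hf
      rw [Finset.convexHull_eq] at hft
      obtain ⟨lam, hlam, hsum, hc⟩ := hft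
      refine ⟨t, (), ht, lam, hlam, hsum, ?_⟩
      rwa [Finset.centerMass_eq_of_sum_1 _ _ hsum] at hc
    -- the data of each summand
    let ι := Fin t.card
    let y : ι → (X →L[ℝ] ℝ) := fun i => (t.equivFin.symm i).1
    have hy : ∀ i, ∃ a b : X →L[ℝ] ℝ, a ∈ chain ε k ∧ b ∈ chain ε k ∧ ε ≤ ‖a - b‖ ∧
        y i = (1 / 2 : ℝ) • (a + b) := fun i => by
      obtain ⟨a, ha, b, hb, hab, he⟩ := hz (t.equivFin.symm i).2
      exact ⟨a, b, ha, hb, hab, he⟩
    choose a b ha hb hab hye using hy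
    have hv : ∀ i, ∃ v : X, ‖v‖ ≤ 1 ∧ ε / 2 ≤ (a i - b i) v := fun i => exists_vec hε (hab i)
    choose v hv1 hv2 using hv
    let pick : ι × Bool → (X →L[ℝ] ℝ) := fun q => if q.2 then a q.1 else b q.1
    have hpick : ∀ q, Tested ε k (pick q) := fun q => by
      by_cases h : q.2 = true
      · simp only [pick, h, if_true]; exact tested hε k _ (ha q.1)
      · simp only [pick, h, if_false, Bool.false_eq_true]; exact tested hε k _ (hb q.1)
    choose Ω hΩ w M G hw hM hM0 hstep hG hmean hpay using hpick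
    let sg : ι × Bool → X := fun q => if q.2 then v q.1 else -v q.1
    let W : (Σ q : ι × Bool, Ω q) → ℝ := fun p => lam (y p.1.1) / 2 * w p.1 p.2
    let N : ℕ → (Σ q : ι × Bool, Ω q) → X := fun s p =>
      if s = 0 then 0 else sg p.1 + M p.1 (s - 1) p.2
    have hlamy : ∀ i, 0 ≤ lam (y i) := fun i => hlam _ (t.equivFin.symm i).2
    have hsumy : ∀ φ : (X →L[ℝ] ℝ) → ℝ, ∑ i : ι, φ (y i) = ∑ x ∈ t, φ x := fun φ => by
      rw [← Finset.sum_coe_sort t φ]
      exact t.equivFin.symm.sum_comp fun x => φ x.1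
    have hsumyv : ∀ φ : (X →L[ℝ] ℝ) → (X →L[ℝ] ℝ), ∑ i : ι, φ (y i) = ∑ x ∈ t, φ x := fun φ => by
      rw [← Finset.sum_coe_sort t φ]
      exact t.equivFin.symm.sum_comp fun x => φ x.1
    refine ⟨Σ q : ι × Bool, Ω q, inferInstance, W, N, fun p => G p.1 p.2, ⟨fun p => ?_, ?_⟩,
      ?_, fun p => rfl, ?_, fun p => hG p.1 p.2, ?_, ?_⟩
    · exact mul_nonneg (div_nonneg (hlamy _) two_pos.le) ((hw p.1).1 p.2)
    · simp only [W, Fintype.sum_sigma, ← Finset.mul_sum, fun q => (hw q).2, mul_one]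
      rw [Fintype.sum_prod_type]
      simp only [Fintype.sum_bool, add_halves]
      rw [hsumy lam, hsum]
    · intro s hs h hh
      rcases Nat.eq_zero_or_pos s with rfl | hs0
      · -- the first step is a fair sign
        have hconst : ∀ p p', h p = h p' := fun p p' => hh p p' fun i hi => by
          obtain rfl : i = 0 := Nat.le_zero.1 hi
          rfl
        rcases isEmpty_or_nonempty (Σ q : ι × Bool, Ω q) with he | ⟨⟨p₀⟩⟩
        · simp
        simp only [Fintype.sum_sigma, W, N, if_pos, Nat.zero_add, one_ne_zero, if_false,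
          Nat.sub_self, hM0, add_zero, sub_zero, hconst _ p₀]
        simp only [← Finset.sum_smul, ← Finset.sum_mul, ← Finset.mul_sum, fun q => (hw q).2, mul_one]
        rw [Fintype.sum_prod_type]
        refine Finset.sum_eq_zero fun i _ => ?_
        simp [sg]
      · obtain ⟨s, rfl⟩ : ∃ r, s = r + 1 := ⟨s - 1, by omega⟩
        rw [Fintype.sum_sigma]
        refine Finset.sum_eq_zero fun q _ => ?_
        have := hM q s (by omega) (fun ω => h ⟨q, ω⟩) fun ω ω' hi => hh _ _ fun i hi' => by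
          rcases Nat.eq_zero_or_pos i with rfl | hi0
          · rfl
          · simp only [N, if_neg hi0.ne', hi (i - 1) (by omega)]
        calc ∑ ω, (W ⟨q, ω⟩ * h ⟨q, ω⟩) • (N (s + 1 + 1) ⟨q, ω⟩ - N (s + 1) ⟨q, ω⟩)
            = (lam (y q.1) / 2) • ∑ ω, (w q ω * h ⟨q, ω⟩) • (M q (s + 1) ω - M q s ω) := by
              rw [Finset.smul_sum]
              refine Finset.sum_congr rfl fun ω _ => ?_
              simp only [W, N, Nat.succ_ne_zero, if_false, Nat.add_sub_cancel, add_sub_add_left_eq_sub,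
                smul_smul]
              ring_nf
          _ = 0 := by rw [this, smul_zero]
    · intro s hs p
      rcases Nat.eq_zero_or_pos s with rfl | hs0
      · simp only [N, if_pos, Nat.zero_add, one_ne_zero, if_false, Nat.sub_self, hM0, add_zero,
          sub_zero, sg]
        split_ifs <;> simp [hv1]
      · obtain ⟨s, rfl⟩ : ∃ r, s = r + 1 := ⟨s - 1, by omega⟩
        simp only [N, Nat.succ_ne_zero, if_false, Nat.add_sub_cancel, add_sub_add_left_eq_sub]
        exact hstep p.1 s (by omega) p.2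
    · simp only [Fintype.sum_sigma, W]
      simp only [mul_smul, ← Finset.smul_sum, hmean]
      rw [Fintype.sum_prod_type, ← hf', ← hsumyv fun x => lam x • x]
      refine Finset.sum_congr rfl fun i _ => ?_
      simp only [Fintype.sum_bool, pick, if_true, Bool.false_eq_true, if_false]
      rw [← smul_add, hye, smul_smul, mul_one_div]
    · have hsplit : ∀ q, ∑ ω, W ⟨q, ω⟩ * G q ω (N (k + 1) ⟨q, ω⟩) =
          lam (y q.1) / 2 * (pick q (sg q) + ∑ ω, w q ω * G q ω (M q k ω)) := by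
        intro q
        have hp : pick q (sg q) = ∑ ω, w q ω * G q ω (sg q) := by
          rw [← hmean q]; simp
        rw [hp, ← Finset.sum_add_distrib, Finset.mul_sum]
        refine Finset.sum_congr rfl fun ω _ => ?_
        simp only [W, N, Nat.succ_ne_zero, if_false, Nat.add_sub_cancel, map_add]
        ring
      rw [Fintype.sum_sigma, Finset.sum_congr rfl fun q _ => hsplit q, Fintype.sum_prod_type]
      refine le_trans (le_of_eq ?_) (Finset.sum_le_sum (f := fun i : ι =>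
        lam (y i) * (((k + 1 : ℕ) : ℝ) * ε / 4)) fun i _ => ?_)
      · rw [← Finset.sum_mul, hsumy lam, hsum, one_mul]
      · simp only [Fintype.sum_bool, pick, sg, if_true, Bool.false_eq_true, if_false, map_neg]
        have h1 := hpay (i, true)
        have h2 := hpay (i, false)
        have h3 := hv2 i
        simp only [sub_apply] at h3
        push_cast
        have h4 := mul_le_mul_of_nonneg_left (show ((k : ℝ) + 1) * ε / 2 ≤
          (a i (v i) + ∑ ω, w (i, true) ω * G (i, true) ω (M (i, true) k ω)) +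
            (-(b i (v i)) + ∑ ω, w (i, false) ω * G (i, false) ω (M (i, false) k ω)) by linarith)
          (div_nonneg (hlamy i) two_pos.le)
        linarith

theorem flat_dual (h : HasMartGrowth X) : Flat (X →L[ℝ] ℝ) := by
  obtain ⟨C, α, hC, hα, hα', hbd⟩ := h
  intro ε hε
  -- the growth beats the payoff
  have hlim := (tendsto_rpow_atTop (show 0 < 1 / 2 - α by linarith)).comp
    tendsto_natCast_atTop_atTop
  obtain ⟨k, hk, hk1⟩ := ((hlim.eventually_gt_atTop (4 * C / ε)).and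
    (Filter.eventually_ge_atTop 1)).exists
  refine ⟨k, Set.eq_empty_iff_forall_notMem.2 fun f hf => ?_⟩
  obtain ⟨Ω, _, w, M, G, hw, hM, hM0, hstep, hG, -, hpay⟩ := tested hε k f hf
  have hb := hbd k hk1 Ω w M hw hM hM0
  have hk0 : (0 : ℝ) < k := by exact_mod_cast hk1
  set A : ℝ := C * (k : ℝ) ^ α with hA
  have hsum : ∑ s ∈ Finset.range k, ∑ ω, w ω * ‖M (s + 1) ω - M s ω‖ ^ 2 ≤ k := by
    calc _ ≤ ∑ _s ∈ Finset.range k, (1 : ℝ) := by
          refine Finset.sum_le_sum fun s hs => ?_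
          calc ∑ ω, w ω * ‖M (s + 1) ω - M s ω‖ ^ 2 ≤ ∑ ω, w ω * 1 :=
                Finset.sum_le_sum fun ω _ => mul_le_mul_of_nonneg_left
                  (pow_le_one₀ (norm_nonneg _) (hstep s (Finset.mem_range.1 hs) ω)) (hw.1 ω)
            _ = 1 := by simp [hw.2]
      _ = k := by simp
  have hG1 : ∑ ω, w ω * G ω (M k ω) ≤ ∑ ω, w ω * ‖M k ω‖ := Finset.sum_le_sum fun ω _ =>
    mul_le_mul_of_nonneg_left ((le_abs_self _).trans (((G ω).le_opNorm _).trans
      (mul_le_of_le_one_left (norm_nonneg _) (hG ω)))) (hw.1 ω)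
  have hcs : (∑ ω, w ω * ‖M k ω‖) ^ 2 ≤ A ^ 2 * k := by
    refine le_trans ?_ (hb.trans (mul_le_mul_of_nonneg_left hsum (sq_nonneg A)))
    have h := Finset.sum_sq_le_sum_mul_sum_of_sq_le_mul Finset.univ
      (r := fun ω => w ω * ‖M k ω‖) (f := w) (g := fun ω => w ω * ‖M k ω‖ ^ 2)
      (fun ω _ => hw.1 ω) (fun ω _ => mul_nonneg (hw.1 ω) (sq_nonneg _)) fun ω _ => le_of_eq (by ring)
    rwa [hw.2, one_mul] at h
  have hmain : (k : ℝ) * ε / 4 ≤ A * Real.sqrt k := by
    refine (hpay.trans hG1).trans ?_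
    refine le_of_pow_le_pow_left₀ two_ne_zero (by positivity) ?_
    rw [mul_pow, Real.sq_sqrt hk0.le]
    exact hcs
  have hk' : 4 * C / ε < (k : ℝ) ^ (1 / 2 - α) := hk
  rw [div_lt_iff₀ hε] at hk'
  have e1 : (k : ℝ) ^ (1 / 2 - α) * ((k : ℝ) ^ α * Real.sqrt k) = k := by
    rw [Real.sqrt_eq_rpow, ← mul_assoc, ← Real.rpow_add hk0, ← Real.rpow_add hk0]
    norm_num
  have hpos : 0 < (k : ℝ) ^ α * Real.sqrt k :=
    mul_pos (Real.rpow_pos_of_pos hk0 _) (Real.sqrt_pos.2 hk0)
  have h2 := mul_lt_mul_of_pos_right hk' hpos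
  rw [mul_comm ((k : ℝ) ^ (1 / 2 - α)) ε, mul_assoc ε, e1] at h2
  rw [hA] at hmain
  nlinarith

end Chain

end Vale.Agent.P125
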